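import Vale.Agent.P157.Par.Defs
import Vale.Agent.P168.MP.Cavity

/-! Elementary facts for the cavity computation: continuity of the nested expectations in the weight,
Jensen for the nested log functional, removal of one pattern. -/

open MeasureTheory ProbabilityTheory Real Finset
open Vale.Agent.P150 (gauss dot)
open Vale.Agent.P168.MP (lin ET Z ext nest logZ0 Ok pw)

namespace Vale.Agent.P157.Par

section cont
variable {X : Type*} [TopologicalSpace X] {Ω : Type*} [Fintype Ω] [Nonempty Ω] {m : ℕ → ℝ}
  {w Y : X → List Ω → ℝ}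

lemma continuous_Z (hc : ∀ p, Continuous fun x => w x p) (hw : ∀ x p, 0 < w x p) :
    ∀ (k : ℕ) (pre : List Ω), Continuous fun x => Z m (w x) k pre
  | 0, pre => by simpa [Z] using hc pre
  | k + 1, pre => by
    have h : ∀ o, Continuous fun x => Z m (w x) k (pre ++ [o]) ^ m (pre.length + 1) := fun o =>
      (continuous_Z hc hw k _).rpow_const fun x => Or.inl (Vale.Agent.P168.MP.Z_pos (hw x) k _).ne'
    have h2 : Continuous fun x => Vale.Agent.P168.MP.avg
        fun o => Z m (w x) k (pre ++ [o]) ^ m (pre.length + 1) := by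
      simp only [Vale.Agent.P168.MP.avg]
      exact (continuous_finsetSum _ fun o _ => h o).div_const _
    simp only [Z]
    exact h2.rpow_const fun x => Or.inl (Vale.Agent.P168.MP.avg_pos fun o =>
      rpow_pos_of_pos (Vale.Agent.P168.MP.Z_pos (hw x) k _) _).ne'

lemma continuous_logZ0 (hc : ∀ p, Continuous fun x => w x p) (hw : ∀ x p, 0 < w x p) (R : ℕ) :
    Continuous fun x => logZ0 R m (w x) :=
  (continuous_Z hc hw R []).log fun x => (Vale.Agent.P168.MP.Z_pos (hw x) R []).ne'

lemma continuous_trans (hc : ∀ p, Continuous fun x => w x p) (hw : ∀ x p, 0 < w x p) (k : ℕ)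
    (pre : List Ω) (o : Ω) : Continuous fun x => Vale.Agent.P168.MP.trans m (w x) k pre o := by
  have h : ∀ o, Continuous fun x => Z m (w x) k (pre ++ [o]) ^ m (pre.length + 1) := fun o =>
    (continuous_Z hc hw k _).rpow_const fun x => Or.inl (Vale.Agent.P168.MP.Z_pos (hw x) k _).ne'
  simp only [Vale.Agent.P168.MP.trans]
  exact (h o).div (continuous_finsetSum _ fun o _ => h o) fun x =>
    (Vale.Agent.P168.MP.trans_den_pos (hw x) k pre).ne'

lemma continuous_ext (hc : ∀ p, Continuous fun x => w x p) (hw : ∀ x p, 0 < w x p) :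
    ∀ (k : ℕ) (pre : List Ω) {F : X → List Ω → ℝ}, (∀ q, Continuous fun x => F x q) →
      Continuous fun x => ext m (w x) k pre (F x)
  | 0, pre, F, hF => by simpa using hF pre
  | k + 1, pre, F, hF => by
    simp only [Vale.Agent.P168.MP.ext_succ]
    exact continuous_finsetSum _ fun o _ =>
      (continuous_trans hc hw k pre o).mul (continuous_ext hc hw k _ hF)

lemma continuous_ET (hc : ∀ p, Continuous fun x => w x p) (hw : ∀ x p, 0 < w x p) (R : ℕ) :
    ∀ (T : List (ℕ × ℕ)) {F : X → List (List Ω) → ℝ}, (∀ ps, Continuous fun x => F x ps) →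
      Continuous fun x => ET R m (w x) T (F x)
  | [], F, hF => by simpa using hF []
  | (p, v) :: T, F, hF => by
    simp only [Vale.Agent.P168.MP.ET_cons]
    exact continuous_ET hc hw R T fun ps => continuous_ext hc hw _ _ fun q => hF _

lemma continuous_nest (hc : ∀ p, Continuous fun x => w x p) (hw : ∀ x p, 0 < w x p)
    (hYc : ∀ p, Continuous fun x => Y x p) (hY : ∀ x p, 0 < Y x p) :
    ∀ (k : ℕ) (pre : List Ω), Continuous fun x => nest m (w x) (Y x) k pre
  | 0, pre => by simpa [nest] using hYc pre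
  | k + 1, pre => by
    simp only [nest]
    refine (continuous_finsetSum _ fun o _ => (continuous_trans hc hw k pre o).mul
      ((continuous_nest hc hw hYc hY k _).rpow_const fun x => Or.inl
        (Vale.Agent.P168.MP.nest_pos (hw x) (hY x) k _).ne')).rpow_const fun x => Or.inl ?_
    exact (sum_pos (fun o _ => mul_pos (Vale.Agent.P168.MP.trans_pos (hw x) k pre o)
      (rpow_pos_of_pos (Vale.Agent.P168.MP.nest_pos (hw x) (hY x) k _) _)) univ_nonempty).ne'

end cont

section jensen
variable {Ω : Type*} [Fintype Ω] [Nonempty Ω] {R : ℕ} {m : ℕ → ℝ} {w Y A : List Ω → ℝ}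

/-- the tilted mean is below the nested log functional -/
lemma ext_le_log_nest (hm : Ok R m w) (A : List Ω → ℝ) :
    ∀ (k : ℕ) (pre : List Ω), pre.length + k = R →
      ext m w k pre A ≤ log (nest m w (fun p => exp (A p)) k pre)
  | 0, pre, _ => by simp [nest]
  | k + 1, pre, hk => by
    have hM : 0 < m (pre.length + 1) := hm.pos _ (by omega) (by omega)
    have hn : ∀ o : Ω, 0 < nest m w (fun p => exp (A p)) k (pre ++ [o]) := fun o =>
      Vale.Agent.P168.MP.nest_pos hm.wpos (fun _ => exp_pos _) k _
    have ht := fun o => Vale.Agent.P168.MP.trans_nonneg (m := m) hm.wpos k pre o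
    have hj := convexOn_exp.map_sum_le (t := univ)
      (w := fun o => Vale.Agent.P168.MP.trans m w k pre o)
      (p := fun o => m (pre.length + 1) * log (nest m w (fun p => exp (A p)) k (pre ++ [o])))
      (fun o _ => ht o) (Vale.Agent.P168.MP.trans_sum hm.wpos k pre) fun o _ => Set.mem_univ _
    have e : ∀ o, exp (m (pre.length + 1) * log (nest m w (fun p => exp (A p)) k (pre ++ [o]))) =
        nest m w (fun p => exp (A p)) k (pre ++ [o]) ^ m (pre.length + 1) := fun o => by
      rw [rpow_def_of_pos (hn o), mul_comm]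
    simp only [e, smul_eq_mul] at hj
    have hS : 0 < ∑ o, Vale.Agent.P168.MP.trans m w k pre o * nest m w (fun p => exp (A p)) k (pre ++ [o]) ^ m (pre.length + 1) :=
      sum_pos (fun o _ => mul_pos (Vale.Agent.P168.MP.trans_pos hm.wpos k pre o)
        (rpow_pos_of_pos (hn o) _)) univ_nonempty
    rw [nest, log_rpow hS, Vale.Agent.P168.MP.ext_succ, one_div_mul_eq_div, le_div_iff₀ hM,
      le_log_iff_exp_le hS, sum_mul]
    refine le_trans (exp_le_exp.2 (sum_le_sum fun o _ => ?_)) hj
    rw [mul_assoc, mul_comm (ext m w k (pre ++ [o]) A)]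
    exact mul_le_mul_of_nonneg_left (mul_le_mul_of_nonneg_left
      (ext_le_log_nest hm A k _ (by simp; omega)) hM.le) (ht o)

/-- convexity of the nested log functional -/
lemma log_nest_add_ET_le (hm : Ok R m w) (hY : ∀ p, 0 < Y p) (A : List Ω → ℝ) :
    log (nest m w Y R []) + ET R m (fun p => w p * Y p) [(0, 0)] (fun ps => A (ps.getD 0 [])) ≤
      log (nest m w (fun p => Y p * exp (A p)) R []) := by
  have hm' : Ok R m fun p => w p * Y p :=
    ⟨hm.pos, hm.mono, hm.top, hm.last, fun p => mul_pos (hm.wpos p) (hY p)⟩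
  have h1 := Vale.Agent.P168.MP.logZ0_mul (R := R) (m := m) hm.wpos hY
  have h2 := Vale.Agent.P168.MP.logZ0_mul (R := R) (m := m) hm.wpos
    (Y := fun p => Y p * exp (A p)) fun p => mul_pos (hY p) (exp_pos _)
  have h3 := Vale.Agent.P168.MP.logZ0_mul (R := R) (m := m) hm'.wpos (Y := fun p => exp (A p))
    fun p => exp_pos _
  have h4 := ext_le_log_nest hm' A R [] (by simp)
  simp only [← mul_assoc] at h2
  rw [Vale.Agent.P168.MP.ET_single]
  simp only [List.getD_cons_zero]
  linarith

end jensen

section split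
variable {N M : ℕ}

/-- insert a pattern at position `a` -/
def ins (a : Fin (M + 1)) (y : Fin N → ℝ) (g : Fin M → Fin N → ℝ) : Fin (M + 1) → Fin N → ℝ :=
  a.insertNth y g

lemma measurePreserving_ins (a : Fin (M + 1)) :
    MeasurePreserving (fun p : (Fin N → ℝ) × (Fin M → Fin N → ℝ) => ins a p.1 p.2)
      ((gauss (Fin N)).prod (pats N M)) (pats N (M + 1)) :=
  (measurePreserving_piFinSuccAbove (fun _ : Fin (M + 1) => gauss (Fin N)) a).symm _

lemma integral_pats_succ (a : Fin (M + 1)) {H : (Fin (M + 1) → Fin N → ℝ) → ℝ}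
    (hH : Integrable H (pats N (M + 1))) :
    ∫ g, H g ∂pats N (M + 1) = ∫ g, ∫ y, H (ins a y g) ∂gauss (Fin N) ∂pats N M := by
  have h := measurePreserving_ins (N := N) (M := M) a
  have hi : Integrable (fun p : (Fin N → ℝ) × (Fin M → Fin N → ℝ) => H (ins a p.1 p.2))
      ((gauss (Fin N)).prod (pats N M)) := h.integrable_comp_of_integrable hH
  have : IsProbabilityMeasure (pats N M) := by unfold pats; infer_instance
  rw [← h.map_eq, integral_map h.measurable.aemeasurable (h.map_eq ▸ hH.aestronglyMeasurable),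
    integral_prod_symm _ hi]

lemma ham_ins (f : ℝ → ℝ) (a : Fin (M + 1)) (y : Fin N → ℝ) (g : Fin M → Fin N → ℝ)
    (σ : Fin N → Bool) :
    ham f (ins a y g) σ = ham f g σ * exp (f (dot (Lim.xv N σ) y)) := by
  rw [ham, ham, ← exp_add, Fin.sum_univ_succAbove _ a]
  simp [ins, add_comm]

lemma ham_pos (f : ℝ → ℝ) (g : Fin M → Fin N → ℝ) (σ : Fin N → Bool) : 0 < ham f g σ := exp_pos _

lemma continuous_dot_left {ι : Type*} [Fintype ι] (x : ι → ℝ) : Continuous fun g : ι → ℝ => dot x g := by
  unfold dot; fun_prop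

lemma continuous_ham {f : ℝ → ℝ} (hf : Continuous f) (σ : Fin N → Bool) :
    Continuous fun g : Fin M → Fin N → ℝ => ham f g σ := by
  unfold ham
  exact continuous_exp.comp (continuous_finsetSum _ fun a _ =>
    hf.comp ((continuous_dot_left _).comp (continuous_apply a)))

instance isProb_pats : IsProbabilityMeasure (pats N M) := by unfold pats; infer_instance

end split

end Vale.Agent.P157.Par
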