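import Vale.Agent.P157.Par.Defs
import Vale.Agent.P157.Par.Basics
import Vale.Agent.P168.MP.Deriv

/-! Tools for Gaussian interpolation in a hierarchical structure: tilting a replica expectation by a
factor bounded below, counting attachments, exponential moments. -/

open MeasureTheory ProbabilityTheory Real Finset
open Vale.Agent.P150 (gauss dot)
open Vale.Agent.P168.MP

namespace Vale.Agent.P157.Par

lemma ok_linW {Ω : Type} {R : ℕ} (hR : 1 ≤ R) {w : List Ω → ℝ} (hw : ∀ p, 0 < w p) :
    Ok R (lin R) w where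
  pos l h1 h2 := by
    rw [lin, if_pos h2]
    exact div_pos (Nat.cast_pos.2 h1) (Nat.cast_pos.2 hR)
  mono l _ h2 := by
    rw [lin, lin, if_pos h2.le, if_pos (show l + 1 ≤ R from h2)]
    exact div_le_div_of_nonneg_right (Nat.cast_le.2 (Nat.le_succ l)) (Nat.cast_nonneg _)
  top := by rw [lin, if_pos le_rfl, div_self (Nat.cast_ne_zero.2 (by omega))]
  last := by rw [lin, if_neg (by omega)]
  wpos := hw

lemma ok_reweight {Ω : Type} {R : ℕ} {m : ℕ → ℝ} {w w' : List Ω → ℝ} (h : Ok R m w)
    (hw : ∀ p, 0 < w' p) : Ok R m w' :=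
  ⟨h.pos, h.mono, h.top, h.last, hw⟩

lemma list_sum_le {α : Type} {L : List α} {f g : α → ℝ} (h : ∀ a ∈ L, f a ≤ g a) :
    (L.map f).sum ≤ (L.map g).sum := by
  induction L with
  | nil => simp
  | cons a L ih =>
    simp only [List.map_cons, List.sum_cons]
    exact add_le_add (h a List.mem_cons_self) (ih fun b hb => h b (List.mem_cons_of_mem _ hb))

lemma abs_list_sum {α : Type} (L : List α) (f : α → ℝ) :
    |(L.map f).sum| ≤ (L.map fun a => |f a|).sum := by
  induction L with
  | nil => simp
  | cons a L ih =>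
    simp only [List.map_cons, List.sum_cons]
    exact (abs_add_le _ _).trans (add_le_add le_rfl ih)

section tilt
variable {Ω : Type} [Fintype Ω] [Nonempty Ω] {R : ℕ} {m : ℕ → ℝ} {w Y : List Ω → ℝ} {a : ℝ}

lemma nest_ge (hm : Ok R m w) (ha : 0 < a) (hY : ∀ p, a ≤ Y p) :
    ∀ (k : ℕ) (pre : List Ω), pre.length + k = R → a ≤ nest m w Y k pre
  | 0, pre, _ => by simpa [nest] using hY pre
  | k + 1, pre, hk => by
    set M := m (pre.length + 1)
    have hM : 0 < M := hm.pos _ (by omega) (by omega)
    rw [nest]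
    have h := sum_le_sum fun o (_ : o ∈ univ) => mul_le_mul_of_nonneg_left
      (rpow_le_rpow ha.le (nest_ge hm ha hY k (pre ++ [o]) (by simp; omega)) hM.le)
      (trans_nonneg (m := m) hm.wpos k pre o)
    rw [← sum_mul, trans_sum hm.wpos, one_mul] at h
    have h2 := rpow_le_rpow (rpow_nonneg ha.le _) h (one_div_pos.2 hM).le
    rwa [one_div, rpow_rpow_inv ha.le hM.ne', ← one_div] at h2

/-- the tilted transition -/
lemma trans_mul_eq (hm : Ok R m w) (hY : ∀ p, 0 < Y p) {k : ℕ} {pre : List Ω}
    (hk : pre.length + (k + 1) ≤ R) (o : Ω) :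
    trans m (fun p => w p * Y p) k pre o =
      trans m w k pre o * nest m w Y k (pre ++ [o]) ^ m (pre.length + 1) /
        nest m w Y (k + 1) pre ^ m (pre.length + 1) := by
  set M := m (pre.length + 1)
  have hM : 0 < M := hm.pos _ (by omega) (by omega)
  have hS : 0 ≤ ∑ o', trans m w k pre o' * nest m w Y k (pre ++ [o']) ^ M :=
    sum_nonneg fun o' _ => mul_nonneg (trans_nonneg hm.wpos k pre o')
      (rpow_nonneg (nest_pos hm.wpos hY k _).le _)
  have hn : nest m w Y (k + 1) pre ^ M = ∑ o', trans m w k pre o' * nest m w Y k (pre ++ [o']) ^ M := by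
    rw [nest, one_div, rpow_inv_rpow hS hM.ne']
  rw [hn]
  simp only [Vale.Agent.P168.MP.trans, Z_mul hm.wpos hY, Real.mul_rpow (Z_pos hm.wpos k _).le (nest_pos hm.wpos hY k _).le]
  simp only [div_mul_eq_mul_div, ← sum_div]
  rw [div_div_div_cancel_right₀]
  exact (trans_den_pos (m := m) hm.wpos k pre).ne'

lemma ext_mul_step (hm : Ok R m w) (ha : 0 < a) (hY : ∀ p, a ≤ Y p) :
    ∀ (k : ℕ) (pre : List Ω), pre.length + (k + 1) = R → ∀ F : List Ω → ℝ, (∀ q, 0 ≤ F q) →
      ext m (fun p => w p * Y p) (k + 1) pre F ≤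
        ext m w (k + 1) pre (fun q => F q * Y q) /
          (a ^ (1 - m (pre.length + 1)) * nest m w Y (k + 1) pre ^ m (pre.length + 1)) := by
  have hY0 : ∀ p, 0 < Y p := fun p => ha.trans_le (hY p)
  intro k
  induction k with
  | zero =>
    intro pre hk F _
    have h1 : m (pre.length + 1) = 1 := by rw [show pre.length + 1 = R by omega, hm.top]
    have e : ext m w 1 pre (fun q => F q * Y q) = ∑ o, trans m w 0 pre o * (F (pre ++ [o]) * Y (pre ++ [o])) := by
      simp [ext_succ]
    have e' : ext m (fun p => w p * Y p) 1 pre F = ∑ o, trans m (fun p => w p * Y p) 0 pre o * F (pre ++ [o]) := by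
      simp [ext_succ]
    rw [e, e', h1, sub_self, rpow_zero, one_mul, sum_div]
    refine le_of_eq (sum_congr rfl fun o _ => ?_)
    rw [trans_mul_eq hm hY0 (by omega), h1]
    simp only [nest, rpow_one]
    ring
  | succ k ih =>
    intro pre hk F hF
    set M := m (pre.length + 1)
    have hM : 0 < M := hm.pos _ (by omega) (by omega)
    rw [ext_succ, ext_succ, sum_div]
    refine sum_le_sum fun o _ => ?_
    have hlen : (pre ++ [o]).length = pre.length + 1 := by simp
    have hle : M ≤ m (pre.length + 1 + 1) := hm.mono _ (by omega) (by omega)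
    set M' := m (pre.length + 1 + 1)
    have hrec := ih (pre ++ [o]) (by simp; omega) F hF
    rw [hlen] at hrec
    have hn := nest_ge hm ha hY (k + 1) (pre ++ [o]) (by simp; omega)
    set n := nest m w Y (k + 1) (pre ++ [o])
    have hn0 : 0 < n := ha.trans_le hn
    have hT : 0 ≤ trans m w (k + 1) pre o := trans_nonneg hm.wpos _ _ o
    have hD : 0 < nest m w Y (k + 1 + 1) pre ^ M := rpow_pos_of_pos (nest_pos hm.wpos hY0 _ _) _
    set X := ext m w (k + 1) (pre ++ [o]) fun q => F q * Y q
    have hX : 0 ≤ X := ext_nonneg hm.wpos fun q => mul_nonneg (hF q) (hY0 q).le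
    rw [trans_mul_eq hm hY0 (by omega)]
    refine (mul_le_mul_of_nonneg_left hrec
      (div_nonneg (mul_nonneg hT (rpow_nonneg hn0.le _)) hD.le)).trans ?_
    have key : n ^ M * a ^ (1 - M) ≤ a ^ (1 - M') * n ^ M' := by
      have h := rpow_le_rpow ha.le hn (sub_nonneg.2 hle)
      rw [show (1 : ℝ) - M = (1 - M') + (M' - M) by ring, rpow_add ha, show M' = M + (M' - M) by ring,
        rpow_add hn0, ← show M' = M + (M' - M) by ring]
      calc n ^ M * (a ^ (1 - M') * a ^ (M' - M)) ≤ n ^ M * (a ^ (1 - M') * n ^ (M' - M)) := by gcongr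
        _ = _ := by ring
    have hd' : 0 < a ^ (1 - M') * n ^ M' := mul_pos (rpow_pos_of_pos ha _) (rpow_pos_of_pos hn0 _)
    rw [div_mul_div_comm, div_le_div_iff₀ (mul_pos hD hd') (mul_pos (rpow_pos_of_pos ha _) hD)]
    calc trans m w (k + 1) pre o * n ^ M * X * (a ^ (1 - M) * nest m w Y (k + 1 + 1) pre ^ M)
        = trans m w (k + 1) pre o * X * nest m w Y (k + 1 + 1) pre ^ M * (n ^ M * a ^ (1 - M)) := by ring
      _ ≤ trans m w (k + 1) pre o * X * nest m w Y (k + 1 + 1) pre ^ M * (a ^ (1 - M') * n ^ M') :=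
          mul_le_mul_of_nonneg_left key (by positivity)
      _ = _ := by ring

lemma ext_mul_le (hm : Ok R m w) (ha : 0 < a) (hY : ∀ p, a ≤ Y p) {k : ℕ} {pre : List Ω}
    (hk : pre.length + k = R) {F : List Ω → ℝ} (hF : ∀ q, 0 ≤ F q) :
    ext m (fun p => w p * Y p) k pre F ≤ ext m w k pre fun q => F q * (Y q / a) := by
  rcases k with _ | k
  · simpa using le_mul_of_one_le_right (hF pre) ((one_le_div ha).2 (hY pre))
  refine (ext_mul_step hm ha hY k pre hk F hF).trans ?_
  have hM : 0 < m (pre.length + 1) := hm.pos _ (by omega) (by omega)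
  have hn := nest_ge hm ha hY (k + 1) pre hk
  have hd : a ≤ a ^ (1 - m (pre.length + 1)) * nest m w Y (k + 1) pre ^ m (pre.length + 1) := by
    calc a = a ^ (1 - m (pre.length + 1)) * a ^ m (pre.length + 1) := by
          rw [← rpow_add ha, sub_add_cancel, rpow_one]
      _ ≤ _ := by gcongr
  refine (div_le_div_of_nonneg_left (ext_nonneg hm.wpos fun q => mul_nonneg (hF q) (ha.le.trans (hY q)))
    ha hd).trans (le_of_eq ?_)
  simp only [mul_div_assoc']
  simp only [div_eq_mul_inv, ext_mul_const]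

/-- **Tilting.** A replica expectation under the weight `w Y` is dominated by the one under `w` -/
theorem ET_mul_le' (hm : Ok R m w) (ha : 0 < a) (hY : ∀ p, a ≤ Y p) : ∀ {T : List (ℕ × ℕ)}, Valid R T →
    ∀ {H : List (List Ω) → ℝ}, (∀ ps, 0 ≤ H ps) →
      ET R m (fun p => w p * Y p) T H ≤ ET R m w T fun ps => H ps * (ps.map fun p => Y p / a).prod := by
  have hY0 : ∀ p, 0 < Y p := fun p => ha.trans_le (hY p)
  have hw' : ∀ p, 0 < w p * Y p := fun p => mul_pos (hm.wpos p) (hY0 p)
  intro T
  induction T with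
  | nil => intro _ H _; simp
  | cons x T ih =>
    intro hT H hH
    obtain ⟨p, v⟩ := x
    obtain ⟨hT', hv, hp⟩ := valid_split hT
    simp only [ET_cons]
    refine (ET_mono_on hw' hT' (G := fun ps => ext m w (R - v) ((ps.getD p []).take v)
      fun q => H (ps ++ [q]) * (Y q / a)) fun ps hs => ?_).trans ((ih hT' ?_).trans (le_of_eq ?_))
    · refine ext_mul_le hm ha hY ?_ fun q => hH _
      rcases hp with ⟨-, -, rfl⟩ | hp
      · simp
      · rw [List.length_take, hs.2.1 p hp, min_eq_left hv]; omega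
    · exact fun ps => ext_nonneg hm.wpos fun q => mul_nonneg (hH _) (div_pos (hY0 q) ha).le
    · congr 1; funext ps
      rw [← ext_mul_const]
      congr 1; funext q
      simp only [List.map_append, List.map_cons, List.map_nil, List.prod_append, List.prod_cons,
        List.prod_nil]
      ring

end tilt

theorem ET_mul_le {Ω : Type} [Fintype Ω] [Nonempty Ω] {R : ℕ} (hR : 1 ≤ R) {w Y : List Ω → ℝ}
    (hw : ∀ p, 0 < w p) {a : ℝ} (ha : 0 < a) (hY : ∀ p, a ≤ Y p) {T : List (ℕ × ℕ)}
    (hT : Valid R T) {H : List (List Ω) → ℝ} (hH : ∀ ps, 0 ≤ H ps) :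
    ET R (lin R) (fun p => w p * Y p) T H ≤
      ET R (lin R) w T fun ps => H ps * (ps.map fun p => Y p / a).prod :=
  ET_mul_le' (ok_linW hR hw) ha hY hT hH

/-! ### counting attachments -/

/-- sum of `φ` over the overlap levels of all pairs -/
def pairSum (R : ℕ) (φ : ℕ → ℝ) (T : List (ℕ × ℕ)) : ℝ :=
  ∑ a ∈ range T.length, ∑ b ∈ range T.length, φ (sp R T a b)

/-- the average of `φ` over the levels, plus its value on the diagonal -/
noncomputable def lvlAvg (R : ℕ) (φ : ℕ → ℝ) : ℝ := (∑ l ∈ range R, φ l) / R + φ R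

lemma lvlAvg_nonneg {R : ℕ} {φ : ℕ → ℝ} (hφ : ∀ l, 0 ≤ φ l) : 0 ≤ lvlAvg R φ :=
  add_nonneg (div_nonneg (sum_nonneg fun l _ => hφ l) (Nat.cast_nonneg _)) (hφ R)

lemma pairSum_nonneg {R : ℕ} {φ : ℕ → ℝ} (hφ : ∀ l, 0 ≤ φ l) (T : List (ℕ × ℕ)) : 0 ≤ pairSum R φ T :=
  sum_nonneg fun _ _ => sum_nonneg fun _ _ => hφ _

lemma le_pairSum {R : ℕ} {φ : ℕ → ℝ} (hφ : ∀ l, 0 ≤ φ l) {T : List (ℕ × ℕ)} {a b : ℕ}
    (ha : a < T.length) (hb : b < T.length) : φ (sp R T a b) ≤ pairSum R φ T :=
  (single_le_sum (f := fun b => φ (sp R T a b)) (fun _ _ => hφ _) (mem_range.2 hb)).trans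
    (single_le_sum (f := fun a => ∑ b ∈ range T.length, φ (sp R T a b))
      (fun _ _ => sum_nonneg fun _ _ => hφ _) (mem_range.2 ha))

/-- old pairs of a longer list -/
lemma pairSum_tail_le {R : ℕ} {φ : ℕ → ℝ} (hφ : ∀ l, 0 ≤ φ l) (x : ℕ × ℕ) (T : List (ℕ × ℕ)) :
    pairSum R φ T ≤ pairSum R φ (x :: T) := by
  unfold pairSum
  simp only [List.length_cons, sum_range_succ]
  refine le_add_of_le_of_nonneg (sum_le_sum fun a ha => le_add_of_le_of_nonneg
    (le_of_eq (sum_congr rfl fun b hb => ?_)) (hφ _)) (add_nonneg (sum_nonneg fun _ _ => hφ _) (hφ _))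
  rw [sp_old R x (mem_range.1 ha).ne (mem_range.1 hb).ne]

lemma sum_range'_eq (f : ℕ → ℝ) : ∀ (a n : ℕ), ((List.range' a n).map f).sum = ∑ l ∈ Ico a (a + n), f l
  | a, 0 => by simp
  | a, n + 1 => by
    rw [List.range'_succ, List.map_cons, List.sum_cons, sum_range'_eq f (a + 1) n,
      sum_eq_sum_Ico_succ_bot (show a < a + (n + 1) by omega), show a + 1 + n = a + (n + 1) by omega]

lemma range'_le {R : ℕ} {φ : ℕ → ℝ} (hφ : ∀ l, 0 ≤ φ l) (v : ℕ) :
    ((List.range' (v + 1) (R - v)).map fun l => |lin R l - lin R (l + 1)| * φ l).sum ≤ lvlAvg R φ := by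
  have hlow : ∀ l, l < R → |lin R l - lin R (l + 1)| = (1 : ℝ) / R := fun l hl => by
    rw [lin, lin, if_pos hl.le, if_pos (show l + 1 ≤ R from hl), ← sub_div, abs_div, Nat.abs_cast]; simp
  rw [sum_range'_eq]
  refine (sum_le_sum_of_subset_of_nonneg (t := range (R + 1)) (fun l hl => ?_)
    fun l _ _ => mul_nonneg (abs_nonneg _) (hφ l)).trans ?_
  · simp only [mem_Ico, mem_range] at hl ⊢; omega
  rw [sum_range_succ, lvlAvg, sum_div]
  refine add_le_add (le_of_eq (sum_congr rfl fun l hl => ?_)) ?_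
  · rw [hlow l (mem_range.1 hl)]; ring
  · refine mul_le_of_le_one_left (hφ R) ?_
    rcases Nat.eq_zero_or_pos R with rfl | hR
    · simp [lin]
    · rw [lin, lin, if_pos le_rfl, if_neg (by omega), div_self (Nat.cast_ne_zero.2 hR.ne'), sub_zero, abs_one]

lemma lin_bound_weight {R v : ℕ} :
    |lin R (v + 1)| ≤ 1 := by
  rw [lin]
  split_ifs with h
  · rw [abs_div, Nat.abs_cast, Nat.abs_cast]
    exact div_le_one_of_le₀ (Nat.cast_le.2 h) (Nat.cast_nonneg _)
  · simp

/-- total variation of the attachment weights -/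
lemma att_abs_sum_le {R : ℕ} : ∀ T : List (ℕ × ℕ),
    ((att R (lin R) T).map fun c => |c.2|).sum ≤ 3 * T.length := by
  intro T
  induction T with
  | nil => simp [att]
  | cons x T ih =>
    obtain ⟨p, v⟩ := x
    simp only [att, List.map_append, List.map_map, List.map_cons, List.sum_append, List.sum_cons,
      Function.comp_def, abs_neg, List.length_cons, Nat.cast_succ]
    have h1 := range'_le (R := R) (φ := fun _ => 1) (fun _ => zero_le_one) v
    simp only [mul_one, lvlAvg, sum_const, card_range, nsmul_eq_mul] at h1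
    have h2 : |lin R (v + 1)| ≤ 1 := lin_bound_weight
    have h3 : (R : ℝ) / R ≤ 1 := div_self_le_one _
    linarith

/-- attachments see a pair at levels controlled by the old pairs and the average -/
lemma att_pair_le {R : ℕ} (hR : 1 ≤ R) {φ : ℕ → ℝ} (hφ : ∀ l, 0 ≤ φ l) : ∀ {T : List (ℕ × ℕ)}, Valid R T →
    ∀ {b : ℕ}, b < T.length →
      ((att R (lin R) T).map fun c => |c.2| * φ (sp R (c.1 :: T) T.length b)).sum ≤
        4 * T.length * (pairSum R φ T + lvlAvg R φ) := by
  intro T hT b hb
  have hA := lvlAvg_nonneg (R := R) hφ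
  have hP := pairSum_nonneg (R := R) hφ T
  suffices key : ∀ L : List (ℕ × ℕ), Valid R L → (∀ c ∈ att R (lin R) L, c ∈ att R (lin R) T) →
      (∀ a c, a < L.length → c < L.length → sp R L a c = sp R T a c) → L.length ≤ T.length →
      ((att R (lin R) L).map fun c => |c.2| * φ (sp R (c.1 :: T) T.length b)).sum ≤
        4 * L.length * (pairSum R φ T + lvlAvg R φ) from
    key T hT (fun c hc => hc) (fun _ _ _ _ => rfl) le_rfl
  intro L
  induction L with
  | nil => intro _ _ _ _; simp [att]
  | cons x L ih =>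
    obtain ⟨p, v⟩ := x
    intro hL hmem hsp hlen
    obtain ⟨hL', hv, hp⟩ := valid_split hL
    simp only [List.length_cons] at hlen
    have hnew : ∀ q l, sp R ((q, l) :: T) T.length b = min l (sp R T q b) := fun q l => sp_new R (q, l) hb.ne
    have hmin : ∀ q l, q < T.length → φ (min l (sp R T q b)) ≤ φ l + pairSum R φ T := fun q l hq => by
      rcases min_choice l (sp R T q b) with h | h <;> rw [h]
      · linarith
      · linarith [le_pairSum hφ (R := R) hq hb, hφ l]
    simp only [att, List.map_append, List.map_map, List.map_cons, List.sum_append, List.sum_cons,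
      Function.comp_def, abs_neg, List.length_cons, Nat.cast_succ, hnew]
    have h1 : ((List.range' (v + 1) (R - v)).map fun l =>
        |lin R l - lin R (l + 1)| * φ (min l (sp R T L.length b))).sum ≤ lvlAvg R φ + 2 * pairSum R φ T := by
      refine (list_sum_le fun l _ => mul_le_mul_of_nonneg_left (hmin _ l (by omega)) (abs_nonneg _)).trans ?_
      simp only [mul_add, List.sum_map_add]
      refine add_le_add (range'_le hφ v) ?_
      have h := range'_le (R := R) (φ := fun _ => pairSum R φ T) (fun _ => hP) v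
      refine h.trans ?_
      simp only [lvlAvg, sum_const, card_range, nsmul_eq_mul]
      rw [mul_div_right_comm]
      linarith [mul_le_mul_of_nonneg_right (div_self_le_one (R : ℝ)) hP]
    have h2 : |lin R (v + 1)| * φ (min v (sp R T p b)) ≤ lvlAvg R φ + 2 * pairSum R φ T := by
      have hw1 : |lin R (v + 1)| ≤ 1 := lin_bound_weight
      rcases hp with ⟨rfl, rfl, rfl⟩ | hp
      · rw [show min 0 (sp R T 0 b) = 0 by simp, lin, if_pos (show (0 : ℕ) + 1 ≤ R by omega)]
        have : φ 0 / R ≤ (∑ l ∈ range R, φ l) / R :=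
          div_le_div_of_nonneg_right (single_le_sum (fun l _ => hφ l) (mem_range.2 hR)) (Nat.cast_nonneg _)
        rw [zero_add, Nat.cast_one, abs_div, abs_one, Nat.abs_cast, one_div_mul_eq_div]
        simp only [lvlAvg]
        linarith [hφ R]
      · refine (mul_le_of_le_one_left (hφ _) hw1).trans ((hmin p v (by omega)).trans ?_)
        have hv' : φ v ≤ pairSum R φ T := by
          have e : sp R ((p, v) :: L) L.length p = v := by
            rw [sp_new R (p, v) hp.ne, sp_self]; exact min_eq_left hv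
          have := le_pairSum hφ (R := R) (T := T) (a := L.length) (b := p) (by omega) (by omega)
          rwa [← hsp L.length p (by simp) (by simp; omega), e] at this
        linarith
    have h3 := ih hL' (fun c hc => hmem c (by simp [att, hc]))
      (fun a c ha hc => by
        rw [← hsp a c (by simp; omega) (by simp; omega)]
        exact (sp_old R (p, v) ha.ne hc.ne).symm) (by omega)
    simp only [hnew] at h3
    linarith

/-- one attachment step for the sum over pairs -/
lemma att_pairSum_le {R : ℕ} (hR : 1 ≤ R) {φ : ℕ → ℝ} (hφ : ∀ l, 0 ≤ φ l) {T : List (ℕ × ℕ)} (hT : Valid R T) :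
    ((att R (lin R) T).map fun c => |c.2| * pairSum R φ (c.1 :: T)).sum ≤
      (8 * (T.length : ℝ) ^ 2 + 6 * T.length) * (pairSum R φ T + lvlAvg R φ) := by
  have hA := lvlAvg_nonneg (R := R) hφ
  have hP := pairSum_nonneg (R := R) hφ T
  have e : ∀ c ∈ att R (lin R) T, |c.2| * pairSum R φ (c.1 :: T) =
      |c.2| * (pairSum R φ T + φ R) +
        2 * ∑ b ∈ range T.length, |c.2| * φ (sp R (c.1 :: T) T.length b) := by
    intro c _
    unfold pairSum
    simp only [List.length_cons, sum_range_succ, sum_add_distrib, sp_self, ← mul_sum]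
    have e1 : ∑ a ∈ range T.length, ∑ b ∈ range T.length, φ (sp R (c.1 :: T) a b) =
        ∑ a ∈ range T.length, ∑ b ∈ range T.length, φ (sp R T a b) :=
      sum_congr rfl fun a ha => sum_congr rfl fun b hb => by
        rw [sp_old R c.1 (mem_range.1 ha).ne (mem_range.1 hb).ne]
    rw [e1, sum_congr rfl fun a (_ : a ∈ range T.length) => congrArg φ (sp_comm R (c.1 :: T) a T.length)]
    ring
  rw [List.map_congr_left e, List.sum_map_add, List.sum_map_mul_right, List.sum_map_mul_left,
    list_sum_map_finset_sum]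
  have h1 := mul_le_mul_of_nonneg_right (att_abs_sum_le (R := R) T) (add_nonneg hP (hφ R))
  have h2 := sum_le_sum fun b (hb : b ∈ range T.length) => att_pair_le hR hφ hT (mem_range.1 hb)
  rw [sum_const, card_range, nsmul_eq_mul] at h2
  have h4 : φ R ≤ lvlAvg R φ := by
    simp only [lvlAvg]
    linarith [show 0 ≤ (∑ l ∈ range R, φ l) / (R : ℝ) from
      div_nonneg (sum_nonneg fun l _ => hφ l) (Nat.cast_nonneg _)]
  have h5 : (3 * (T.length : ℝ)) * (pairSum R φ T + φ R) ≤ 6 * T.length * (pairSum R φ T + lvlAvg R φ) :=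
    (mul_le_mul_of_nonneg_left (add_le_add le_rfl h4) (by positivity)).trans
      (mul_le_mul_of_nonneg_right (by linarith [(Nat.cast_nonneg T.length : (0:ℝ) ≤ _)]) (add_nonneg hP hA))
  linarith

/-! ### exponential moments -/

/-- moment bound for a product of `n` tilts -/
noncomputable def momK (B D V f₀ : ℝ) (n : ℕ) : ℝ :=
  1 + n * (exp (n * (|f₀| + |B|)) * (2 * exp ((n * D) ^ 2 * V / 2)))

lemma momK_nonneg (B D V f₀ : ℝ) (n : ℕ) : 0 ≤ momK B D V f₀ n := by unfold momK; positivity

variable {f f1 f2 f3 : ℝ → ℝ} {B D : ℝ}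

lemma Sm.cont (hS : Sm f f1 f2 f3 B D) : Continuous f ∧ Continuous f1 ∧ Continuous f2 :=
  ⟨continuous_iff_continuousAt.2 fun x => (hS.d0 x).continuousAt,
    continuous_iff_continuousAt.2 fun x => (hS.d1 x).continuousAt,
    continuous_iff_continuousAt.2 fun x => (hS.d2 x).continuousAt⟩

lemma Sm.D_nonneg (hS : Sm f f1 f2 f3 B D) : 0 ≤ D := (abs_nonneg _).trans (hS.b1 0)

lemma Sm.le_linear (hS : Sm f f1 f2 f3 B D) (x : ℝ) : f x ≤ |f 0| + D * |x| := by
  have h := Convex.norm_image_sub_le_of_norm_hasDerivWithin_le (s := Set.univ) (f := f) (f' := f1) (C := D)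
    (fun y _ => (hS.d0 y).hasDerivWithinAt) (fun y _ => hS.b1 y) convex_univ (Set.mem_univ 0) (Set.mem_univ x)
  simp only [sub_zero, Real.norm_eq_abs] at h
  linarith [le_abs_self (f x - f 0), le_abs_self (f 0)]

lemma integral_prod_tilt_le {ι : Type} [Fintype ι] (hS : Sm f f1 f2 f3 B D) {V : ℝ} (as : List (ι → ℝ))
    (hV : ∀ a ∈ as, dot a a ≤ V) {n : ℕ} (hn : as.length = n) :
    Integrable (fun g : ι → ℝ => (as.map fun a => exp (f (dot a g)) / exp (-B)).prod) (gauss ι) ∧
    ∫ g, (as.map fun a => exp (f (dot a g)) / exp (-B)).prod ∂gauss ι ≤ momK B D V (f 0) n := by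
  set c : ℝ := n * D
  have hu : ∀ a : ι → ℝ, Integrable (fun g : ι → ℝ => exp (c * dot a g) + exp (-c * dot a g)) (gauss ι) ∧
      ∫ g, (exp (c * dot a g) + exp (-c * dot a g)) ∂gauss ι = 2 * exp (c ^ 2 * dot a a / 2) := fun a => by
    have h : ∀ d : ℝ, Integrable (fun g : ι → ℝ => exp (d * dot a g)) (gauss ι) ∧
        ∫ g, exp (d * dot a g) ∂gauss ι = exp (d ^ 2 * dot a a / 2) := fun d => by
      have h1 := Vale.Agent.P150.mgf_dot (fun k => d * a k)
      have e : ∀ g : ι → ℝ, dot (fun k => d * a k) g = d * dot a g := fun g => by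
        simp [dot, mul_sum, mul_assoc]
      have e2 : ∑ k, (d * a k) ^ 2 = d ^ 2 * dot a a := by
        simp only [dot, mul_sum]; exact sum_congr rfl fun k _ => by ring
      simp only [e, e2] at h1
      refine ⟨?_, h1⟩
      have e3 : (fun g : ι → ℝ => exp (d * dot a g)) = fun g => ∏ k, exp (d * a k * g k) := by
        funext g; rw [← exp_sum]; simp [dot, mul_sum, mul_assoc]
      rw [e3]
      exact Integrable.fintype_prod (f := fun k (t : ℝ) => exp (d * a k * t)) fun k =>
        integrable_exp_mul_gaussianReal _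
    refine ⟨(h c).1.add (h (-c)).1, ?_⟩
    rw [integral_add (h c).1 (h (-c)).1, (h c).2, (h (-c)).2, neg_sq]; ring
  set E : ℝ := exp (n * (|f 0| + |B|))
  have hpt : ∀ g : ι → ℝ, (as.map fun a => exp (f (dot a g)) / exp (-B)).prod ≤
      1 + ∑ i : Fin as.length, E * (exp (c * dot (as.get i) g) + exp (-c * dot (as.get i) g)) := fun g => by
    have e : (as.map fun a => exp (f (dot a g)) / exp (-B)).prod =
        exp ((as.map fun a => f (dot a g) + B).sum) := by
      rw [Real.exp_list_sum, List.map_map]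
      congr 1
      refine List.map_congr_left fun a _ => ?_
      simp only [Function.comp_apply, ← exp_sub, sub_neg_eq_add]
    rw [e]
    rcases Nat.eq_zero_or_pos as.length with h0 | h0
    · rw [List.eq_nil_of_length_eq_zero h0]; simp
    obtain ⟨j, -, hj⟩ := exists_max_image univ (fun i : Fin as.length => f (dot (as.get i) g) + B)
      ⟨⟨0, h0⟩, mem_univ _⟩
    have hs : (as.map fun a => f (dot a g) + B).sum ≤ n * (f (dot (as.get j) g) + B) := by
      have := List.sum_le_card_nsmul (as.map fun a => f (dot a g) + B) (f (dot (as.get j) g) + B) fun x hx => by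
        obtain ⟨a, ha, rfl⟩ := List.mem_map.1 hx
        obtain ⟨i, rfl⟩ := List.mem_iff_get.1 ha
        exact hj i (mem_univ _)
      rw [List.length_map, hn, nsmul_eq_mul] at this
      exact this
    refine (exp_le_exp.2 hs).trans (le_add_of_nonneg_of_le zero_le_one ?_)
    refine le_trans ?_ (single_le_sum (fun i _ => by positivity) (mem_univ j))
    have hl := hS.le_linear (dot (as.get j) g)
    calc exp ((n : ℝ) * (f (dot (as.get j) g) + B))
        ≤ exp (n * (|f 0| + |B|) + c * |dot (as.get j) g|) := by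
          refine exp_le_exp.2 ?_
          have := mul_le_mul_of_nonneg_left (show f (dot (as.get j) g) + B ≤ |f 0| + |B| + D * |dot (as.get j) g| by
            linarith [le_abs_self B]) (Nat.cast_nonneg n : (0:ℝ) ≤ n)
          simp only [c]; linarith
      _ ≤ E * (exp (c * dot (as.get j) g) + exp (-c * dot (as.get j) g)) := by
          rw [exp_add]
          refine mul_le_mul_of_nonneg_left ?_ (exp_pos _).le
          rcases abs_choice (dot (as.get j) g) with h | h <;> rw [h]
          · linarith [exp_pos (-c * dot (as.get j) g)]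
          · rw [mul_neg, ← neg_mul]; linarith [exp_pos (c * dot (as.get j) g)]
  have hmaj : Integrable (fun g : ι → ℝ => 1 + ∑ i : Fin as.length,
      E * (exp (c * dot (as.get i) g) + exp (-c * dot (as.get i) g))) (gauss ι) :=
    (integrable_const _).add (integrable_finsetSum _ fun i _ => (hu _).1.const_mul _)
  have hc : Continuous fun g : ι → ℝ => (as.map fun a => exp (f (dot a g)) / exp (-B)).prod := by
    have hf := hS.cont.1
    refine continuous_list_prod as fun a _ => ?_
    unfold dot; fun_prop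
  have hnn : ∀ g : ι → ℝ, 0 ≤ (as.map fun a => exp (f (dot a g)) / exp (-B)).prod := fun g =>
    List.prod_nonneg fun x hx => by
      obtain ⟨a, -, rfl⟩ := List.mem_map.1 hx
      positivity
  have hi := hmaj.mono' hc.aestronglyMeasurable (Filter.Eventually.of_forall fun g => by
    rw [Real.norm_eq_abs, abs_of_nonneg (hnn g)]; exact hpt g)
  refine ⟨hi, (integral_mono hi hmaj hpt).trans ?_⟩
  rw [integral_add (integrable_const _) (integrable_finsetSum _ fun i _ => (hu _).1.const_mul _),
    integral_finsetSum _ fun i _ => (hu _).1.const_mul _]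
  simp only [integral_const, probReal_univ, one_smul, integral_const_mul, fun a => (hu a).2, momK]
  refine add_le_add le_rfl ((sum_le_card_nsmul _ _ (E * (2 * exp (c ^ 2 * V / 2))) fun i _ => ?_).trans ?_)
  · gcongr
    exact hV _ (List.get_mem _ i)
  · simp [hn, c, E]

end Vale.Agent.P157.Par
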