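import Vale.Agent.P157.Par.Rep
import Vale.Agent.P157.Par.InterpBase
import Vale.Agent.P157.Par.Basics

/-! Concentration of the overlap of the derivatives of the potential: remove one pattern. -/

open MeasureTheory ProbabilityTheory Finset Real
open Vale.Agent.P150 (gauss dot)
open Vale.Agent.P168 (sg)
open Vale.Agent.P168.MP (lin ET Valid)
open Vale.Agent.P157.Lim (xv sgn dot_xv)

namespace Vale.Agent.P157.Par

set_option linter.unusedSectionVars false

variable {Ω : Type} [Fintype Ω] [Nonempty Ω] {R N : ℕ} [NeZero N]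

theorem ov_eq (σ τ : Fin N → Bool) : dot (xv N σ) (xv N τ) = ov σ τ := by
  rw [ov, Vale.Agent.P168.MP.avg, Fintype.card_fin, Finset.sum_div, dot]
  refine Finset.sum_congr rfl fun v _ => ?_
  rw [xv, xv, div_mul_div_comm, Real.mul_self_sqrt (Nat.cast_nonneg N)]
  rfl

/-- **Tilts**: a factor in `[e^-b, e^b]` moves deviations and level values by at most `e^(4b)` -/
theorem rep_tilt (hR : 1 ≤ R) {w Y : List Ω → ℝ} (hw : ∀ p, 0 < w p) {b : ℝ}
    (hY : ∀ p, exp (-b) ≤ Y p ∧ Y p ≤ exp b) (rd : List Ω → Fin N → Bool)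
    (C : List Ω → List Ω → ℝ) (q : ℕ → ℝ) {l : ℕ} (hl : l ≤ R) :
    devOf R (fun p => w p * Y p) C q l ≤ exp (4 * b) * devOf R w C q l ∧
    |qlev R (fun p => w p * Y p) rd l - qlev R w rd l| ≤
      exp (4 * b) * devOf R w (ovK rd) (qlev R w rd) l := by
  refine rep_tilt_of hw (fun p => (exp_pos _).trans_le (hY p).1) (fun H hH => ?_) C q
  refine (ET_mul_le hR hw (exp_pos (-b)) (fun p => (hY p).1) (valid2 hl) hH).trans ?_
  rw [← Vale.Agent.P168.MP.ET_const_mul]
  refine Vale.Agent.P168.MP.ET_mono_on hw (valid2 hl) fun ps hs => ?_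
  obtain ⟨p, p', rfl⟩ := List.length_eq_two.1 (show ps.length = 2 from hs.1)
  have hb : ∀ p, 0 ≤ Y p / exp (-b) ∧ Y p / exp (-b) ≤ exp (2 * b) := fun p =>
    ⟨div_nonneg ((exp_pos _).le.trans (hY p).1) (exp_pos _).le, by
      rw [div_le_iff₀ (exp_pos _), ← exp_add, show 2 * b + -b = b by ring]; exact (hY p).2⟩
  rw [mul_comm]
  refine mul_le_mul_of_nonneg_right ?_ (hH _)
  simp only [List.map_cons, List.map_nil, List.prod_cons, List.prod_nil, mul_one]
  rw [show exp (4 * b) = exp (2 * b) * exp (2 * b) by rw [← exp_add]; ring_nf]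
  exact mul_le_mul (hb p).2 (hb p').2 (hb p').1 (exp_pos _).le

lemma Prof.mem {q : ℕ → ℝ} {V : ℝ} (h : Prof R q V) {l : ℕ} (hl : l ≤ R) : 0 ≤ q l ∧ q l ≤ V := by
  have mono : ∀ b, ∀ a, a ≤ b → b ≤ R → q a ≤ q b := by
    intro b
    induction b with
    | zero => intro a ha _; rw [Nat.le_zero.1 ha]
    | succ b ih =>
      intro a ha hb
      rcases Nat.lt_or_eq_of_le ha with h' | rfl
      · exact (ih a (by omega) (by omega)).trans (h.mono b (by omega))
      · exact le_rfl
  exact ⟨h.zero.trans (mono l 0 (Nat.zero_le _) hl), (mono R l hl le_rfl).trans h.top⟩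

/-- a deviation moves with the profile -/
lemma devOf_shift {w : List Ω → ℝ} (hw : ∀ p, 0 < w p) (C : List Ω → List Ω → ℝ) (q q' : ℕ → ℝ)
    (l : ℕ) : devOf R w C q l ≤ devOf R w C q' l + |q' l - q l| := by
  rw [devOf, devOf, ← Vale.Agent.P168.MP.ET_const (R := R) (m := lin R) hw [(0, l), (0, 0)] |q' l - q l|,
    ← Vale.Agent.P168.MP.ET_add]
  exact Vale.Agent.P168.MP.ET_mono hw fun ps => abs_sub_le _ _ _

lemma devOf_nonneg {w : List Ω → ℝ} (hw : ∀ p, 0 < w p) (C : List Ω → List Ω → ℝ) (q : ℕ → ℝ)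
    (l : ℕ) : 0 ≤ devOf R w C q l :=
  Vale.Agent.P168.MP.ET_nonneg hw fun _ => abs_nonneg _

/-- removing a bounded factor: the level values and the deviations -/
lemma tilt_rep (hR : 1 ≤ R) {w Y : List Ω → ℝ} (hw : ∀ p, 0 < w p) {b : ℝ}
    (hY : ∀ p, exp (-b) ≤ Y p ∧ Y p ≤ exp b) (rd : List Ω → Fin N → Bool) :
    let w' := fun p => w p * Y p
    (∀ l ≤ R, devOf R w (ovK rd) (qlev R w rd) l ≤
        2 * exp (4 * b) * devOf R w' (ovK rd) (qlev R w' rd) l ∧
      |qlev R w' rd l - qlev R w rd l| ≤ exp (4 * b) * devOf R w' (ovK rd) (qlev R w' rd) l) ∧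
    adev R w (ovK rd) (qlev R w rd) ≤ 2 * exp (4 * b) * adev R w' (ovK rd) (qlev R w' rd) := by
  intro w'
  have hYp : ∀ p, 0 < Y p := fun p => (exp_pos _).trans_le (hY p).1
  have hw' : ∀ p, 0 < w' p := fun p => mul_pos (hw p) (hYp p)
  have e : w = fun p => w' p * (Y p)⁻¹ := funext fun p => by
    show w p = w p * Y p * (Y p)⁻¹
    rw [mul_assoc, mul_inv_cancel₀ (hYp p).ne', mul_one]
  have hY' : ∀ p, exp (-b) ≤ (Y p)⁻¹ ∧ (Y p)⁻¹ ≤ exp b := fun p => by
    have h1 := inv_anti₀ (exp_pos _) (hY p).1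
    have h2 := inv_anti₀ (hYp p) (hY p).2
    rw [← exp_neg, neg_neg] at h1
    rw [← exp_neg] at h2
    exact ⟨h2, h1⟩
  have key : ∀ l ≤ R, devOf R w (ovK rd) (qlev R w rd) l ≤
        2 * exp (4 * b) * devOf R w' (ovK rd) (qlev R w' rd) l ∧
      |qlev R w' rd l - qlev R w rd l| ≤ exp (4 * b) * devOf R w' (ovK rd) (qlev R w' rd) l := by
    intro l hl
    obtain ⟨h1, h2⟩ := rep_tilt hR hw' hY' rd (ovK rd) (qlev R w' rd) hl
    rw [← e] at h1 h2
    rw [abs_sub_comm] at h2
    refine ⟨(devOf_shift hw _ _ (qlev R w' rd) l).trans ?_, h2⟩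
    linarith
  refine ⟨key, ?_⟩
  have hR0 : (0:ℝ) < R := by exact_mod_cast hR
  rw [adev, adev, mul_add, ← mul_div_assoc, Finset.mul_sum]
  exact add_le_add (div_le_div_of_nonneg_right
    (Finset.sum_le_sum fun l hl => (key l (Finset.mem_range.1 hl).le).1) hR0.le) (key R le_rfl).1

lemma ok_lin' (hR : 1 ≤ R) {Ω' : Type} (w : List Ω' → ℝ) (hw : ∀ p, 0 < w p) :
    Vale.Agent.P168.MP.Ok R (lin R) w := Vale.Agent.P168.MP.ok_lin hR hw

variable {f f1 f2 f3 : ℝ → ℝ} {B D : ℝ}

lemma continuous_qlev {M : ℕ} (hf : Continuous f) {w₀ : List Ω → ℝ} (hw₀ : ∀ p, 0 < w₀ p)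
    (rd : List Ω → Fin N → Bool) (l : ℕ) :
    Continuous fun g : Fin M → Fin N → ℝ => qlev R (fun p => w₀ p * ham f g (rd p)) rd l :=
  continuous_ET (fun p => (continuous_ham hf (rd p)).const_mul _)
    (fun g p => mul_pos (hw₀ p) (ham_pos f g _)) R _ fun _ => continuous_const

/-- what `pair_close` provides for unit diagonal -/
def PairClose (f f1 : ℝ → ℝ) (K : ℝ) : Prop :=
  ∀ {Ω ι : Type} [Fintype Ω] [Nonempty Ω] [Fintype ι] {R : ℕ} (_ : 1 ≤ R)
    {w : List Ω → ℝ} (_ : ∀ p, 0 < w p) {a : List Ω → ι → ℝ} (_ : ∀ p, cv a p p ≤ 1)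
    {q : ℕ → ℝ} (_ : Prof R q 1) {l : ℕ} (_ : l ≤ R)
    {Ψ : List Ω → List Ω → ℝ} {C : ℝ} (_ : ∀ p p', |Ψ p p'| ≤ C),
    |(∫ g, ET R (lin R) (fun p => w p * fac f a g p) [(0, l), (0, 0)] (fun ps =>
          Ψ (ps.getD 0 []) (ps.getD 1 []) * (f1 (dot (a (ps.getD 0 [])) g) * f1 (dot (a (ps.getD 1 [])) g))) ∂gauss ι) -
      Gamma (fun y => exp (f y)) f1 R (lin R) q l *
        ET R (lin R) w [(0, l), (0, 0)] (fun ps => Ψ (ps.getD 0 []) (ps.getD 1 []))|
      ≤ K * C * (devOf R w (cv a) q l + adev R w (cv a) q) ∧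
    |(∫ g, ET R (lin R) (fun p => w p * fac f a g p) [(0, l), (0, 0)] (fun ps =>
          Ψ (ps.getD 0 []) (ps.getD 1 [])) ∂gauss ι) -
        ET R (lin R) w [(0, l), (0, 0)] (fun ps => Ψ (ps.getD 0 []) (ps.getD 1 []))|
      ≤ K * C * (devOf R w (cv a) q l + adev R w (cv a) q)

/-- what `Phi_lip` provides for the correlations -/
def GammaLip (f f1 : ℝ → ℝ) (K : ℝ) : Prop :=
  ∀ (R : ℕ) (q q' : ℕ → ℝ), 1 ≤ R → Prof R q 1 → Prof R q' 1 → ∀ l ≤ R,
    |Gamma (fun y => exp (f y)) f1 R (lin R) q l - Gamma (fun y => exp (f y)) f1 R (lin R) q' l| ≤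
      K * (|q l - q' l| + (∑ j ∈ range R, |q j - q' j|) / R + |q R - q' R|)

/-- the deviation measure at level `l` -/
noncomputable def dlv (R : ℕ) (w : List Ω → ℝ) (rd : List Ω → Fin N → Bool) (l : ℕ) : ℝ :=
  devOf R w (ovK rd) (qlev R w rd) l + adev R w (ovK rd) (qlev R w rd)

lemma adev_nonneg {w : List Ω → ℝ} (hw : ∀ p, 0 < w p) (C : List Ω → List Ω → ℝ) (q : ℕ → ℝ) :
    0 ≤ adev R w C q :=
  add_nonneg (div_nonneg (Finset.sum_nonneg fun _ _ => devOf_nonneg hw _ _ _) (Nat.cast_nonneg _))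
    (devOf_nonneg hw _ _ _)

lemma dlv_nonneg {w : List Ω → ℝ} (hw : ∀ p, 0 < w p) (rd : List Ω → Fin N → Bool) (l : ℕ) :
    0 ≤ dlv R w rd l :=
  add_nonneg (devOf_nonneg hw _ _ _) (adev_nonneg hw _ _)

lemma continuous_dlv {M : ℕ} (hf : Continuous f) {w₀ : List Ω → ℝ} (hw₀ : ∀ p, 0 < w₀ p)
    (rd : List Ω → Fin N → Bool) (l : ℕ) :
    Continuous fun g : Fin M → Fin N → ℝ => dlv R (fun p => w₀ p * ham f g (rd p)) rd l := by
  have h : ∀ j, Continuous fun g : Fin M → Fin N → ℝ =>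
      devOf R (fun p => w₀ p * ham f g (rd p)) (ovK rd) (qlev R (fun p => w₀ p * ham f g (rd p)) rd) j :=
    fun j => continuous_ET (fun p => (continuous_ham hf (rd p)).const_mul _)
      (fun g p => mul_pos (hw₀ p) (ham_pos f g _)) R _ fun _ =>
        (continuous_const.sub (continuous_qlev hf hw₀ rd j)).abs
  unfold dlv adev
  exact (h l).add (((continuous_finsetSum _ fun j _ => h j).div_const _).add (h R))

lemma abs_dlv_le {w : List Ω → ℝ} (hw : ∀ p, 0 < w p) (hR : 1 ≤ R) (rd : List Ω → Fin N → Bool)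
    (l : ℕ) : |dlv R w rd l| ≤ 6 := by
  have h : ∀ j, devOf R w (ovK rd) (qlev R w rd) j ≤ 2 := fun j =>
    (le_abs_self _).trans (Vale.Agent.P168.MP.ET_bound hw fun ps => by
      have h1 := abs_qlev_le (rd := rd) (R := R) hw j
      have h2 := abs_ov_le (rd (ps.getD 0 [])) (rd (ps.getD 1 []))
      rw [abs_abs]
      refine (abs_sub _ _).trans ?_
      simp only [ovK]
      linarith)
  have hR0 : (0:ℝ) < R := by exact_mod_cast hR
  have hs : (∑ j ∈ range R, devOf R w (ovK rd) (qlev R w rd) j) / R ≤ 2 := by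
    rw [div_le_iff₀ hR0]
    refine (Finset.sum_le_sum fun j _ => h j).trans_eq ?_
    simp; ring
  rw [abs_of_nonneg (dlv_nonneg hw rd l), dlv, adev]
  linarith [h l, h R]

/-- concentration, from the interfaces -/
theorem qconc_of (hS : Sm f f1 f2 f3 B D) (hB : ∀ x, f x ≤ B) {KP KL : ℝ} (hKP : 0 ≤ KP) (hKL : 0 ≤ KL)
    (hpair : PairClose f f1 KP) (hlip : GammaLip f f1 KL)
    (hprof : ∀ (R : ℕ) (q : ℕ → ℝ), 1 ≤ R → Prof R q 1 →
      Prof R (fun l => Gamma (fun y => exp (f y)) f1 R (lin R) q l) (D ^ 2)) :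
    ∃ K : ℝ, 0 ≤ K ∧
    ∀ {Ω : Type} [Fintype Ω] [Nonempty Ω] {R N M : ℕ} [NeZero N] (_ : 1 ≤ R) (_ : 2 ≤ M)
      (w₀ : List Ω → ℝ) (_ : ∀ p, 0 < w₀ p) (rd : List Ω → Fin N → Bool) {t : ℝ} (_ : 0 < t) {l : ℕ} (_ : l ≤ R),
      let w := fun (g : Fin M → Fin N → ℝ) p => w₀ p * ham f g (rd p)
      ∫ g, devOf R (w g) (qK f1 rd g) (fun l => Gamma (fun y => exp (f y)) f1 R (lin R) (qlev R (w g) rd) l) l ∂pats N M ≤
        t + K / t * ((∫ g, (devOf R (w g) (ovK rd) (qlev R (w g) rd) l + adev R (w g) (ovK rd) (qlev R (w g) rd)) ∂pats N M) + 1 / M) := by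
  set e4 := exp (4 * B)
  set L := KL * e4
  have he : 0 < e4 := exp_pos _
  -- bound for one ordered pair of patterns
  set P := 4 * D ^ 2 * L + (D ^ 2 + 1) * (2 * e4) * (KP * (2 * D ^ 2)) with hP
  have hL : 0 ≤ L := mul_nonneg hKL he.le
  have hP0 : 0 ≤ P := by positivity
  refine ⟨(P + 4 * D ^ 4) / 4, by positivity, ?_⟩
  intro Ω _ _ R N M _ hR hM w₀ hw₀ rd t ht l hl w
  have hf : Continuous f := continuous_iff_continuousAt.2 fun x => (hS.d0 x).continuousAt
  have hf1 : Continuous f1 := continuous_iff_continuousAt.2 fun x => (hS.d1 x).continuousAt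
  have hD : 0 ≤ D := (abs_nonneg _).trans (hS.b1 0)
  have hwp : ∀ g p, 0 < w g p := fun g p => mul_pos (hw₀ p) (ham_pos f g _)
  have hpr : ∀ (w : List Ω → ℝ), (∀ p, 0 < w p) → Prof R (qlev R w rd) 1 := fun w hw => (qlev_prof hw).1
  set G : (Fin M → Fin N → ℝ) → ℝ := fun g => Gamma (fun y => exp (f y)) f1 R (lin R) (qlev R (w g) rd) l
  have hGb : ∀ (w : List Ω → ℝ), (∀ p, 0 < w p) →
      0 ≤ Gamma (fun y => exp (f y)) f1 R (lin R) (qlev R w rd) l ∧
        Gamma (fun y => exp (f y)) f1 R (lin R) (qlev R w rd) l ≤ D ^ 2 := fun w hw =>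
    (hprof R _ hR (hpr w hw)).mem hl
  have hGc : Continuous G := by
    rw [continuous_iff_continuousAt]
    intro g₀
    rw [ContinuousAt, tendsto_iff_norm_sub_tendsto_zero]
    refine squeeze_zero (fun g => norm_nonneg _) (fun g => hlip R _ _ hR (hpr _ (hwp g)) (hpr _ (hwp g₀)) l hl) ?_
    have c : ∀ j, Continuous fun g => |qlev R (w g) rd j - qlev R (w g₀) rd j| := fun j =>
      ((continuous_qlev hf hw₀ rd j).sub continuous_const).abs
    have hc : Continuous fun g => KL * (|qlev R (w g) rd l - qlev R (w g₀) rd l| +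
        (∑ j ∈ range R, |qlev R (w g) rd j - qlev R (w g₀) rd j|) / R + |qlev R (w g) rd R - qlev R (w g₀) rd R|) :=
      (((c l).add ((continuous_finsetSum _ fun j _ => c j).div_const _)).add (c R)).const_mul _
    simpa using hc.tendsto g₀
  set φ : (Fin M → Fin N → ℝ) → Fin M → List Ω → List Ω → ℝ := fun g a p p' =>
    f1 (dot (xv N (rd p)) (g a)) * f1 (dot (xv N (rd p')) (g a))
  have hφ : ∀ g a p p', |φ g a p p'| ≤ D ^ 2 := fun g a p p' => by
    rw [abs_mul, sq]; exact mul_le_mul (hS.b1 _) (hS.b1 _) (abs_nonneg _) hD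
  have hφG : ∀ g a p p', |φ g a p p' - G g| ≤ 2 * D ^ 2 := fun g a p p' => by
    refine (abs_sub _ _).trans ?_
    obtain ⟨g1, g2⟩ := hGb _ (hwp g)
    linarith [hφ g a p p', abs_of_nonneg g1]
  have hφc : ∀ a p p', Continuous fun g => φ g a p p' := fun a p p' =>
    (hf1.comp ((continuous_dot_left _).comp (continuous_apply a))).mul
      (hf1.comp ((continuous_dot_left _).comp (continuous_apply a)))
  set F : Fin M → Fin M → (Fin M → Fin N → ℝ) → ℝ := fun a b g =>
    ET R (lin R) (w g) [(0, l), (0, 0)] fun ps =>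
      (φ g a (ps.getD 0 []) (ps.getD 1 []) - G g) * (φ g b (ps.getD 0 []) (ps.getD 1 []) - G g)
  have hFb : ∀ a b g, |F a b g| ≤ 4 * D ^ 4 := fun a b g =>
    Vale.Agent.P168.MP.ET_bound (hwp g) fun ps => by
      rw [abs_mul]
      exact (mul_le_mul (hφG g a _ _) (hφG g b _ _) (abs_nonneg _) (by positivity)).trans_eq (by ring)
  have hwc : ∀ p, Continuous fun g => w g p := fun p => (continuous_ham hf (rd p)).const_mul _
  have hFc : ∀ a b, Continuous (F a b) := fun a b =>
    continuous_ET hwc hwp R _ fun ps => ((hφc a _ _).sub hGc).mul ((hφc b _ _).sub hGc)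
  have hFi : ∀ a b, Integrable (F a b) (pats N M) := fun a b =>
    Integrable.of_bound (hFc a b).aestronglyMeasurable (4 * D ^ 4) (Filter.Eventually.of_forall (hFb a b))
  have hdc : Continuous fun g => dlv R (w g) rd l := continuous_dlv hf hw₀ rd l
  have hdi : Integrable (fun g => dlv R (w g) rd l) (pats N M) :=
    Integrable.of_bound hdc.aestronglyMeasurable 6 (Filter.Eventually.of_forall fun g => abs_dlv_le (hwp g) hR rd l)
  set Δ := ∫ g, dlv R (w g) rd l ∂pats N M with hΔ
  have hΔ0 : 0 ≤ Δ := integral_nonneg fun g => dlv_nonneg (hwp g) rd l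
  -- two different patterns
  have hoff : ∀ a b, a ≠ b → ∫ g, F a b g ∂pats N M ≤ P * Δ := by
    intro a b hab
    obtain ⟨M', rfl⟩ : ∃ M', M = M' + 1 := ⟨M - 1, by omega⟩
    obtain ⟨a', rfl⟩ := Fin.exists_succAbove_eq hab
    rw [integral_pats_succ b (hFi _ _), hΔ, integral_pats_succ b hdi, ← integral_const_mul]
    have hconv : ∀ {H : (Fin (M' + 1) → Fin N → ℝ) → ℝ}, Integrable H (pats N (M' + 1)) →
        Integrable (fun g₀ => ∫ y, H (ins b y g₀) ∂gauss (Fin N)) (pats N M') := fun {H} hH =>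
      (((measurePreserving_ins b).integrable_comp_of_integrable hH)).integral_prod_right
    refine integral_mono (hconv (hFi _ _)) ((hconv hdi).const_mul P) fun g₀ => ?_
    set w₂ : List Ω → ℝ := fun p => w₀ p * ham f g₀ (rd p)
    have hw₂ : ∀ p, 0 < w₂ p := fun p => mul_pos (hw₀ p) (ham_pos f g₀ _)
    set q₂ := qlev R w₂ rd
    set G₂ := Gamma (fun y => exp (f y)) f1 R (lin R) q₂ l
    set av : List Ω → Fin N → ℝ := fun p => xv N (rd p)
    set Ψ : List Ω → List Ω → ℝ := fun p p' =>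
      f1 (dot (xv N (rd p)) (g₀ a')) * f1 (dot (xv N (rd p')) (g₀ a')) - G₂
    have hΨ : ∀ p p', |Ψ p p'| ≤ 2 * D ^ 2 := fun p p' => by
      refine (abs_sub _ _).trans ?_
      obtain ⟨g1, g2⟩ := hGb _ hw₂
      have := mul_le_mul (hS.b1 (dot (xv N (rd p)) (g₀ a'))) (hS.b1 (dot (xv N (rd p')) (g₀ a'))) (abs_nonneg _) hD
      rw [← abs_mul] at this
      linarith [abs_of_nonneg g1]
    have hw : ∀ y, w (ins b y g₀) = fun p => w₂ p * fac f av y p := fun y => funext fun p => by
      simp only [w, w₂, fac, av, ham_ins, mul_assoc]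
    have hY : ∀ y p, exp (-B) ≤ fac f av y p ∧ fac f av y p ≤ exp B := fun y p =>
      ⟨exp_le_exp.2 (hS.lb _), exp_le_exp.2 (hB _)⟩
    have hcv : cv av = ovK rd := funext fun p => funext fun p' => ov_eq _ _
    obtain ⟨p1, p2⟩ := hpair hR hw₂ (a := av) (fun p => by rw [hcv]; exact (ov_self _).le) (hpr w₂ hw₂) hl hΨ
    rw [hcv] at p1 p2
    -- the frozen observable
    set F₂ : (Fin N → ℝ) → ℝ := fun y => ET R (lin R) (fun p => w₂ p * fac f av y p) [(0, l), (0, 0)] fun ps =>
      Ψ (ps.getD 0 []) (ps.getD 1 []) * (f1 (dot (av (ps.getD 0 [])) y) * f1 (dot (av (ps.getD 1 [])) y) - G₂)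
    have hbound : ∀ y, F (b.succAbove a') b (ins b y g₀) ≤ F₂ y + 4 * D ^ 2 * L * dlv R (w (ins b y g₀)) rd l ∧
        dlv R w₂ rd l ≤ 2 * e4 * dlv R (w (ins b y g₀)) rd l := by
      intro y
      obtain ⟨k1, k2⟩ := tilt_rep hR hw₂ (hY y) rd
      rw [hw y]
      refine ⟨?_, by simp only [dlv]; linarith [(k1 l hl).1]⟩
      have hwy : ∀ p, 0 < w₂ p * fac f av y p := fun p => mul_pos (hw₂ p) (exp_pos _)
      have hG : |G (ins b y g₀) - G₂| ≤ L * dlv R (fun p => w₂ p * fac f av y p) rd l := by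
        simp only [G, G₂, q₂, hw y]
        refine (hlip R _ _ hR (hpr _ hwy) (hpr _ hw₂) l hl).trans ?_
        simp only [L, dlv, adev, mul_add, mul_assoc, ← mul_div_assoc, Finset.mul_sum, e4]
        rw [add_assoc]
        refine add_le_add (mul_le_mul_of_nonneg_left (k1 l hl).2 hKL) (add_le_add
          (div_le_div_of_nonneg_right (Finset.sum_le_sum fun j hj =>
            mul_le_mul_of_nonneg_left (k1 j (Finset.mem_range.1 hj).le).2 hKL) (Nat.cast_nonneg _))
          (mul_le_mul_of_nonneg_left (k1 R le_rfl).2 hKL))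
      have hFe : F (b.succAbove a') b (ins b y g₀) = ET R (lin R) (fun p => w₂ p * fac f av y p) [(0, l), (0, 0)]
          fun ps => (Ψ (ps.getD 0 []) (ps.getD 1 []) + (G₂ - G (ins b y g₀))) *
            (f1 (dot (av (ps.getD 0 [])) y) * f1 (dot (av (ps.getD 1 [])) y) - G (ins b y g₀)) := by
        simp only [F]
        rw [hw y]
        simp only [φ, Ψ, av, ins, Fin.insertNth_apply_same, Fin.insertNth_apply_succAbove]
        congr 1; funext ps; ring
      rw [hFe, ← Vale.Agent.P168.MP.ET_const (R := R) (m := lin R) hwy [(0, l), (0, 0)]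
        (4 * D ^ 2 * L * dlv R (fun p => w₂ p * fac f av y p) rd l), ← Vale.Agent.P168.MP.ET_add]
      refine Vale.Agent.P168.MP.ET_mono hwy fun ps => ?_
      set u := Ψ (ps.getD 0 []) (ps.getD 1 [])
      set v := f1 (dot (av (ps.getD 0 [])) y) * f1 (dot (av (ps.getD 1 [])) y)
      have hu := hΨ (ps.getD 0 []) (ps.getD 1 [])
      have hv : |v - G (ins b y g₀)| ≤ 2 * D ^ 2 := by
        simpa [φ, v, av, ins] using hφG (ins b y g₀) b (ps.getD 0 []) (ps.getD 1 [])
      have e : (u + (G₂ - G (ins b y g₀))) * (v - G (ins b y g₀)) =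
          u * (v - G₂) + ((G₂ - G (ins b y g₀)) * (v - G (ins b y g₀)) + u * (G₂ - G (ins b y g₀))) := by ring
      rw [e]
      refine add_le_add le_rfl ((le_abs_self _).trans ((abs_add_le _ _).trans ?_))
      rw [abs_mul, abs_mul, abs_sub_comm G₂]
      have h1 := mul_le_mul hG hv (abs_nonneg _) (mul_nonneg hL (dlv_nonneg hwy rd l))
      have h2 := mul_le_mul hu hG (abs_nonneg _) (by positivity)
      linarith
    have hcy : ∀ p, Continuous fun y => w₂ p * fac f av y p := fun p =>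
      (continuous_exp.comp (hf.comp (continuous_dot_left (av p)))).const_mul _
    have hpy : ∀ y p, 0 < w₂ p * fac f av y p := fun y p => mul_pos (hw₂ p) (exp_pos _)
    have iA : Integrable (fun y => ET R (lin R) (fun p => w₂ p * fac f av y p) [(0, l), (0, 0)] fun ps =>
        Ψ (ps.getD 0 []) (ps.getD 1 []) * (f1 (dot (av (ps.getD 0 [])) y) * f1 (dot (av (ps.getD 1 [])) y)))
        (gauss (Fin N)) :=
      Integrable.of_bound (continuous_ET hcy hpy R _ fun ps => ((hf1.comp (continuous_dot_left _)).mul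
          (hf1.comp (continuous_dot_left _))).const_mul _).aestronglyMeasurable (2 * D ^ 2 * (D * D))
        (Filter.Eventually.of_forall fun y => Vale.Agent.P168.MP.ET_bound (hpy y) fun ps => by
          rw [abs_mul, abs_mul]
          exact mul_le_mul (hΨ _ _) (mul_le_mul (hS.b1 _) (hS.b1 _) (abs_nonneg _) hD) (by positivity) (by positivity))
    have iB : Integrable (fun y => ET R (lin R) (fun p => w₂ p * fac f av y p) [(0, l), (0, 0)] fun ps =>
        Ψ (ps.getD 0 []) (ps.getD 1 [])) (gauss (Fin N)) :=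
      Integrable.of_bound (continuous_ET hcy hpy R [(0, l), (0, 0)]
        (F := fun _ ps => Ψ (ps.getD 0 []) (ps.getD 1 [])) fun _ => continuous_const).aestronglyMeasurable
        (2 * D ^ 2) (Filter.Eventually.of_forall fun y => Vale.Agent.P168.MP.ET_bound (hpy y) fun ps => hΨ _ _)
    have hF2 : ∀ y, F₂ y = (ET R (lin R) (fun p => w₂ p * fac f av y p) [(0, l), (0, 0)] fun ps =>
        Ψ (ps.getD 0 []) (ps.getD 1 []) * (f1 (dot (av (ps.getD 0 [])) y) * f1 (dot (av (ps.getD 1 [])) y))) -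
        G₂ * ET R (lin R) (fun p => w₂ p * fac f av y p) [(0, l), (0, 0)] fun ps =>
          Ψ (ps.getD 0 []) (ps.getD 1 []) := fun y => by
      simp only [F₂, ← Vale.Agent.P168.MP.ET_const_mul, ← Vale.Agent.P168.MP.ET_sub]
      congr 1; funext ps; ring
    have iF2 : Integrable F₂ (gauss (Fin N)) := by
      rw [funext hF2]; exact iA.sub (iB.const_mul _)
    have hI2 : ∫ y, F₂ y ∂gauss (Fin N) ≤ (D ^ 2 + 1) * (KP * (2 * D ^ 2)) * dlv R w₂ rd l := by
      simp only [hF2]
      rw [integral_sub iA (iB.const_mul _), integral_const_mul]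
      obtain ⟨g1, g2⟩ := hGb _ hw₂
      have a1 := (abs_le.1 p1).2
      have a2 := mul_le_mul_of_nonneg_left (abs_le.1 p2).1 g1
      have a3 := mul_le_mul_of_nonneg_right g2
        (mul_nonneg (mul_nonneg hKP (by positivity : 0 ≤ 2 * D ^ 2)) (dlv_nonneg (R := R) hw₂ rd l))
      simp only [dlv] at *
      linarith
    have hcd : Continuous fun y => dlv R (w (ins b y g₀)) rd l := by
      refine hdc.comp ?_
      exact continuous_pi fun i => by
        rcases Fin.eq_self_or_eq_succAbove b i with rfl | ⟨j, rfl⟩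
        · simp only [ins, Fin.insertNth_apply_same]; exact continuous_id
        · simp only [ins, Fin.insertNth_apply_succAbove]; exact continuous_const
    have id' : Integrable (fun y => dlv R (w (ins b y g₀)) rd l) (gauss (Fin N)) :=
      Integrable.of_bound hcd.aestronglyMeasurable 6
        (Filter.Eventually.of_forall fun y => abs_dlv_le (hwp _) hR rd l)
    have hw2int : dlv R w₂ rd l ≤ 2 * e4 * ∫ y, dlv R (w (ins b y g₀)) rd l ∂gauss (Fin N) := by
      have := integral_mono (μ := gauss (Fin N)) (integrable_const (dlv R w₂ rd l)) (id'.const_mul (2 * e4))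
        fun y => (hbound y).2
      simpa [integral_const_mul] using this
    have iF : Integrable (fun y => F (b.succAbove a') b (ins b y g₀)) (gauss (Fin N)) := by
      refine Integrable.of_bound ((hFc _ _).comp ?_).aestronglyMeasurable (4 * D ^ 4)
        (Filter.Eventually.of_forall fun y => hFb _ _ _)
      exact continuous_pi fun i => by
        rcases Fin.eq_self_or_eq_succAbove b i with rfl | ⟨j, rfl⟩
        · simp only [ins, Fin.insertNth_apply_same]; exact continuous_id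
        · simp only [ins, Fin.insertNth_apply_succAbove]; exact continuous_const
    refine (integral_mono iF (iF2.add (id'.const_mul (4 * D ^ 2 * L))) fun y => (hbound y).1).trans ?_
    simp only [Pi.add_apply]
    rw [integral_add iF2 (id'.const_mul _), integral_const_mul]
    have h3 := mul_le_mul_of_nonneg_left hw2int (show 0 ≤ (D ^ 2 + 1) * (KP * (2 * D ^ 2)) by positivity)
    rw [hP]
    linarith
  -- expand the square
  set V : (Fin M → Fin N → ℝ) → ℝ := fun g => (∑ a, ∑ b, F a b g) / (M:ℝ) ^ 2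
  have hM0 : (0:ℝ) < M := by exact_mod_cast (show 0 < M by omega)
  have hV : ∀ g, devOf R (w g) (qK f1 rd g)
      (fun l => Gamma (fun y => exp (f y)) f1 R (lin R) (qlev R (w g) rd) l) l ≤ t + V g * (1 / (4 * t)) := by
    intro g
    refine (Vale.Agent.P168.MP.ET_mono (hwp g) fun ps => abs_le_sq ht).trans (le_of_eq ?_)
    simp only [div_eq_mul_inv, Vale.Agent.P168.MP.ET_add, Vale.Agent.P168.MP.ET_const (hwp g),
      Vale.Agent.P168.MP.ET_mul_const, one_mul]
    congr 2
    simp only [V, F, ← Vale.Agent.P168.MP.ET_sum, div_eq_mul_inv, ← Vale.Agent.P168.MP.ET_mul_const]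
    congr 1; funext ps
    rw [← Finset.sum_mul_sum]
    simp only [Finset.sum_sub_distrib, Finset.sum_const, Finset.card_univ, Fintype.card_fin, nsmul_eq_mul, qK, φ, G]
    field_simp
  have hVc : Continuous V := (continuous_finsetSum _ fun a _ => continuous_finsetSum _ fun b _ => hFc a b).div_const _
  have hVi : Integrable V (pats N M) :=
    (integrable_finsetSum _ fun a _ => integrable_finsetSum _ fun b _ => hFi a b).div_const _
  have hdev : Integrable (fun g => devOf R (w g) (qK f1 rd g)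
      (fun l => Gamma (fun y => exp (f y)) f1 R (lin R) (qlev R (w g) rd) l) l) (pats N M) := by
    refine Integrable.mono' ((integrable_const t).add (hVi.mul_const (1 / (4 * t)))) ?_
      (Filter.Eventually.of_forall fun g => ?_)
    · refine Continuous.aestronglyMeasurable ?_
      refine continuous_ET hwc hwp R _ fun ps => (Continuous.sub ?_ hGc).abs
      unfold qK
      exact (continuous_finsetSum _ fun a _ => hφc a _ _).div_const _
    · rw [Real.norm_eq_abs, abs_of_nonneg (devOf_nonneg (hwp g) _ _ _)]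
      exact hV g
  refine (integral_mono hdev ((integrable_const t).add (hVi.mul_const (1 / (4 * t)))) hV).trans ?_
  simp only [Pi.add_apply]
  rw [integral_add (integrable_const t) (hVi.mul_const _), integral_const, probReal_univ, one_smul,
    integral_mul_const]
  refine add_le_add le_rfl ?_
  have hsum : ∫ g, V g ∂pats N M ≤ P * Δ + 4 * D ^ 4 * (1 / M) := by
    simp only [V]
    rw [integral_div, integral_finsetSum _ fun a _ => integrable_finsetSum _ fun b _ => hFi a b]
    have h1 : ∀ a, ∫ g, ∑ b, F a b g ∂pats N M ≤ M * (P * Δ) + 4 * D ^ 4 := by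
      intro a
      rw [integral_finsetSum _ fun b _ => hFi a b, ← Finset.sum_erase_add _ _ (Finset.mem_univ a)]
      refine add_le_add ((Finset.sum_le_sum fun b hb => hoff a b (Finset.ne_of_mem_erase hb).symm).trans ?_) ?_
      · rw [Finset.sum_const, nsmul_eq_mul]
        refine mul_le_mul_of_nonneg_right ?_ (mul_nonneg hP0 hΔ0)
        simp
      · calc ∫ g, F a a g ∂pats N M ≤ ∫ _g, 4 * D ^ 4 ∂pats N M :=
              integral_mono (hFi a a) (integrable_const _) fun g => (le_abs_self _).trans (hFb a a g)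
          _ = _ := by simp
    refine (div_le_div_of_nonneg_right (Finset.sum_le_sum fun a _ => h1 a) (by positivity)).trans_eq ?_
    simp only [Finset.sum_const, Finset.card_univ, Fintype.card_fin, nsmul_eq_mul]
    field_simp
  calc (∫ g, V g ∂pats N M) * (1 / (4 * t)) ≤ (P * Δ + 4 * D ^ 4 * (1 / M)) * (1 / (4 * t)) :=
        mul_le_mul_of_nonneg_right hsum (by positivity)
    _ ≤ (P + 4 * D ^ 4) * (Δ + 1 / M) * (1 / (4 * t)) := by
        refine mul_le_mul_of_nonneg_right ?_ (by positivity)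
        have : (0:ℝ) ≤ 1 / M := by positivity
        nlinarith [mul_nonneg hP0 this, mul_nonneg (show 0 ≤ 4 * D ^ 4 by positivity) hΔ0]
    _ = (P + 4 * D ^ 4) / 4 / t * (Δ + 1 / M) := by field_simp

end Vale.Agent.P157.Par
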