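import Vale.Agent.P157.Par.Rep
import Vale.Agent.P168.MP.GridConc
import Vale.Agent.P168.MP.NestC

/-! The pair representation on the grid of perturbations. -/

open Finset Real
open Vale.Agent.P168.MP (lin pw spinAt allBatch BIdx gu avg)

namespace Vale.Agent.P157.Par

/-- uniformly in the weight, the mean deviation over the grid of perturbations is small -/
theorem grid_rep {ε : ℝ} (hε : 0 < ε) : ∃ R₀ : ℕ, ∀ R, R₀ ≤ R → ∃ (S M : ℕ) (h ub : ℝ),
    0 < S ∧ 0 < M ∧ 0 < h ∧ h ≤ 1 ∧ 0 < ub ∧ ub ≤ 1 ∧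
    ∀ (N : ℕ) [NeZero N] (W : (Fin N → Bool) → ℝ), (∀ σ, 0 < W σ) →
      avg (fun g : BIdx R 2 → Fin M =>
        adev R (pw (S := S) (β := allBatch R 2) R W (fun _ => h) (gu ub M g)) (ovK (spinAt R))
          (qlev R (pw (S := S) (β := allBatch R 2) R W (fun _ => h) (gu ub M g)) (spinAt R))) ≤ ε := by
  obtain ⟨R₁, hR₁⟩ := rep_small (show 0 < ε / 2 by positivity)
  refine ⟨max R₁ 1, fun R hR => ?_⟩
  have hR1 : 1 ≤ R := le_of_max_le_right hR
  obtain ⟨C, hC⟩ := hR₁ R (le_of_max_le_left hR)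
  obtain ⟨S, M, h, ub, hS, hM, h0, h1, hub, hub1, hgrid⟩ :=
    Vale.Agent.P168.MP.grid_params R 2 hR1 (ε := ε / 2 / (|C| + 1)) (by positivity)
  refine ⟨S, M, h, ub, hS, hM, h0, h1, hub, hub1, fun N _ W hW => ?_⟩
  have : NeZero M := ⟨hM.ne'⟩
  set G := BIdx R 2 → Fin M
  have hb : ∀ g : G, adev R (pw (S := S) (β := allBatch R 2) R W (fun _ => h) (gu ub M g)) (ovK (spinAt R))
      (qlev R (pw (S := S) (β := allBatch R 2) R W (fun _ => h) (gu ub M g)) (spinAt R)) ≤
      ε / 2 + (|C| + 1) * Vale.Agent.P168.MP.errSum R S (lin R) W (fun _ => h) (gu ub M g) := fun g => by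
    have hok : Vale.Agent.P168.MP.Ok R (lin R) (pw (S := S) (β := allBatch R 2) R W (fun _ => h) (gu ub M g)) :=
      Vale.Agent.P168.MP.ok_pw_lin hR1 hW
    obtain ⟨hE, hI⟩ := Vale.Agent.P168.MP.ident_errSum hok hS hR1 fun _ => ⟨h0, h1⟩
    have := hC _ hok.wpos _ _ hE hI
    have := mul_le_mul_of_nonneg_right ((le_abs_self C).trans (le_add_of_nonneg_right zero_le_one)) hE
    linarith
  refine (Vale.Agent.P168.MP.avg_le_avg hb).trans ?_
  have he : (avg fun g : G => ε / 2 + (|C| + 1) *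
      Vale.Agent.P168.MP.errSum R S (lin R) W (fun _ => h) (gu ub M g)) =
      ε / 2 + (|C| + 1) * avg fun g : G => Vale.Agent.P168.MP.errSum R S (lin R) W (fun _ => h) (gu ub M g) := by
    have hc := Vale.Agent.P168.MP.card_pos_real (Ω := G)
    simp only [avg, sum_add_distrib, sum_const, card_univ, nsmul_eq_mul, ← mul_sum]
    field_simp
  rw [he]
  have := mul_le_mul_of_nonneg_left (hgrid N W hW) (show 0 ≤ |C| + 1 by positivity)
  rw [mul_div_cancel₀ _ (show |C| + 1 ≠ 0 by positivity)] at this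
  linarith

end Vale.Agent.P157.Par
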