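import Vale.Agent.P157.Par.Taylor
import Vale.Agent.P157.Par.Basics

/-! The site value as a function of the profile: bounds and Lipschitz dependence. -/

open MeasureTheory ProbabilityTheory Real Finset Filter
open Vale.Agent.P150 (gauss dot)
open Vale.Agent.P168.MP (lin ET Ok Valid valid_single valid_cons_of ok_lin)
open scoped Topology

namespace Vale.Agent.P157.Par

variable {f f1 f2 f3 : ℝ → ℝ} {B D : ℝ}

/-- weight of the split level `l` of two replicas -/
noncomputable def coef (R l : ℕ) : ℝ := (if l = 0 then 0 else lin R l) - lin R (l + 1)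

lemma coef_lt {R l : ℕ} (hl : l < R) : coef R l = -(1 / (R : ℝ)) := by
  unfold coef lin
  rw [if_pos (show l + 1 ≤ R by omega)]
  split_ifs with h h'
  · subst h; simp
  · push_cast; ring
  · omega

lemma coef_top {R : ℕ} (hR : 1 ≤ R) : coef R R = 1 := by
  unfold coef lin
  rw [if_neg (show R ≠ 0 by omega), if_pos le_rfl, if_neg (show ¬ R + 1 ≤ R by omega), sub_zero, div_self]
  exact Nat.cast_ne_zero.2 (by omega)

/-- mean distance of two profiles -/
noncomputable def dist1 (R : ℕ) (q q' : ℕ → ℝ) : ℝ :=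
  (∑ l ∈ range R, |q l - q' l|) / R + |q R - q' R|

lemma dist1_nonneg (R : ℕ) (q q' : ℕ → ℝ) : 0 ≤ dist1 R q q' := by unfold dist1; positivity

lemma Prof.upper {R : ℕ} {q : ℕ → ℝ} {V : ℝ} (h : Prof R q V) {l : ℕ} (hl : l ≤ R) :
    0 ≤ q l ∧ q l ≤ V := by
  have up : ∀ j, l + j ≤ R → q l ≤ q (l + j) := by
    intro j
    induction j with
    | zero => simp
    | succ j ih => intro hj; exact (ih (by omega)).trans (h.mono _ (by omega))
  have lo : ∀ j, j ≤ R → q 0 ≤ q j := by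
    intro j
    induction j with
    | zero => simp
    | succ j ih => intro hj; exact (ih (by omega)).trans (h.mono _ (by omega))
  refine ⟨h.zero.trans (lo l hl), ?_⟩
  have := up (R - l) (by omega)
  rw [show l + (R - l) = R by omega] at this
  exact this.trans h.top

lemma Prof.weaken {R : ℕ} {q : ℕ → ℝ} {V V' : ℝ} (h : Prof R q V) (hV : V ≤ V') : Prof R q V' :=
  ⟨h.zero, h.mono, h.top.trans hV⟩

lemma Prof.scale {R : ℕ} {q : ℕ → ℝ} {V a : ℝ} (h : Prof R q V) (ha : 0 ≤ a) :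
    Prof R (fun l => a * q l) (a * V) :=
  ⟨mul_nonneg ha h.zero, fun l hl => mul_le_mul_of_nonneg_left (h.mono l hl) ha,
    mul_le_mul_of_nonneg_left h.top ha⟩

lemma dist1_le_two {R : ℕ} (hR : 1 ≤ R) {q q' : ℕ → ℝ} (h : Prof R q 1) (h' : Prof R q' 1) :
    dist1 R q q' ≤ 2 := by
  have hb : ∀ l ≤ R, |q l - q' l| ≤ 1 := fun l hl => by
    have := h.upper hl; have := h'.upper hl
    rw [abs_le]; constructor <;> linarith
  have : (∑ l ∈ range R, |q l - q' l|) / R ≤ 1 := by
    rw [div_le_one (by exact_mod_cast hR)]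
    refine (sum_le_sum fun l hl => hb l (mem_range.1 hl).le).trans ?_
    simp
  unfold dist1
  linarith [hb R le_rfl]

/-- the correlation profile of a trial -/
noncomputable def Gm (f f1 : ℝ → ℝ) (R : ℕ) (q : ℕ → ℝ) (l : ℕ) : ℝ :=
  Gamma (fun y => exp (f y)) f1 R (lin R) q l

/-- the value of one site -/
noncomputable def Esite (α : ℝ) (f f1 : ℝ → ℝ) (R : ℕ) (q : ℕ → ℝ) : ℝ :=
  Phi cosh R (lin R) (fun l => α * Gm f f1 R q l) -
    α / 2 * ∑ l ∈ range (R + 1), coef R l * (Gm f f1 R q l * q l)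

lemma Sm.deriv_eq (hS : Sm f f1 f2 f3 B D) : deriv f = f1 := funext fun x => (hS.d0 x).deriv

lemma fval_site (hS : Sm f f1 f2 f3 B D) {R : ℕ} (hR : 1 ≤ R) {q : ℕ → ℝ} (hq : q R = 1) (α : ℝ) :
    Fval α f R (lin R) q =
      α * Phi (fun y => exp (f y)) R (lin R) q + Esite α f f1 R q := by
  unfold Fval Esite Gm
  rw [hS.deriv_eq, sum_range_succ _ R, coef_top hR, hq, one_mul, mul_one]
  simp only [coef]
  ring

lemma cosh_eq_exp : (fun y => exp (log (cosh y))) = cosh := funext fun y => exp_log (cosh_pos y)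

section functional
variable {X : Type*} [TopologicalSpace X] {R : ℕ}

/-- a Lipschitz functional of a continuous family of profiles is continuous and bounded -/
lemma cont_functional (hR : 1 ≤ R) {F : (ℕ → ℝ) → ℝ} {K : ℝ} (hK : 0 ≤ K)
    (hF : ∀ q q', Prof R q 1 → Prof R q' 1 → |F q - F q'| ≤ K * dist1 R q q')
    {q : X → ℕ → ℝ} (hq : ∀ x, Prof R (q x) 1) (hc : ∀ l, Continuous fun x => q x l) :
    (Continuous fun x => F (q x)) ∧ ∀ x, |F (q x)| ≤ |F fun _ => 1| + 2 * K := by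
  refine ⟨continuous_iff_continuousAt.2 fun x₀ => tendsto_iff_norm_sub_tendsto_zero.2 ?_, fun x => ?_⟩
  · refine squeeze_zero (fun _ => norm_nonneg _) (fun x => hF _ _ (hq x) (hq x₀)) ?_
    have h : Continuous fun x => K * dist1 R (q x) (q x₀) := by unfold dist1; fun_prop
    simpa [dist1] using h.tendsto x₀
  · have h1 : Prof R (fun _ => (1:ℝ)) 1 := ⟨zero_le_one, fun _ _ => le_rfl, le_rfl⟩
    have := (hF _ _ (hq x) h1).trans (mul_le_mul_of_nonneg_left (dist1_le_two hR (hq x) h1) hK)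
    linarith [abs_sub_abs_le_abs_sub (F (q x)) (F fun _ => 1)]

end functional

section dev
variable {Ω : Type} [Fintype Ω] [Nonempty Ω] {R : ℕ} {w : List Ω → ℝ} {C : List Ω → List Ω → ℝ}
  {q : ℕ → ℝ}

lemma valid_pair {l : ℕ} (hl : l ≤ R) : Valid R [(0, l), (0, 0)] :=
  valid_cons_of valid_single (by simp) hl

lemma devOf_nn (hw : ∀ p, 0 < w p) (l : ℕ) : 0 ≤ devOf R w C q l :=
  Vale.Agent.P168.MP.ET_nonneg hw fun _ => abs_nonneg _

lemma adev_nn (hw : ∀ p, 0 < w p) : 0 ≤ adev R w C q :=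
  add_nonneg (div_nonneg (sum_nonneg fun l _ => devOf_nn hw l) (Nat.cast_nonneg R)) (devOf_nn hw R)

lemma devOf_top_le (hw : ∀ p, 0 < w p) : devOf R w C q R ≤ adev R w C q :=
  le_add_of_nonneg_left (div_nonneg (sum_nonneg fun l _ => devOf_nn hw l) (Nat.cast_nonneg R))

lemma devOf_le (hw : ∀ p, 0 < w p) {l : ℕ} (hl : l ≤ R) {V W : ℝ} (hC : ∀ p p', |C p p'| ≤ V)
    (hq : |q l| ≤ W) : devOf R w C q l ≤ V + W := by
  refine (Vale.Agent.P168.MP.ET_mono hw fun ps => ?_).trans_eq (Vale.Agent.P168.MP.ET_const hw _ _)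
  exact (abs_sub _ _).trans (add_le_add (hC _ _) hq)

end dev

end Vale.Agent.P157.Par
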