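import Vale.Agent.P157.Par.InterpDeriv
import Vale.Agent.P168.MP.Restrict

/-! Gaussian interpolation in a hierarchical structure: two fields give close values and replica
expectations when their covariances are close for typical pairs of replicas. -/

open MeasureTheory ProbabilityTheory Real Finset
open Vale.Agent.P150 (gauss dot)
open Vale.Agent.P168.MP
open Vale.Agent.P157.Lim (Bd cvec)

namespace Vale.Agent.P157.Par

set_option linter.unusedSectionVars false

variable {f f1 f2 f3 : ℝ → ℝ} {B D : ℝ}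

section tools
variable {Ω : Type} [Fintype Ω] {R : ℕ} {m : ℕ → ℝ} {w : List Ω → ℝ}
  {X : Type*} [MeasurableSpace X] {μ : Measure X}

lemma integral_ext : ∀ (k : ℕ) (pre : List Ω) {F : X → List Ω → ℝ},
    (∀ q, Integrable (fun x => F x q) μ) → Integrable (fun x => ext m w k pre (F x)) μ ∧
      ∫ x, ext m w k pre (F x) ∂μ = ext m w k pre fun q => ∫ x, F x q ∂μ
  | 0, pre, F, h => by simpa using h pre
  | k + 1, pre, F, h => by
    have ih := fun o => integral_ext k (pre ++ [o]) h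
    simp only [ext_succ]
    refine ⟨integrable_finsetSum _ fun o _ => (ih o).1.const_mul _, ?_⟩
    rw [integral_finsetSum _ fun o _ => (ih o).1.const_mul _]
    exact sum_congr rfl fun o _ => by rw [integral_const_mul, (ih o).2]

lemma integral_ET : ∀ (T : List (ℕ × ℕ)) {F : X → List (List Ω) → ℝ},
    (∀ ps, Integrable (fun x => F x ps) μ) → Integrable (fun x => ET R m w T (F x)) μ ∧
      ∫ x, ET R m w T (F x) ∂μ = ET R m w T fun ps => ∫ x, F x ps ∂μ
  | [], F, h => by simpa using h []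
  | (p, v) :: T, F, h => by
    simp only [ET_cons]
    have h' := fun ps => integral_ext (m := m) (w := w) (R - v) ((ps.getD p []).take v)
      (F := fun x q => F x (ps ++ [q])) (μ := μ) fun q => h _
    obtain ⟨i, e⟩ := integral_ET T (F := fun x ps =>
      ext m w (R - v) ((ps.getD p []).take v) fun q => F x (ps ++ [q])) fun ps => (h' ps).1
    refine ⟨i, e.trans (congrArg _ (funext fun ps => (h' ps).2))⟩

lemma integrable_list_sum {α : Type} (L : List α) {F : α → X → ℝ} (h : ∀ a ∈ L, Integrable (F a) μ) :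
    Integrable (fun x => (L.map fun a => F a x).sum) μ ∧
      ∫ x, (L.map fun a => F a x).sum ∂μ = (L.map fun a => ∫ x, F a x ∂μ).sum := by
  induction L with
  | nil => simp
  | cons a L ih =>
    obtain ⟨i, e⟩ := ih fun b hb => h b (List.mem_cons_of_mem _ hb)
    simp only [List.map_cons, List.sum_cons]
    refine ⟨(h a List.mem_cons_self).add i, ?_⟩
    rw [integral_add (h a List.mem_cons_self) i, e]

lemma integral_abs_list_sum_le {α : Type} (L : List α) (c : α → ℝ) {F : α → X → ℝ} {M : α → ℝ}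
    (h : ∀ a ∈ L, Integrable (F a) μ) (hM : ∀ a ∈ L, ∫ x, |F a x| ∂μ ≤ M a) :
    ∫ x, |(L.map fun a => c a * F a x).sum| ∂μ ≤ (L.map fun a => |c a| * M a).sum := by
  obtain ⟨i, e⟩ := integrable_list_sum L (F := fun a x => |c a| * |F a x|) (μ := μ)
    fun a ha => (h a ha).abs.const_mul _
  refine (integral_mono (integrable_list_sum L (F := fun a x => c a * F a x) fun a ha =>
    (h a ha).const_mul _).1.abs i fun x => ?_).trans ?_
  · refine (abs_list_sum L _).trans_eq ?_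
    simp only [abs_mul]
  rw [e]
  refine list_sum_le fun a ha => ?_
  rw [integral_const_mul]
  exact mul_le_mul_of_nonneg_left (hM a ha) (abs_nonneg _)

end tools

/-- constants of the interpolation bounds -/
noncomputable def Kn (B D V f₀ : ℝ) (n : ℕ) : ℝ :=
  ∑ k ∈ range (n + 1), max 1 D ^ k * momK B D V f₀ k

lemma Kn_nonneg (B D V f₀ : ℝ) (n : ℕ) : 0 ≤ Kn B D V f₀ n :=
  sum_nonneg fun _ _ => mul_nonneg (pow_nonneg (zero_le_one.trans (le_max_left _ _)) _) (momK_nonneg _ _ _ _ _)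

variable {Ω ι κ : Type} [Fintype Ω] [Nonempty Ω] [Fintype ι] [Fintype κ] {R : ℕ} {w : List Ω → ℝ}
  {a : List Ω → ι → ℝ} {b : List Ω → κ → ℝ} {V : ℝ}

lemma dot_self_cvec (t : ℝ) (ht : t ∈ Set.Icc (0:ℝ) 1) (p : List Ω) :
    dot (cvec a b t p) (cvec a b t p) = t * cv a p p + (1 - t) * cv b p p := by
  simp only [dot, cv, cvec, Fintype.sum_sum_type, Sum.elim_inl, Sum.elim_inr, mul_sum]
  congr 1 <;> refine sum_congr rfl fun i _ => ?_
  · rw [mul_mul_mul_comm, mul_self_sqrt ht.1]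
  · rw [mul_mul_mul_comm, mul_self_sqrt (sub_nonneg.2 ht.2)]

lemma abs_dd_le (ha : ∀ p, cv a p p ≤ V) (hb : ∀ p, cv b p p ≤ V) (p q : List Ω) : |dd a b p q| ≤ 2 * V := by
  have h : ∀ {ν : Type} [Fintype ν] (x y : ν → ℝ), |dot x y| ≤ (dot x x + dot y y) / 2 := fun x y => by
    simp only [dot, ← sum_add_distrib, sum_div]
    refine (abs_sum_le_sum_abs _ _).trans (sum_le_sum fun i _ => ?_)
    rw [abs_mul]; nlinarith [sq_nonneg (|x i| - |y i|), sq_abs (x i), sq_abs (y i)]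
  have h1 := h (a p) (a q)
  have h2 := h (b p) (b q)
  have := ha p; have := ha q; have := hb p; have := hb q
  simp only [cv] at *
  unfold dd cv
  exact (abs_sub _ _).trans (by linarith)

lemma dd_comm (p q : List Ω) : dd a b p q = dd a b q p := by
  simp [dd, cv, dot, mul_comm]

/-- the basic estimate -/
lemma val_int_le (hS : Sm f f1 f2 f3 B D) (hR : 1 ≤ R) (hw : ∀ p, 0 < w p) (ha : ∀ p, cv a p p ≤ V)
    (hb : ∀ p, cv b p p ≤ V) {T : List (ℕ × ℕ)} (hT : Valid R T) {ks : List ℕ} (hl : ks.length = T.length)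
    {N : ℕ} (hN : T.length ≤ N) (Ψ : List (List Ω) → ℝ) {t : ℝ} (ht : t ∈ Set.Icc (0:ℝ) 1) :
    ∫ g, |val R (lin R) w f f1 f2 f3 T ks Ψ (zt R a b t g)| ∂gauss (ι ⊕ κ) ≤
      Kn B D V (f 0) N * ET R (lin R) w T fun ps => |Ψ ps| := by
  have hm := ok_linW hR hw
  set E := max 1 D
  have hE : 0 ≤ E := zero_le_one.trans (le_max_left _ _)
  set Y : (ι ⊕ κ → ℝ) → List Ω → ℝ := fun g p => exp (f (dot (cvec a b t p) g))
  have hY : ∀ g p, exp (-B) ≤ Y g p := fun g p => exp_le_exp.2 (hS.lb _)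
  have hpt : ∀ g, |val R (lin R) w f f1 f2 f3 T ks Ψ (zt R a b t g)| ≤
      E ^ T.length * ET R (lin R) w T fun ps => |Ψ ps| * (ps.map fun p => Y g p / exp (-B)).prod := fun g => by
    rw [zt_eq, val_zA _ g hT hl]
    have hw' : ∀ p, 0 < w p * Y g p := fun p => mul_pos (hw p) (exp_pos _)
    refine (ET_abs_le hw' _ _).trans ?_
    refine le_trans ?_ (mul_le_mul_of_nonneg_left (ET_mul_le hR hw (exp_pos _) (hY g) hT
      (H := fun ps => |Ψ ps|) fun ps => abs_nonneg _) (pow_nonneg hE _))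
    rw [← ET_const_mul]
    refine ET_mono hw' fun ps => ?_
    rw [abs_mul, mul_comm (E ^ T.length), abs_prod, ← hl]
    exact mul_le_mul_of_nonneg_left ((Finset.prod_le_prod (fun i _ => abs_nonneg _)
      fun i _ => abs_Dk_le hS.sd _ _).trans_eq (by simp [E])) (abs_nonneg _)
  have hi : ∀ ps : List (List Ω), Integrable (fun g => |Ψ ps| * (ps.map fun p => Y g p / exp (-B)).prod)
      (gauss (ι ⊕ κ)) ∧ ∫ g, |Ψ ps| * (ps.map fun p => Y g p / exp (-B)).prod ∂gauss (ι ⊕ κ) ≤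
        |Ψ ps| * momK B D V (f 0) ps.length := fun ps => by
    obtain ⟨i, e⟩ := integral_prod_tilt_le (ι := ι ⊕ κ) hS (V := V) (ps.map fun p => cvec a b t p)
      (fun x hx => by
        obtain ⟨p, -, rfl⟩ := List.mem_map.1 hx
        rw [dot_self_cvec t ht]
        nlinarith [ha p, hb p, ht.1, ht.2]) (List.length_map _)
    simp only [List.map_map, Function.comp_def] at i e
    refine ⟨i.const_mul _, ?_⟩
    rw [integral_const_mul]
    exact mul_le_mul_of_nonneg_left e (abs_nonneg _)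
  obtain ⟨iET, eET⟩ := integral_ET (R := R) (m := lin R) (w := w) T
    (F := fun g ps => |Ψ ps| * (ps.map fun p => Y g p / exp (-B)).prod) fun ps => (hi ps).1
  refine (integral_mono (Vale.Agent.P157.Lim.integrable_Bd _ _ (bd_val hm hS.sd hT ks Ψ) t).abs
    (iET.const_mul _) hpt).trans ?_
  rw [integral_const_mul, eET]
  refine (mul_le_mul_of_nonneg_left (ET_mono_on hw hT (G := fun ps => momK B D V (f 0) T.length * |Ψ ps|)
    fun ps hs => ?_) (pow_nonneg hE _)).trans ?_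
  · rw [mul_comm (momK _ _ _ _ _), ← hs.1]; exact (hi ps).2
  rw [ET_const_mul, ← mul_assoc]
  refine mul_le_mul_of_nonneg_right ?_ (ET_nonneg hw fun ps => abs_nonneg _)
  exact single_le_sum (f := fun k => E ^ k * momK B D V (f 0) k)
    (fun k _ => mul_nonneg (pow_nonneg hE _) (momK_nonneg _ _ _ _ _)) (mem_range.2 (Nat.lt_succ_of_le hN))

/-- one derivative step for the bound -/
lemma chl_bound (hR : 1 ≤ R) {φ : ℕ → ℝ} (hφ : ∀ l, 0 ≤ φ l) {T : List (ℕ × ℕ)} (hT : Valid R T) (ks : List ℕ)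
    {C0 C1 e : ℝ} (h0 : 0 ≤ C0) (h1 : 0 ≤ C1) (he0 : 0 ≤ e) (he : e ≤ lvlAvg R φ) :
    ((chl R (lin R) T ks).map fun ch => |ch.c| * (C0 + C1 * (pairSum R φ ch.T + e))).sum ≤
      (8 * (T.length : ℝ) ^ 2 + 11 * T.length) * (C0 + C1 * (pairSum R φ T + lvlAvg R φ)) := by
  rw [chl_sum T ks fun U => C0 + C1 * (pairSum R φ U + e)]
  simp only [mul_add, mul_left_comm _ C1, List.sum_map_add, List.sum_map_mul_left, List.sum_map_mul_right]
  have hA := lvlAvg_nonneg (R := R) hφ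
  have hP := pairSum_nonneg (R := R) hφ T
  have i1 := att_abs_sum_le (R := R) T
  have i2 := att_pairSum_le hR hφ hT
  have hn : (0:ℝ) ≤ T.length := Nat.cast_nonneg _
  have hn1 : (0:ℝ) ≤ 8 * (T.length : ℝ) ^ 2 + 7 * T.length := by positivity
  nlinarith [mul_le_mul_of_nonneg_left i2 h1, mul_le_mul_of_nonneg_left i1 h0,
    mul_le_mul_of_nonneg_left i1 (mul_nonneg h1 he0), mul_nonneg hn1 h0,
    mul_le_mul_of_nonneg_left he (mul_nonneg h1 (mul_nonneg (show (0:ℝ) ≤ 4 by norm_num) hn)),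
    mul_nonneg (mul_nonneg hn h1) hA, mul_nonneg (mul_nonneg hn h1) hP,
    mul_nonneg (mul_nonneg (sq_nonneg (T.length : ℝ)) h1) (add_nonneg hP hA)]

/-- the constant of `L2_int_le` -/
noncomputable def KL (B D V f₀ : ℝ) (n : ℕ) : ℝ :=
  Kn B D V f₀ (n + 2) * ((8 * ((n : ℝ) + 1) ^ 2 + 11 * ((n : ℝ) + 1)) * (8 * (n : ℝ) ^ 2 + 11 * n))

lemma KL_nonneg (B D V f₀ : ℝ) (n : ℕ) : 0 ≤ KL B D V f₀ n :=
  mul_nonneg (Kn_nonneg _ _ _ _ _) (by positivity)

/-- bound for the derivative -/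
lemma L2_int_le (hS : Sm f f1 f2 f3 B D) (hR : 1 ≤ R) (hw : ∀ p, 0 < w p) (ha : ∀ p, cv a p p ≤ V)
    (hb : ∀ p, cv b p p ≤ V) {T : List (ℕ × ℕ)} {ks : List ℕ} (hT : Good R T ks) (h1 : ∀ k ∈ ks, k ≤ 1)
    (Ψ : List (List Ω) → ℝ) {φ : ℕ → ℝ} (hφ : ∀ l, 0 ≤ φ l) {C0 C1 : ℝ} (h0 : 0 ≤ C0) (hC1 : 0 ≤ C1)
    (H : ∀ U, Valid R U → T.length ≤ U.length → ∀ i j, i < U.length → j < U.length →
      ET R (lin R) w U (fun ps => |Ψ (ps.take T.length) * dd a b (ps.getD i []) (ps.getD j [])|) ≤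
        C0 + C1 * pairSum R φ U) {t : ℝ} (ht : t ∈ Set.Icc (0:ℝ) 1) :
    |∫ g, L2 R (lin R) w f f1 f2 f3 T ks Ψ (dd a b) (zt R a b t g) ∂gauss (ι ⊕ κ)| ≤
      KL B D V (f 0) T.length * (C0 + C1 * (pairSum R φ T + lvlAvg R φ)) := by
  have hm := ok_linW hR hw
  have hsd := hS.sd
  have hi : ∀ {F : ((Fin R → Ω) → ℝ) → ℝ}, Bd F → Integrable (fun g => F (zt R a b t g)) (gauss (ι ⊕ κ)) :=
    fun h => Vale.Agent.P157.Lim.integrable_Bd _ _ h t
  set n := T.length
  set c1 : ℝ := 8 * ((n : ℝ) + 1) ^ 2 + 11 * ((n : ℝ) + 1)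
  set K := Kn B D V (f 0) (n + 2)
  have hK : 0 ≤ K := Kn_nonneg _ _ _ _ _
  have hc1 : 0 ≤ c1 := by positivity
  refine (abs_integral_le_integral_abs).trans ?_
  refine (integral_abs_list_sum_le _ (fun ch : Ch => ch.c)
    (M := fun ch => (K * c1) * (C0 + C1 * (pairSum R φ ch.T + lvlAvg R φ))) (fun ch hc => ?_)
    fun ch hc => ?_).trans ?_
  · exact hi (bd_list_sum _ fun ch' hc' => (Bd.const _).mul
      (bd_val hm hsd (chl_mem (chl_good hT h1 hc) hc').1 _ _))
  · have hG := chl_good hT h1 hc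
    obtain ⟨hV, -, hn, hn', hi', -⟩ := chl_mem hT hc
    refine (integral_abs_list_sum_le _ (fun ch' : Ch => ch'.c)
      (M := fun ch' => K * (C0 + C1 * (pairSum R φ ch'.T + 0)))
      (fun ch' hc' => hi (bd_val hm hsd (chl_mem hG hc').1 _ _)) fun ch' hc' => ?_).trans ?_
    · obtain ⟨hV', hl', hm1, hm2, hj, -⟩ := chl_mem hG hc'
      refine (val_int_le hS hR hw ha hb hV' hl' (show ch'.T.length ≤ n + 2 by omega) _ ht).trans ?_
      rw [add_zero]
      exact mul_le_mul_of_nonneg_left (H _ hV' (by omega) _ _ hj (by omega)) hK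
    · have e : ∀ L : List Ch, (L.map fun ch' => |ch'.c| * (K * (C0 + C1 * (pairSum R φ ch'.T + 0)))).sum =
          K * (L.map fun ch' => |ch'.c| * (C0 + C1 * (pairSum R φ ch'.T + 0))).sum := fun L => by
        rw [← List.sum_map_mul_left]; simp only [mul_left_comm]
      rw [e, mul_assoc]
      refine mul_le_mul_of_nonneg_left ((chl_bound hR hφ hV ch.ks h0 hC1 le_rfl (lvlAvg_nonneg hφ)).trans ?_) hK
      refine mul_le_mul_of_nonneg_right ?_
        (add_nonneg h0 (mul_nonneg hC1 (add_nonneg (pairSum_nonneg hφ _) (lvlAvg_nonneg hφ))))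
      have : (ch.T.length : ℝ) ≤ (n : ℝ) + 1 := by exact_mod_cast hn'
      simp only [c1]; gcongr
  · have e : ∀ L : List Ch, (L.map fun ch => |ch.c| * (K * c1 * (C0 + C1 * (pairSum R φ ch.T + lvlAvg R φ)))).sum =
        K * c1 * (L.map fun ch => |ch.c| * (C0 + C1 * (pairSum R φ ch.T + lvlAvg R φ))).sum := fun L => by
      rw [← List.sum_map_mul_left]; simp only [mul_left_comm]
    rw [e, KL]
    refine (mul_le_mul_of_nonneg_left (chl_bound hR hφ hT.1 ks h0 hC1 (lvlAvg_nonneg hφ) le_rfl)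
      (mul_nonneg hK hc1)).trans_eq ?_
    simp only [K, c1, n]; ring

/-- two replicas inside a larger family -/
lemma ET_two (hw : ∀ p, 0 < w p) {U : List (ℕ × ℕ)} (hU : Valid R U) {i j : ℕ} (hi : i < U.length)
    (hj : j < U.length) (h : List Ω → List Ω → ℝ) :
    ET R (lin R) w U (fun ps => h (ps.getD i []) (ps.getD j [])) =
      ET R (lin R) w [(0, sp R U i j), (0, 0)] fun ps => h (ps.getD 0 []) (ps.getD 1 []) := by
  have h01 : sp R [(0, sp R U i j), (0, 0)] 0 1 = sp R U i j := by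
    simp [sp, sp_le]
  have hv : Valid R [(0, sp R U i j), (0, 0)] := ⟨Nat.one_pos, sp_le R U i j, rfl, rfl⟩
  have := ET_restrict (R := R) (m := lin R) (w := w) (ι := Fin 2) (fun k pre => trans_sum hw k pre) hU hv
    ![i, j] ![0, 1] (by simp [Fin.forall_fin_two, hi, hj]) (by simp [Fin.forall_fin_two])
    (by
      simp only [Fin.forall_fin_two]
      refine ⟨⟨?_, ?_⟩, ?_, ?_⟩
      · simp [sp_self]
      · simpa using h01.symm
      · simpa [sp_comm R U j i, sp_comm R [(0, sp R U i j), (0, 0)] 1 0] using h01.symm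
      · simp [sp_self])
    (fun P => h (P 0) (P 1))
  simpa using this

lemma phi_nonneg (hw : ∀ p, 0 < w p) (l : ℕ) : 0 ≤ devOf R w (dd a b) 0 l :=
  ET_nonneg hw fun _ => abs_nonneg _

lemma ET_abs_dd_le (hw : ∀ p, 0 < w p) {U : List (ℕ × ℕ)} (hU : Valid R U) {i j : ℕ} (hi : i < U.length)
    (hj : j < U.length) :
    ET R (lin R) w U (fun ps => |dd a b (ps.getD i []) (ps.getD j [])|) ≤
      pairSum R (devOf R w (dd a b) 0) U := by
  refine le_of_eq_of_le ?_ (le_pairSum (φ := devOf R w (dd a b) 0) (fun l => phi_nonneg hw l) hi hj)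
  rw [ET_two hw hU hi hj fun p q => |dd a b p q|, devOf]
  simp

/-- the endpoints of the interpolation -/
lemma integral_end {F : (ι → ℝ) → ℝ} (hF : Continuous F) {G : (κ → ℝ) → ℝ} (hG : Continuous G) :
    (∫ g : ι ⊕ κ → ℝ, F (fun k => g (.inl k)) ∂gauss (ι ⊕ κ) = ∫ h, F h ∂gauss ι) ∧
      ∫ g : ι ⊕ κ → ℝ, G (fun k => g (.inr k)) ∂gauss (ι ⊕ κ) = ∫ h, G h ∂gauss κ := by
  constructor
  · conv_rhs => rw [← Vale.Agent.P157.Lim.map_left (ι := ι) (κ := κ)]
    rw [integral_map (measurable_pi_lambda _ fun k => measurable_pi_apply _).aemeasurable hF.aestronglyMeasurable]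
  · conv_rhs => rw [← Vale.Agent.P157.Lim.map_right (ι := ι) (κ := κ)]
    rw [integral_map (measurable_pi_lambda _ fun k => measurable_pi_apply _).aemeasurable hG.aestronglyMeasurable]

lemma dot_cvec_one (p : List Ω) (g : ι ⊕ κ → ℝ) :
    dot (cvec a b 1 p) g = dot (a p) (fun k => g (.inl k)) ∧
      dot (cvec a b 0 p) g = dot (b p) (fun k => g (.inr k)) := by
  constructor <;> simp [dot, cvec, Fintype.sum_sum_type]

lemma continuous_fac (hf : Continuous f) {ν : Type} [Fintype ν] (c : List Ω → ν → ℝ) (p : List Ω) :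
    Continuous fun g => fac f c g p := by
  unfold fac dot; fun_prop

lemma continuous_ET_fac (hS : Sd f f1 f2 f3 D) (hw : ∀ p, 0 < w p) {ν : Type} [Fintype ν]
    (c : List Ω → ν → ℝ) (T : List (ℕ × ℕ)) (ks : List ℕ) (Ψ : List (List Ω) → ℝ) :
    Continuous fun g => ET R (lin R) (fun p => w p * fac f c g p) T fun ps =>
      Ψ ps * ∏ i ∈ range ks.length, Dk f1 f2 f3 (ks.getD i 0) (dot (c (ps.getD i [])) g) :=
  continuous_ET (fun p => continuous_const.mul (continuous_fac hS.cont0 c p))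
    (fun g p => mul_pos (hw p) (exp_pos _)) R T fun ps => continuous_const.mul
      (continuous_finsetProd _ fun i _ => (continuous_Dk hS _).comp (by unfold dot; fun_prop))

/-- the mean value theorem along the interpolation -/
lemma abs_slope_le {G G' : ℝ → ℝ} (hc : ContinuousOn G (Set.Icc 0 1))
    (hd : ∀ t ∈ Set.Ioo (0:ℝ) 1, HasDerivAt G (1 / 2 * G' t) t) {M : ℝ}
    (hM : ∀ t ∈ Set.Icc (0:ℝ) 1, |G' t| ≤ M) : |G 1 - G 0| ≤ M / 2 := by
  obtain ⟨t, ht, e⟩ := exists_hasDerivAt_eq_slope G _ zero_lt_one hc hd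
  rw [sub_zero, div_one] at e
  rw [← e, abs_mul]
  have := hM t (Set.Ioo_subset_Icc_self ht)
  rw [abs_of_nonneg (by norm_num : (0:ℝ) ≤ 1 / 2)]; linarith

/-- the difference of expectations at the endpoints -/
lemma interp_diff (hS : Sm f f1 f2 f3 B D) (hR : 1 ≤ R) (hw : ∀ p, 0 < w p) (ha : ∀ p, cv a p p ≤ V)
    (hb : ∀ p, cv b p p ≤ V) {T : List (ℕ × ℕ)} {ks : List ℕ} (hT : Good R T ks) (h1 : ∀ k ∈ ks, k ≤ 1)
    (Ψ : List (List Ω) → ℝ) {φ : ℕ → ℝ} (hφ : ∀ l, 0 ≤ φ l) {C0 C1 : ℝ} (h0 : 0 ≤ C0) (hC1 : 0 ≤ C1)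
    (H : ∀ U, Valid R U → T.length ≤ U.length → ∀ i j, i < U.length → j < U.length →
      ET R (lin R) w U (fun ps => |Ψ (ps.take T.length) * dd a b (ps.getD i []) (ps.getD j [])|) ≤
        C0 + C1 * pairSum R φ U) :
    |(∫ g, ET R (lin R) (fun p => w p * fac f a g p) T (fun ps =>
          Ψ ps * ∏ i ∈ range ks.length, Dk f1 f2 f3 (ks.getD i 0) (dot (a (ps.getD i [])) g)) ∂gauss ι) -
      ∫ g, ET R (lin R) (fun p => w p * fac f b g p) T (fun ps =>
          Ψ ps * ∏ i ∈ range ks.length, Dk f1 f2 f3 (ks.getD i 0) (dot (b (ps.getD i [])) g)) ∂gauss κ| ≤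
      KL B D V (f 0) T.length * (C0 + C1 * (pairSum R φ T + lvlAvg R φ)) / 2 := by
  obtain ⟨hc, hd⟩ := interp_val (ok_linW hR hw) hS.sd a b hT h1 Ψ
  have h := abs_slope_le hc hd fun t ht => L2_int_le hS hR hw ha hb hT h1 Ψ hφ h0 hC1 H ht
  obtain ⟨e1, e0⟩ := integral_end (continuous_ET_fac (R := R) hS.sd hw a T ks Ψ)
    (continuous_ET_fac (R := R) hS.sd hw b T ks Ψ)
  rw [← e1, ← e0]
  refine le_of_eq_of_le (congrArg _ (congrArg₂ (· - ·) ?_ ?_)) h <;>
    refine integral_congr_ae (Filter.Eventually.of_forall fun g => ?_) <;>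
    simp only [zt_eq, val_zA _ g hT.1 hT.2.1, fac, fun p => (dot_cvec_one (a := a) (b := b) p g).1,
      fun p => (dot_cvec_one (a := a) (b := b) p g).2]

lemma V_nonneg (ha : ∀ p, cv a p p ≤ V) : 0 ≤ V :=
  le_trans (sum_nonneg fun _ _ => mul_self_nonneg _) (ha [])

lemma pairSum_one (φ : ℕ → ℝ) : pairSum R φ [(0, 0)] = φ R := by simp [pairSum, sp_self]

lemma pairSum_two (φ : ℕ → ℝ) {l : ℕ} (hl : l ≤ R) : pairSum R φ [(0, l), (0, 0)] = 2 * φ R + 2 * φ l := by
  simp [pairSum, sum_range_succ, sp, hl]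
  ring

lemma phi_top_le (hw : ∀ p, 0 < w p) : devOf R w (dd a b) 0 R ≤ adev R w (dd a b) 0 :=
  le_add_of_nonneg_left (div_nonneg (sum_nonneg fun l _ => phi_nonneg hw l) (Nat.cast_nonneg _))

/-- the terms of the first derivative of the value -/
lemma inner_eq {ν : Type} [Fintype ν] {m : ℕ → ℝ} (c : List Ω → ν → ℝ) (g : ν → ℝ)
    (d : List Ω → List Ω → ℝ) :
    ((chl R m [(0, 0)] [1]).map fun ch => ch.c * val R m w f f1 f2 f3 ch.T ch.ks
        (fun ps => d (ps.getD ch.i []) (ps.getD 0 [])) (zA R c g)).sum =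
      ET R m (fun p => w p * fac f c g p) [(0, 0)]
          (fun ps => d (ps.getD 0 []) (ps.getD 0 []) * f2 (dot (c (ps.getD 0 [])) g)) +
        ((att R m [(0, 0)]).map fun x => x.2 * ET R m (fun p => w p * fac f c g p) [x.1, (0, 0)] fun ps =>
          d (ps.getD 1 []) (ps.getD 0 []) * (f1 (dot (c (ps.getD 0 [])) g) * f1 (dot (c (ps.getD 1 [])) g))).sum := by
  have hT : Good R [(0, 0)] [1] := ⟨⟨rfl, rfl⟩, rfl, by simp⟩
  rw [chl, List.map_append, List.sum_append, List.map_map, List.map_map]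
  refine congrArg₂ (· + ·) ?_ (congrArg List.sum (List.map_congr_left fun x hx => ?_))
  · simp only [List.length_singleton, List.range_one, List.map_singleton, List.sum_singleton,
      Function.comp_apply, List.getD_cons_zero, List.set_cons_zero, one_mul]
    rw [val_zA c g hT.1 (by rfl)]
    simp [Dk, nxt]
  · simp only [Function.comp_apply]
    rw [val_zA c g (att_valid hT.1 hx) (by rfl)]
    simp [prod_range_succ, Dk]

/-- **Value.** -/
theorem interp_value (hS : Sm f f1 f2 f3 B D) (V : ℝ) : ∃ K : ℝ, 0 ≤ K ∧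
    ∀ {Ω ι κ : Type} [Fintype Ω] [Nonempty Ω] [Fintype ι] [Fintype κ] {R : ℕ} (_ : 1 ≤ R)
      {w : List Ω → ℝ} (_ : ∀ p, 0 < w p) {a : List Ω → ι → ℝ} {b : List Ω → κ → ℝ}
      (_ : ∀ p, cv a p p ≤ V) (_ : ∀ p, cv b p p ≤ V),
      |∫ g, log (nest (lin R) w (fac f a g) R []) ∂gauss ι -
        ∫ g, log (nest (lin R) w (fac f b g) R []) ∂gauss κ| ≤ K * adev R w (dd a b) 0 := by
  refine ⟨19 * Kn B D V (f 0) 2, mul_nonneg (by norm_num) (Kn_nonneg _ _ _ _ _), ?_⟩
  intro Ω ι κ _ _ _ _ R hR w hw a b ha hb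
  have hm := ok_linW hR hw
  have hT : Good R [(0, 0)] [1] := ⟨⟨rfl, rfl⟩, rfl, by simp⟩
  set φ := devOf R w (dd a b) 0
  have hφ : ∀ l, 0 ≤ φ l := fun l => phi_nonneg hw l
  have hA : lvlAvg R φ = adev R w (dd a b) 0 := rfl
  have hK := Kn_nonneg B D V (f 0) 2
  obtain ⟨hc, -, hd⟩ := interp_log hm hS.sd a b
  have h := abs_slope_le hc hd (M := Kn B D V (f 0) 2 * (19 * (2 * adev R w (dd a b) 0))) fun t ht => by
    refine (abs_integral_le_integral_abs).trans ?_
    refine (integral_abs_list_sum_le _ (fun ch : Ch => ch.c)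
      (M := fun ch => Kn B D V (f 0) 2 * pairSum R φ ch.T) (fun ch hc' => ?_) fun ch hc' => ?_).trans ?_
    · exact Vale.Agent.P157.Lim.integrable_Bd _ _ (bd_val hm hS.sd (chl_mem hT hc').1 _ _) t
    · obtain ⟨hV, hl, hn, hn', hi, -⟩ := chl_mem hT hc'
      refine (val_int_le hS hR hw ha hb hV hl (show ch.T.length ≤ 2 from hn') _ ht).trans ?_
      exact mul_le_mul_of_nonneg_left (ET_abs_dd_le hw hV hi hn) hK
    · simp only [mul_left_comm _ (Kn B D V (f 0) 2), List.sum_map_mul_left]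
      refine mul_le_mul_of_nonneg_left ?_ hK
      have h2 := chl_bound hR hφ hT.1 [1] (C0 := 0) (C1 := 1) (e := 0) le_rfl zero_le_one le_rfl
        (lvlAvg_nonneg hφ)
      simp only [zero_add, one_mul, add_zero, List.length_singleton, Nat.cast_one, pairSum_one, hA] at h2
      refine h2.trans ?_
      have := phi_top_le (R := R) (a := a) (b := b) hw
      linarith
  have hcc : ∀ {ν : Type} [Fintype ν] (c : List Ω → ν → ℝ),
      Continuous fun g => log (nest (lin R) w (fac f c g) R []) := fun c =>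
    (continuous_nest (m := lin R) (w := fun _ => w) (fun _ => continuous_const) (fun _ p => hw p)
      (continuous_fac hS.sd.cont0 c) (fun _ _ => exp_pos _) R []).log fun g =>
        (nest_pos hw (fun p => exp_pos _) R []).ne'
  obtain ⟨e1, e0⟩ := integral_end (hcc a) (hcc b)
  rw [← e1, ← e0]
  refine (le_of_eq_of_le (congrArg _ (congrArg₂ (· - ·) ?_ ?_)) h).trans (le_of_eq (by ring)) <;>
    refine integral_congr_ae (Filter.Eventually.of_forall fun g =>
      congrArg (fun F => log (nest (lin R) w F R [])) (funext fun p => ?_)) <;>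
    simp only [fac, (dot_cvec_one (a := a) (b := b) p g).1, (dot_cvec_one (a := a) (b := b) p g).2]

/-- **Pairs.** -/
theorem interp_pair (hS : Sm f f1 f2 f3 B D) (V : ℝ) : ∃ K : ℝ, 0 ≤ K ∧
    ∀ {Ω ι κ : Type} [Fintype Ω] [Nonempty Ω] [Fintype ι] [Fintype κ] {R : ℕ} (_ : 1 ≤ R)
      {w : List Ω → ℝ} (_ : ∀ p, 0 < w p) {a : List Ω → ι → ℝ} {b : List Ω → κ → ℝ}
      (_ : ∀ p, cv a p p ≤ V) (_ : ∀ p, cv b p p ≤ V) {l : ℕ} (_ : l ≤ R)
      {Ψ : List Ω → List Ω → ℝ} {C : ℝ} (_ : ∀ p p', |Ψ p p'| ≤ C),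
      |(∫ g, ET R (lin R) (fun p => w p * fac f a g p) [(0, l), (0, 0)] (fun ps =>
            Ψ (ps.getD 0 []) (ps.getD 1 []) * (f1 (dot (a (ps.getD 0 [])) g) * f1 (dot (a (ps.getD 1 [])) g))) ∂gauss ι) -
        ∫ g, ET R (lin R) (fun p => w p * fac f b g p) [(0, l), (0, 0)] (fun ps =>
            Ψ (ps.getD 0 []) (ps.getD 1 []) * (f1 (dot (b (ps.getD 0 [])) g) * f1 (dot (b (ps.getD 1 [])) g))) ∂gauss κ|
        ≤ K * C * (devOf R w (dd a b) 0 l + adev R w (dd a b) 0) ∧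
      |(∫ g, ET R (lin R) (fun p => w p * fac f a g p) [(0, l), (0, 0)] (fun ps =>
            Ψ (ps.getD 0 []) (ps.getD 1 [])) ∂gauss ι) -
        ∫ g, ET R (lin R) (fun p => w p * fac f b g p) [(0, l), (0, 0)] (fun ps =>
            Ψ (ps.getD 0 []) (ps.getD 1 [])) ∂gauss κ|
        ≤ K * C * (devOf R w (dd a b) 0 l + adev R w (dd a b) 0) := by
  refine ⟨3 * KL B D V (f 0) 2, mul_nonneg (by norm_num) (KL_nonneg _ _ _ _ _), ?_⟩
  intro Ω ι κ _ _ _ _ R hR w hw a b ha hb l hl Ψ C hC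
  have hC0 : 0 ≤ C := (abs_nonneg _).trans (hC [] [])
  set φ := devOf R w (dd a b) 0
  have hφ : ∀ l, 0 ≤ φ l := fun l => phi_nonneg hw l
  have hA : lvlAvg R φ = adev R w (dd a b) 0 := rfl
  have hK := KL_nonneg B D V (f 0) 2
  have hv : Valid R [(0, l), (0, 0)] := ⟨Nat.one_pos, hl, rfl, rfl⟩
  have key : ∀ ks : List ℕ, ks.length = 2 → (∀ k ∈ ks, k ≤ 1) → _ := fun ks hks h1 =>
    interp_diff hS hR hw ha hb (T := [(0, l), (0, 0)]) (ks := ks)
      ⟨hv, hks, fun k hk => by have := h1 k hk; omega⟩ h1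
      (fun ps => Ψ (ps.getD 0 []) (ps.getD 1 [])) hφ (le_refl 0) hC0 fun U hU _ i j hi hj => by
        rw [zero_add]
        refine (ET_mono hw fun ps => ?_).trans
          ((ET_const_mul U C fun ps => |dd a b (ps.getD i []) (ps.getD j [])|).trans_le
            (mul_le_mul_of_nonneg_left (ET_abs_dd_le hw hU hi hj) hC0))
        rw [abs_mul]
        exact mul_le_mul_of_nonneg_right (hC _ _) (abs_nonneg _)
  have hfin : KL B D V (f 0) [((0:ℕ), l), (0, 0)].length * (0 + C * (pairSum R φ [(0, l), (0, 0)] + lvlAvg R φ)) / 2 ≤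
      3 * KL B D V (f 0) 2 * C * (φ l + adev R w (dd a b) 0) := by
    rw [pairSum_two φ hl, hA, zero_add]
    show KL B D V (f 0) 2 * _ / 2 ≤ _
    have h3 : φ R ≤ adev R w (dd a b) 0 := phi_top_le hw
    have := mul_le_mul_of_nonneg_left (show 2 * φ R + 2 * φ l + adev R w (dd a b) 0 ≤
      6 * (φ l + adev R w (dd a b) 0) by linarith [hφ l, hφ R]) (mul_nonneg hK hC0)
    linarith
  constructor
  · have := (key [1, 1] rfl (by simp)).trans hfin
    simpa [prod_range_succ, Dk] using this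
  · have := (key [0, 0] rfl (by simp)).trans hfin
    simpa [prod_range_succ, Dk] using this

/-- **One replica.** -/
theorem interp_single (hS : Sm f f1 f2 f3 B D) (V : ℝ) : ∃ K : ℝ, 0 ≤ K ∧
    ∀ {Ω ι κ : Type} [Fintype Ω] [Nonempty Ω] [Fintype ι] [Fintype κ] {R : ℕ} (_ : 1 ≤ R)
      {w : List Ω → ℝ} (_ : ∀ p, 0 < w p) {a : List Ω → ι → ℝ} {b : List Ω → κ → ℝ}
      (_ : ∀ p, cv a p p ≤ V) (_ : ∀ p, cv b p p ≤ V) (Ψ : List Ω → ℝ) {t : ℝ} (_ : 0 < t),
      |(∫ g, ET R (lin R) (fun p => w p * fac f a g p) [(0, 0)] (fun ps => Ψ (ps.getD 0 [])) ∂gauss ι) -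
        ∫ g, ET R (lin R) (fun p => w p * fac f b g p) [(0, 0)] (fun ps => Ψ (ps.getD 0 [])) ∂gauss κ|
        ≤ K * (t * ET R (lin R) w [(0, 0)] (fun ps => Ψ (ps.getD 0 []) ^ 2) +
            adev R w (dd a b) 0 / t) := by
  refine ⟨(1 + |V|) * KL B D V (f 0) 1, mul_nonneg (by positivity) (KL_nonneg _ _ _ _ _), ?_⟩
  intro Ω ι κ _ _ _ _ R hR w hw a b ha hb Ψ t ht
  have hV := V_nonneg ha
  set φ := devOf R w (dd a b) 0
  have hφ : ∀ l, 0 ≤ φ l := fun l => phi_nonneg hw l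
  have hA : lvlAvg R φ = adev R w (dd a b) 0 := rfl
  have hK := KL_nonneg B D V (f 0) 1
  set E2 := ET R (lin R) w [(0, 0)] (fun ps => Ψ (ps.getD 0 []) ^ 2)
  have hE2 : 0 ≤ E2 := ET_nonneg hw fun _ => sq_nonneg _
  have hv : Valid R [(0, 0)] := ⟨rfl, rfl⟩
  have key := interp_diff hS hR hw ha hb (T := [(0, 0)]) (ks := [0]) ⟨hv, rfl, by simp⟩ (by simp)
    (fun ps => Ψ (ps.getD 0 [])) hφ (C0 := t / 2 * E2) (C1 := V / t) (by positivity) (by positivity)
    fun U hU h1 i j hi hj => by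
      have h0 : 0 < U.length := h1
      have e : ET R (lin R) w U (fun ps => Ψ (ps.getD 0 []) ^ 2) = E2 := by
        have := ET_restrict (R := R) (m := lin R) (w := w) (ι := Fin 1) (fun k pre => trans_sum hw k pre) hU hv
          ![0] ![0] (by simp [h0]) (by simp) (by simp [sp_self]) (fun P => Ψ (P 0) ^ 2)
        simpa [E2] using this
      refine (ET_mono hw (G := fun ps => t / 2 * Ψ (ps.getD 0 []) ^ 2 +
        V / t * |dd a b (ps.getD i []) (ps.getD j [])|) fun ps => ?_).trans ?_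
      · rw [getD_take (show 0 < [((0:ℕ), (0:ℕ))].length by simp), abs_mul, ← sq_abs (Ψ _)]
        set x := |Ψ (ps.getD 0 [])|
        set y := |dd a b (ps.getD i []) (ps.getD j [])|
        have hy : y ≤ 2 * V := abs_dd_le ha hb _ _
        have hy0 : 0 ≤ y := abs_nonneg _
        have e1 : t / 2 * x ^ 2 + V / t * y - x * y = ((t * x - y) ^ 2 + y * (2 * V - y)) / (2 * t) := by
          field_simp; ring
        have : 0 ≤ ((t * x - y) ^ 2 + y * (2 * V - y)) / (2 * t) :=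
          div_nonneg (add_nonneg (sq_nonneg _) (mul_nonneg hy0 (by linarith))) (by positivity)
        linarith
      · rw [ET_add, ET_const_mul, ET_const_mul, e]
        exact add_le_add le_rfl (mul_le_mul_of_nonneg_left (ET_abs_dd_le hw hU hi hj) (by positivity))
  have key' := key
  simp only [List.length_singleton, pairSum_one, hA] at key'
  refine le_trans ?_ (key'.trans ?_)
  · simp [Dk]
  have h3 := phi_top_le (R := R) (a := a) (b := b) hw
  have hA0 : 0 ≤ adev R w (dd a b) 0 := hA ▸ lvlAvg_nonneg hφ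
  rw [abs_of_nonneg hV, mul_assoc, mul_comm (1 + V), mul_assoc (KL B D V (f 0) 1)]
  have h4 : V / t * (φ R + adev R w (dd a b) 0) ≤ 2 * (V * (adev R w (dd a b) 0 / t)) := by
    refine le_trans (mul_le_mul_of_nonneg_left (add_le_add h3 le_rfl) (by positivity)) (le_of_eq ?_)
    ring
  have h5 : 0 ≤ adev R w (dd a b) 0 / t := by positivity
  have h6 : 0 ≤ t * E2 := by positivity
  rw [mul_div_assoc]
  refine mul_le_mul_of_nonneg_left ?_ hK
  nlinarith [mul_nonneg hV h6]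

/-- exact derivative of the nested functional -/
theorem hasDerivAt_value (hS : Sd f f1 f2 f3 D)
    {Ω ι κ : Type} [Fintype Ω] [Nonempty Ω] [Fintype ι] [Fintype κ] {R : ℕ} (_hR : 1 ≤ R)
    {m : ℕ → ℝ} {w : List Ω → ℝ} (hw : Ok R m w) (a : List Ω → ι → ℝ) (b : List Ω → κ → ℝ) :
    let G : ℝ → ℝ := fun t => ∫ g, log (nest m w (fac f (fun p => cvec a b t p) g) R []) ∂gauss (ι ⊕ κ)
    let G' : ℝ → ℝ := fun t => 1 / 2 * ∫ g, (ET R m (fun p => w p * fac f (fun p => cvec a b t p) g p) [(0, 0)]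
          (fun ps => dd a b (ps.getD 0 []) (ps.getD 0 []) * f2 (dot (cvec a b t (ps.getD 0 [])) g)) +
        ((att R m [(0, 0)]).map fun c => c.2 * ET R m (fun p => w p * fac f (fun p => cvec a b t p) g p)
          [c.1, (0, 0)] fun ps => dd a b (ps.getD 0 []) (ps.getD 1 []) *
            (f1 (dot (cvec a b t (ps.getD 0 [])) g) * f1 (dot (cvec a b t (ps.getD 1 [])) g))).sum) ∂gauss (ι ⊕ κ)
    ContinuousOn G (Set.Icc 0 1) ∧ ContinuousOn G' (Set.Icc 0 1) ∧
      ∀ t ∈ Set.Ioo (0:ℝ) 1, HasDerivAt G (G' t) t := by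
  intro G G'
  have hT : Good R [(0, 0)] [1] := ⟨⟨rfl, rfl⟩, rfl, by simp⟩
  obtain ⟨hc, hcv, hd⟩ := interp_log hw hS a b
  have e : ∀ t, G' t = 1 / 2 * ∫ g, ((chl R m [(0, 0)] [1]).map fun ch => ch.c * val R m w f f1 f2 f3 ch.T ch.ks
      (fun ps => dd a b (ps.getD ch.i []) (ps.getD 0 [])) (zt R a b t g)).sum ∂gauss (ι ⊕ κ) := fun t => by
    simp only [G', zt_eq, inner_eq]
    refine congrArg _ (integral_congr_ae (Filter.Eventually.of_forall fun g => ?_))
    simp only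
    congr 1
    refine congrArg List.sum (List.map_congr_left fun x _ => ?_)
    congr 1; congr 1; funext ps
    rw [dd_comm]
  refine ⟨hc, ?_, fun t ht => (hd t ht).congr_deriv (e t).symm⟩
  refine (continuousOn_const.mul ?_).congr fun t _ => e t
  have hsum : ∀ L : List Ch, (∀ ch ∈ L, Valid R ch.T) → ContinuousOn (fun t => (L.map fun ch => ch.c *
      ∫ g, val R m w f f1 f2 f3 ch.T ch.ks (fun ps => dd a b (ps.getD ch.i []) (ps.getD 0 []))
        (zt R a b t g) ∂gauss (ι ⊕ κ)).sum) (Set.Icc 0 1) := fun L hL => by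
    induction L with
    | nil => simpa using continuousOn_const
    | cons ch L ih =>
      simp only [List.map_cons, List.sum_cons]
      exact (continuousOn_const.mul (hcv ch.ks (hL ch List.mem_cons_self) _)).add
        (ih fun c hc => hL c (List.mem_cons_of_mem _ hc))
  refine (hsum (chl R m [(0, 0)] [1]) fun ch hch => (chl_mem hT hch).1).congr fun t _ => ?_
  have hint : ∀ ch ∈ chl R m [(0, 0)] [1], Integrable (fun g => ch.c * val R m w f f1 f2 f3 ch.T ch.ks
      (fun ps => dd a b (ps.getD ch.i []) (ps.getD 0 [])) (zt R a b t g)) (gauss (ι ⊕ κ)) := fun ch hch =>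
    (Vale.Agent.P157.Lim.integrable_Bd _ _ (bd_val hw hS (chl_mem hT hch).1 _ _) t).const_mul _
  rw [(integrable_list_sum _ hint).2]
  simp only [integral_const_mul]

/-- Gaussian integration by parts -/
theorem ibp_value (hS : Sm f f1 f2 f3 B D)
    {Ω ι : Type} [Fintype Ω] [Nonempty Ω] [Fintype ι] {R : ℕ} (hR : 1 ≤ R)
    {w : List Ω → ℝ} (hw : ∀ p, 0 < w p) (a : List Ω → ι → ℝ) :
    ∫ g, ET R (lin R) (fun p => w p * fac f a g p) [(0, 0)]
        (fun ps => f1 (dot (a (ps.getD 0 [])) g) * dot (a (ps.getD 0 [])) g) ∂gauss ι =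
      ∫ g, (ET R (lin R) (fun p => w p * fac f a g p) [(0, 0)]
          (fun ps => cv a (ps.getD 0 []) (ps.getD 0 []) * f2 (dot (a (ps.getD 0 [])) g)) +
        ((att R (lin R) [(0, 0)]).map fun c => c.2 * ET R (lin R) (fun p => w p * fac f a g p)
          [c.1, (0, 0)] fun ps => cv a (ps.getD 0 []) (ps.getD 1 []) *
            (f1 (dot (a (ps.getD 0 [])) g) * f1 (dot (a (ps.getD 1 [])) g))).sum) ∂gauss ι := by
  classical
  have hm := ok_linW hR hw
  have hT : Good R [(0, 0)] [1] := ⟨⟨rfl, rfl⟩, rfl, by simp⟩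
  set Ψ : ι → List (List Ω) → ℝ := fun k ps => a (ps.getD 0 []) k
  set u : ι → List Ω → ℝ := fun k p => a (List.ofFn (idx R p)) k
  have hz : Continuous (zA R a) := by unfold zA dot; fun_prop
  have hib : ∀ k, Integrable (fun g => g k * val R (lin R) w f f1 f2 f3 [(0, 0)] [1] (Ψ k) (zA R a g)) (gauss ι) ∧
      Integrable (fun g => dirD R (lin R) w f f1 f2 f3 [(0, 0)] [1] (Ψ k) (u k) (zA R a g)) (gauss ι) ∧
      ∫ g, g k * val R (lin R) w f f1 f2 f3 [(0, 0)] [1] (Ψ k) (zA R a g) ∂gauss ι =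
        ∫ g, dirD R (lin R) w f f1 f2 f3 [(0, 0)] [1] (Ψ k) (u k) (zA R a g) ∂gauss ι := fun k => by
    obtain ⟨hc, C, hC⟩ := bd_val hm hS.sd hT.1 [1] (Ψ k)
    obtain ⟨hc', C', hC'⟩ := bd_dirD hm hS.sd hT (Ψ k) (u k)
    refine ⟨Vale.Agent.P150.integrable_of_bound (C := C) (M := 1) ((continuous_apply k).mul (hc.comp hz)) fun g => ?_,
      Integrable.of_bound (hc'.comp hz).aestronglyMeasurable C' (Filter.Eventually.of_forall fun g => hC' _), ?_⟩
    · rw [abs_mul, one_mul, mul_comm C]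
      exact mul_le_mul ((Vale.Agent.P150.abs_le_l1 g k).trans ((le_add_of_nonneg_right zero_le_one).trans
        (Real.add_one_le_exp _))) (hC _) (abs_nonneg _) (exp_pos _).le
    refine Vale.Agent.P150.gauss_ibp (C := max C C') (M := 0) k le_rfl (hc.comp hz) (hc'.comp hz)
      (fun g => by simpa using Or.inl (hC _)) (fun g => by simpa using Or.inr (hC' _)) fun z s => ?_
    refine hasDerivAt_val hm hS.sd hT (Ψ k) (c := fun x => zA R a (Function.update z k x))
      (c' := fun s => a (List.ofFn s) k) fun v => ?_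
    unfold zA dot
    refine (HasDerivAt.fun_sum fun i _ => HasDerivAt.const_mul (a (List.ofFn v) i)
      ((hasDerivAt_pi.1 (hasDerivAt_update z k s)) i)).congr_deriv ?_
    simp [Pi.single_apply]
  have e1 : ∀ g, ET R (lin R) (fun p => w p * fac f a g p) [(0, 0)]
      (fun ps => f1 (dot (a (ps.getD 0 [])) g) * dot (a (ps.getD 0 [])) g) =
        ∑ k, g k * val R (lin R) w f f1 f2 f3 [(0, 0)] [1] (Ψ k) (zA R a g) := fun g => by
    simp only [val_zA a g hT.1 hT.2.1, ← ET_const_mul, ← ET_sum]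
    congr 1; funext ps
    simp only [List.length_singleton, prod_range_one, List.getD_cons_zero, Dk]
    conv_lhs => arg 2; rw [dot]
    rw [mul_sum]
    exact sum_congr rfl fun k _ => by simp only [Ψ]; ring
  have e2 : ∀ g, ∑ k, dirD R (lin R) w f f1 f2 f3 [(0, 0)] [1] (Ψ k) (u k) (zA R a g) =
      ((chl R (lin R) [(0, 0)] [1]).map fun ch => ch.c * val R (lin R) w f f1 f2 f3 ch.T ch.ks
        (fun ps => cv a (ps.getD ch.i []) (ps.getD 0 [])) (zA R a g)).sum := fun g => by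
    simp only [dirD, ← list_sum_map_finset_sum, ← mul_sum]
    refine congrArg List.sum (List.map_congr_left fun ch hc => ?_)
    obtain ⟨hV, -, hn, -, hi, -⟩ := chl_mem hT hc
    congr 1
    simp only [val, ← ET_sum]
    refine ET_congr hV fun ps hs => ?_
    simp only [Ψ, u, getD_take (show 0 < [((0:ℕ), (0:ℕ))].length by simp), ofFn_idx (hs.2.1 _ hi), cv, dot, sum_mul]
    exact sum_congr rfl fun k _ => by ring
  simp only [e1]
  rw [integral_finsetSum _ fun k _ => (hib k).1, sum_congr rfl fun k _ => (hib k).2.2,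
    ← integral_finsetSum _ fun k _ => (hib k).2.1]
  refine integral_congr_ae (Filter.Eventually.of_forall fun g => ?_)
  simp only [e2, inner_eq]
  congr 1
  refine congrArg List.sum (List.map_congr_left fun x _ => ?_)
  congr 1; congr 1; funext ps
  simp only [cv, dot, mul_comm (a (ps.getD 0 []) _)]

end Vale.Agent.P157.Par
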