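import Vale.Agent.P157.Par.InterpBase
import Vale.Agent.P168.MP.Upper.ZBase

/-! Finite structures for the upper bound: products of weights, marginals of the last mark, collisions
of labels, maxima of Gaussian fields. -/

open MeasureTheory ProbabilityTheory Finset
open Vale.Agent.P150 (gauss dot)
open Vale.Agent.P168.MP (Ok Valid valid_split Supp ET ext trans Z logZ0 avg)

namespace Vale.Agent.P157.Par

/-! ### product weights -/

section prod

variable {A B : Type} [Fintype A] [Fintype B] [Nonempty A] [Nonempty B] {R : ℕ} {m : ℕ → ℝ}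
  {F : List A → ℝ} {G : List B → ℝ}

omit [Nonempty A] [Nonempty B] in
lemma Z_mul_prod (hF : ∀ p, 0 < F p) (hG : ∀ p, 0 < G p) (k : ℕ) (pre : List (A × B)) :
    Z m (fun p => F (p.map Prod.fst) * G (p.map Prod.snd)) k pre =
      Z m F k (pre.map Prod.fst) * Z m G k (pre.map Prod.snd) :=
  Vale.Agent.P168.MP.Upper.Z_prod (Equiv.refl _) (fun p => (hF p).le) (fun p => (hG p).le) k pre

lemma logZ0_mul_prod (hF : ∀ p, 0 < F p) (hG : ∀ p, 0 < G p) :
    logZ0 R m (fun p : List (A × B) => F (p.map Prod.fst) * G (p.map Prod.snd)) =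
      logZ0 R m F + logZ0 R m G := by
  rw [logZ0, logZ0, logZ0, Z_mul_prod hF hG, List.map_nil, List.map_nil,
    Real.log_mul (Vale.Agent.P168.MP.Z_pos hF R []).ne' (Vale.Agent.P168.MP.Z_pos hG R []).ne']

lemma trans_mul_prod (hF : ∀ p, 0 < F p) (hG : ∀ p, 0 < G p) (k : ℕ) (pre : List (A × B))
    (o : A × B) :
    trans m (fun p => F (p.map Prod.fst) * G (p.map Prod.snd)) k pre o =
      trans m F k (pre.map Prod.fst) o.1 * trans m G k (pre.map Prod.snd) o.2 := by
  have hz : ∀ (a : List A) (b : List B) (z : ℝ),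
      (Z m F k a * Z m G k b) ^ z = Z m F k a ^ z * Z m G k b ^ z := fun a b z =>
    Real.mul_rpow (Vale.Agent.P168.MP.Z_pos hF k a).le (Vale.Agent.P168.MP.Z_pos hG k b).le
  simp only [Vale.Agent.P168.MP.trans, Z_mul_prod hF hG, List.map_append, List.map_cons,
    List.map_nil, List.length_map, hz, Fintype.sum_prod_type]
  rw [← Finset.sum_mul_sum, div_mul_div_comm]

lemma ext_mul_prod (hF : ∀ p, 0 < F p) (hG : ∀ p, 0 < G p) :
    ∀ (k : ℕ) (pre : List (A × B)) (H : List (A × B) → ℝ),
      ext m (fun p => F (p.map Prod.fst) * G (p.map Prod.snd)) k pre H =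
        ext m F k (pre.map Prod.fst) fun a => ext m G k (pre.map Prod.snd) fun b => H (a.zip b)
  | 0, pre, H => by
    simp only [Vale.Agent.P168.MP.ext_zero]
    exact congrArg H (List.zip_of_prod rfl rfl)
  | k + 1, pre, H => by
    simp only [Vale.Agent.P168.MP.ext_succ, ext_mul_prod hF hG k, trans_mul_prod hF hG,
      List.map_append, List.map_cons, List.map_nil, Vale.Agent.P168.MP.ext_sum,
      Vale.Agent.P168.MP.ext_const_mul, mul_sum, Fintype.sum_prod_type, mul_assoc]

/-- two independent coordinates -/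
theorem ET_mul_prod (hF : ∀ p, 0 < F p) (hG : ∀ p, 0 < G p) {T : List (ℕ × ℕ)} (hT : Valid R T)
    (H : List (List (A × B)) → ℝ) :
    ET R m (fun p => F (p.map Prod.fst) * G (p.map Prod.snd)) T H =
      ET R m F T fun as => ET R m G T fun bs => H (List.zipWith List.zip as bs) := by
  induction T generalizing H with
  | nil => simp
  | cons x T ih =>
    obtain ⟨p, v⟩ := x
    obtain ⟨hT', hv, hp⟩ := valid_split hT
    simp only [Vale.Agent.P168.MP.ET_cons, ih hT']
    refine Vale.Agent.P168.MP.ET_congr hT' fun as ha => ?_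
    simp only [← Vale.Agent.P168.MP.ET_ext_comm (R := R) (m := m) (w := G) T (R - v)
      ((as.getD p []).take v)]
    refine Vale.Agent.P168.MP.ET_congr hT' fun bs hb => ?_
    have hlen : as.length = bs.length := ha.1.trans hb.1.symm
    have hl : (as.getD p []).length = (bs.getD p []).length := by
      rcases hp with ⟨rfl, -, -⟩ | hp
      · simp [List.length_eq_zero_iff.1 ha.1, List.length_eq_zero_iff.1 hb.1]
      · rw [ha.2.1 p hp, hb.2.1 p hp]
    rw [ext_mul_prod hF hG, Vale.Agent.P168.MP.getD_zipWith_zip hlen, List.map_take, List.map_take,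
      List.map_fst_zip hl.le, List.map_snd_zip hl.ge]
    simp only [List.zipWith_append hlen, List.zipWith_cons_cons, List.zipWith_nil_left]

/-- a pair of replicas in a product -/
theorem ET_mul_pair (hF : ∀ p, 0 < F p) (hG : ∀ p, 0 < G p) {l : ℕ} (hl : l ≤ R)
    (Φ : List A → List A → ℝ) (Ψ : List B → List B → ℝ) :
    ET R m (fun p => F (p.map Prod.fst) * G (p.map Prod.snd)) [(0, l), (0, 0)]
        (fun ps => Φ ((ps.getD 0 []).map Prod.fst) ((ps.getD 1 []).map Prod.fst) *
          Ψ ((ps.getD 0 []).map Prod.snd) ((ps.getD 1 []).map Prod.snd)) =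
      ET R m F [(0, l), (0, 0)] (fun ps => Φ (ps.getD 0 []) (ps.getD 1 [])) *
        ET R m G [(0, l), (0, 0)] (fun ps => Ψ (ps.getD 0 []) (ps.getD 1 [])) := by
  have hT : Valid R [(0, l), (0, 0)] := ⟨Nat.zero_lt_one, hl, rfl, rfl⟩
  rw [ET_mul_prod hF hG hT, ← Vale.Agent.P168.MP.ET_mul_const]
  refine Vale.Agent.P168.MP.ET_congr hT fun as ha => ?_
  rw [← Vale.Agent.P168.MP.ET_const_mul]
  refine Vale.Agent.P168.MP.ET_congr hT fun bs hb => ?_
  have hlen : as.length = bs.length := ha.1.trans hb.1.symm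
  have e : ∀ a, a < 2 → (as.getD a []).length = (bs.getD a []).length := fun a h => by
    rw [ha.2.1 a h, hb.2.1 a h]
  simp only [Vale.Agent.P168.MP.getD_zipWith_zip hlen, List.map_fst_zip (e 0 two_pos).le,
    List.map_snd_zip (e 0 two_pos).ge, List.map_fst_zip (e 1 one_lt_two).le,
    List.map_snd_zip (e 1 one_lt_two).ge]

end prod

/-! ### weights read at the last mark -/

section last

variable {Ω : Type} [Fintype Ω] [Nonempty Ω] {R : ℕ} {m : ℕ → ℝ} {w : List Ω → ℝ}

/-- a weight read at the last mark only is averaged -/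
lemma Z_last (hm : Ok R m w) (d : Ω) {F : Ω → ℝ} (hF : ∀ o, 0 < F o)
    (h : ∀ p : List Ω, p.length = R → w p = F (p.getD (R - 1) d)) :
    ∀ (k : ℕ) (pre : List Ω), pre.length + (k + 1) = R → Z m w (k + 1) pre = avg F := by
  intro k
  induction k with
  | zero =>
    intro pre hk
    have e : ∀ o, w (pre ++ [o]) = F o := fun o => by
      rw [h _ (by simp; omega), List.getD_append_right _ _ _ _ (by omega),
        show R - 1 - pre.length = 0 by omega]
      rfl
    simp [Z, show pre.length + 1 = R by omega, hm.top, e]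
  | succ k ih =>
    intro pre hk
    have hM : 0 < m (pre.length + 1) := hm.pos _ (by omega) (by omega)
    have e : ∀ o, Z m w (k + 1) (pre ++ [o]) = avg F := fun o => ih _ (by simp; omega)
    rw [Z]
    simp only [e, Vale.Agent.P168.MP.avg_const]
    rw [← Real.rpow_mul (Vale.Agent.P168.MP.avg_pos hF).le, mul_one_div_cancel hM.ne', Real.rpow_one]

lemma logZ0_last (hm : Ok R m w) (hR : 1 ≤ R) (d : Ω) {F : Ω → ℝ} (hF : ∀ o, 0 < F o)
    (h : ∀ p : List Ω, p.length = R → w p = F (p.getD (R - 1) d)) :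
    logZ0 R m w = Real.log (avg F) := by
  obtain ⟨k, rfl⟩ : ∃ k, R = k + 1 := ⟨R - 1, by omega⟩
  rw [logZ0, Z_last hm d hF h k [] (by simp)]

/-- a spin carried by the last mark is averaged out -/
lemma Z_spin {Λ : Type} [Fintype Λ] [Nonempty Λ] {W : List (Bool × Λ) → ℝ} {G : List Λ → ℝ}
    (hm : Ok R m W) (h : ∀ (pre : List (Bool × Λ)) (lam : Λ), pre.length + 1 = R →
      (W (pre ++ [(true, lam)]) + W (pre ++ [(false, lam)])) / 2 = G (pre.map Prod.snd ++ [lam])) :
    ∀ (k : ℕ) (pre : List (Bool × Λ)), pre.length + (k + 1) = R →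
      Z m W (k + 1) pre = Z m G (k + 1) (pre.map Prod.snd) := by
  intro k
  induction k with
  | zero =>
    intro pre hk
    have e : ∀ lam, G (pre.map Prod.snd ++ [lam]) =
        (W (pre ++ [(true, lam)]) + W (pre ++ [(false, lam)])) / 2 := fun lam => (h pre lam hk).symm
    simp [Z, List.length_map, show pre.length + 1 = R by omega, hm.top, avg, e,
      Fintype.sum_prod_type, ← Finset.sum_add_distrib, ← Finset.sum_div, div_div]
  | succ k ih =>
    intro pre hk
    rw [Z, Z.eq_def m G (k + 1 + 1)]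
    simp only [ih _ (show (pre ++ [_]).length + (k + 1) = R by simp; omega), List.map_append,
      List.map_cons, List.map_nil, List.length_map]
    rw [← Vale.Agent.P168.MP.Upper.avg_fst (B := Bool)
      (fun lam : Λ => Z m G (k + 1) (pre.map Prod.snd ++ [lam]) ^ m (pre.length + 1))]
    rw [← Vale.Agent.P168.MP.Upper.avg_equiv (Equiv.prodComm Bool Λ)]
    rfl

end last

/-! ### collisions -/

section coll

variable {Ω : Type} [Fintype Ω] [Nonempty Ω] {R : ℕ} {m : ℕ → ℝ}

lemma ext_one_first (d : Ω) (k : ℕ) (pre : List Ω) (φ : Ω → ℝ) :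
    ext m (fun _ => (1 : ℝ)) (k + 1) pre (fun q => φ (q.getD pre.length d)) = avg φ := by
  rw [Vale.Agent.P168.MP.ext_succ]
  have e : ∀ o, ext m (fun _ => (1 : ℝ)) k (pre ++ [o]) (fun q => φ (q.getD pre.length d)) = φ o :=
    fun o => by
    rw [Vale.Agent.P168.MP.ext_congr (G := fun _ => φ o) fun suf _ => ?_,
      Vale.Agent.P168.MP.ext_const (fun _ => one_pos)]
    rw [List.append_assoc, List.getD_append_right _ _ _ _ le_rfl, Nat.sub_self]
    rfl
  simp only [e, Vale.Agent.P168.MP.trans_one, avg, sum_div]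
  exact Finset.sum_congr rfl fun o _ => by ring

/-- the chance that two replicas splitting at level `l` read the same label at level `l + 1` -/
lemma ET_one_collision {Λ : Type} [DecidableEq Λ] (d : Ω) (lab : Ω → Λ) {δ : ℝ}
    (hδ : ∀ x, avg (fun o => if lab o = x then (1 : ℝ) else 0) = δ) {l : ℕ} (hl : l < R) :
    ET R m (fun _ => (1 : ℝ)) [(0, l), (0, 0)] (fun ps =>
      if lab ((ps.getD 1 []).getD l d) = lab ((ps.getD 0 []).getD l d) then (1 : ℝ) else 0) = δ := by
  rw [Vale.Agent.P168.MP.ET_cons, Vale.Agent.P168.MP.ET_single,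
    Vale.Agent.P168.MP.ext_congr (G := fun _ => δ) fun suf hs => ?_,
    Vale.Agent.P168.MP.ext_const (fun _ => one_pos)]
  simp only [List.nil_append, List.getD_cons_zero, List.cons_append,
    List.getD_cons_succ]
  have hlen : (suf.take l).length = l := by simp [hs]; omega
  obtain ⟨k, hk⟩ : ∃ k, R - l = k + 1 := ⟨R - l - 1, by omega⟩
  rw [hk, ← hδ (lab (suf.getD l d))]
  conv_rhs => rw [← ext_one_first (m := m) d k (suf.take l)
    (fun o => if lab o = lab (suf.getD l d) then (1 : ℝ) else 0)]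
  rw [hlen]

/-- tilting costs at most the square of the oscillation of the factor -/
lemma ET_tilt_le {w Y : List Ω → ℝ} (hm : Ok R m w) {lo hi : ℝ} (hlo : 0 < lo)
    (hY : ∀ p, lo ≤ Y p ∧ Y p ≤ hi) {l : ℕ} (hl : l ≤ R) {H : List (List Ω) → ℝ}
    (hH : ∀ ps, 0 ≤ H ps) :
    ET R m (fun p => w p * Y p) [(0, l), (0, 0)] H ≤
      (hi / lo) ^ 2 * ET R m w [(0, l), (0, 0)] H := by
  have hT : Valid R [(0, l), (0, 0)] := ⟨Nat.zero_lt_one, hl, rfl, rfl⟩
  refine (ET_mul_le' hm hlo (fun p => (hY p).1) hT hH).trans ?_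
  rw [← Vale.Agent.P168.MP.ET_const_mul]
  refine Vale.Agent.P168.MP.ET_mono_on hm.wpos hT fun ps hs => ?_
  obtain ⟨A, B, rfl⟩ : ∃ A B, ps = [A, B] := List.length_eq_two.1 hs.1
  simp only [List.map_cons, List.map_nil, List.prod_cons, List.prod_nil, mul_one]
  rw [mul_comm, sq]
  exact mul_le_mul_of_nonneg_right (mul_le_mul (div_le_div_of_nonneg_right (hY A).2 hlo.le)
    (div_le_div_of_nonneg_right (hY B).2 hlo.le) (div_nonneg (hlo.le.trans (hY B).1) hlo.le)
    (div_nonneg ((hlo.le.trans (hY A).1).trans (hY A).2) hlo.le)) (hH _)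

end coll

/-! ### maximum of a Gaussian field -/

section maximum

variable {ι P : Type} [Fintype ι] [Fintype P] [Nonempty P]

/-- the largest absolute value of the field -/
noncomputable def fmax (a : P → ι → ℝ) (g : ι → ℝ) : ℝ :=
  univ.sup' univ_nonempty fun p => |dot (a p) g|

lemma le_fmax (a : P → ι → ℝ) (g : ι → ℝ) (p : P) : |dot (a p) g| ≤ fmax a g :=
  le_sup' (fun p => |dot (a p) g|) (mem_univ p)

lemma continuous_fmax (a : P → ι → ℝ) : Continuous (fmax a) :=
  Continuous.finset_sup'_apply _ fun p _ => (by unfold dot; fun_prop)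

lemma integral_exp_fmax (a : P → ι → ℝ) {V : ℝ} (hV : ∀ p, dot (a p) (a p) ≤ V) {c : ℝ}
    (hc : 0 ≤ c) (n : ℕ) :
    Integrable (fun g => Real.exp (c * fmax a g)) (gauss ι) ∧
      (∫ g, Real.exp (c * fmax a g) ∂gauss ι) ^ n ≤
        Fintype.card P * (2 * Real.exp ((n * c) ^ 2 * V / 2)) := by
  have hexp : ∀ (d : ℝ) p, Integrable (fun g : ι → ℝ => Real.exp (d * dot (a p) g)) (gauss ι) ∧
      ∫ g, Real.exp (d * dot (a p) g) ∂gauss ι = Real.exp (d ^ 2 * dot (a p) (a p) / 2) := fun d p => by
    have h1 := Vale.Agent.P150.mgf_dot (fun k => d * a p k)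
    have e : ∀ g : ι → ℝ, dot (fun k => d * a p k) g = d * dot (a p) g := fun g => by
      simp [dot, mul_sum, mul_assoc]
    have e2 : ∑ k, (d * a p k) ^ 2 = d ^ 2 * dot (a p) (a p) := by
      simp only [dot, mul_sum]; exact sum_congr rfl fun k _ => by ring
    simp only [e, e2] at h1
    refine ⟨?_, h1⟩
    have e3 : (fun g : ι → ℝ => Real.exp (d * dot (a p) g)) =
        fun g => ∏ k, Real.exp (d * a p k * g k) := by
      funext g; rw [← Real.exp_sum]; simp [dot, mul_sum, mul_assoc]
    rw [e3]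
    exact Integrable.fintype_prod (f := fun k (t : ℝ) => Real.exp (d * a p k * t)) fun k =>
      integrable_exp_mul_gaussianReal _
  have key : ∀ d : ℝ, 0 ≤ d → Integrable (fun g => Real.exp (d * fmax a g)) (gauss ι) ∧
      ∫ g, Real.exp (d * fmax a g) ∂gauss ι ≤ Fintype.card P * (2 * Real.exp (d ^ 2 * V / 2)) := by
    intro d hd
    have hmaj : Integrable (fun g => ∑ p, (Real.exp (d * dot (a p) g) + Real.exp (-d * dot (a p) g)))
        (gauss ι) := integrable_finsetSum _ fun p _ => (hexp d p).1.add (hexp (-d) p).1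
    have hle : ∀ g, Real.exp (d * fmax a g) ≤
        ∑ p, (Real.exp (d * dot (a p) g) + Real.exp (-d * dot (a p) g)) := fun g => by
      obtain ⟨p, -, hp⟩ := exists_mem_eq_sup' univ_nonempty fun p => |dot (a p) g|
      rw [fmax, hp]
      refine le_trans ?_ (single_le_sum (fun p _ => by positivity) (mem_univ p))
      rcases abs_choice (dot (a p) g) with h | h <;> rw [h]
      · linarith [Real.exp_pos (-d * dot (a p) g)]
      · rw [mul_neg, ← neg_mul]; linarith [Real.exp_pos (d * dot (a p) g)]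
    have hi : Integrable (fun g => Real.exp (d * fmax a g)) (gauss ι) :=
      hmaj.mono' (Real.continuous_exp.comp (continuous_const.mul (continuous_fmax a))).aestronglyMeasurable
        (Filter.Eventually.of_forall fun g => by rw [Real.norm_eq_abs, Real.abs_exp]; exact hle g)
    refine ⟨hi, (integral_mono hi hmaj hle).trans ?_⟩
    rw [integral_finsetSum univ (f := fun p g => Real.exp (d * dot (a p) g) + Real.exp (-d * dot (a p) g))
      fun p _ => (hexp d p).1.add (hexp (-d) p).1]
    refine (sum_le_card_nsmul _ _ (2 * Real.exp (d ^ 2 * V / 2)) fun p _ => ?_).trans (by simp)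
    rw [integral_add (hexp d p).1 (hexp (-d) p).1, (hexp d p).2, (hexp (-d) p).2, neg_sq, ← two_mul]
    gcongr
    exact hV p
  refine ⟨(key c hc).1, ?_⟩
  have hi := key (n * c) (mul_nonneg (Nat.cast_nonneg n) hc)
  have e : ∀ g, Real.exp (n * c * fmax a g) = Real.exp (c * fmax a g) ^ n := fun g => by
    rw [← Real.exp_nat_mul]; ring_nf
  simp only [e] at hi
  refine le_trans ?_ hi.2
  exact (convexOn_pow n).map_integral_le (continuous_pow n).continuousOn isClosed_Ici
    (Filter.Eventually.of_forall fun g => Set.mem_Ici.2 (Real.exp_pos _).le) (key c hc).1 hi.1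

end maximum

end Vale.Agent.P157.Par
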