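import Vale.Agent.P157.Par.NodeLim
import Vale.Agent.P157.Par.Interp
import Vale.Agent.P157.Par.UpperBase
import Vale.Agent.P157.Par.QConc

/-! Replacing a Gaussian field on a hierarchical structure by the field of a profile: the value, pairs
and single replicas; Lipschitz dependence on the profile. -/

open MeasureTheory ProbabilityTheory Real Finset Filter
open scoped Topology
open Vale.Agent.P150 (gauss dot)
open Vale.Agent.P168.MP (lin ET ext Z nest logZ0 Valid Supp)

namespace Vale.Agent.P157.Par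

section aux
variable {Ω : Type} [Fintype Ω] [Nonempty Ω] {R : ℕ} {w : List Ω → ℝ} {n : ℕ} {q : ℕ → ℝ} {V : ℝ}
  {Λ : Type} [Fintype Λ] [Nonempty Λ]

lemma pair_valid {l : ℕ} (hl : l ≤ R) : Valid R [(0, l), (0, 0)] := ⟨Nat.one_pos, hl, rfl, rfl⟩

/-- a pair in a product, reading the first coordinate only -/
lemma ET_fst_pair (m : ℕ → ℝ) (hw : ∀ p, 0 < w p) {l : ℕ} (hl : l ≤ R)
    (Φ : List Ω → List Ω → ℝ) :
    ET R m (fun p : List (Ω × Λ) => w (p.map Prod.fst)) [(0, l), (0, 0)]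
        (fun ps => Φ ((ps.getD 0 []).map Prod.fst) ((ps.getD 1 []).map Prod.fst)) =
      ET R m w [(0, l), (0, 0)] (fun ps => Φ (ps.getD 0 []) (ps.getD 1 [])) := by
  have := ET_mul_pair (m := m) (G := fun _ : List Λ => (1:ℝ)) hw (fun _ => one_pos) hl Φ (fun _ _ => 1)
  simpa [Vale.Agent.P168.MP.ET_const (fun _ => one_pos)] using this

lemma single_mul_prod (m : ℕ → ℝ) (hw : ∀ p, 0 < w p) {G : List Λ → ℝ} (hG : ∀ p, 0 < G p)
    (Φ : List Ω → ℝ) :
    ET R m (fun p : List (Ω × Λ) => w (p.map Prod.fst) * G (p.map Prod.snd)) [(0, 0)]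
        (fun ps => Φ ((ps.getD 0 []).map Prod.fst)) =
      ET R m w [(0, 0)] (fun ps => Φ (ps.getD 0 [])) := by
  simp only [Vale.Agent.P168.MP.ET_single, List.getD_cons_zero, ext_mul_prod hw hG, List.map_nil]
  refine Vale.Agent.P168.MP.ext_congr fun suf hs => ?_
  refine Eq.trans (Vale.Agent.P168.MP.ext_congr fun suf' hs' => ?_)
    (Vale.Agent.P168.MP.ext_const hG _ _ _)
  rw [List.map_fst_zip (by simp only [List.nil_append, hs, hs', le_refl])]

/-- the deviation in the product structure -/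
lemma devOf_node (hw : ∀ p, 0 < w p) (hq : Prof R q V) {ι : Type} [Fintype ι]
    (a : List Ω → ι → ℝ) {l : ℕ} (hl : l ≤ R) :
    devOf R (fun p : List (Ω × Fin (n + 1)) => w (p.map Prod.fst))
        (dd (fun p => a (p.map Prod.fst)) fun p => node R q (p.map Prod.snd)) 0 l ≤
      devOf R w (cv a) q l + V / (n + 1) := by
  have hT := pair_valid (R := R) hl
  have hn : ET R (lin R) (fun _ : List (Fin (n + 1)) => (1:ℝ)) [(0, l), (0, 0)]
      (fun bs => |cv (node R q) (bs.getD 0 []) (bs.getD 1 []) - q l|) ≤ V / (n + 1) := by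
    rw [Vale.Agent.P168.MP.ET_cons, Vale.Agent.P168.MP.ET_single]
    refine (Vale.Agent.P168.MP.ext_mono_on (G := fun _ => V / (n + 1)) (fun _ => one_pos)
      fun suf hs => ?_).trans_eq (Vale.Agent.P168.MP.ext_const (fun _ => one_pos) _ _ _)
    simp only [List.nil_append, List.getD_cons_zero, List.singleton_append, List.getD_cons_succ]
    exact node_dev (lin R) hq hl hs
  unfold devOf
  rw [Vale.Agent.P168.MP.ET_prod hT]
  refine le_trans (Vale.Agent.P168.MP.ET_mono_on hw hT fun as ha => ?_)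
    ((Vale.Agent.P168.MP.ET_add _ (fun as => |cv a (as.getD 0 []) (as.getD 1 []) - q l|)
      fun _ => V / (n + 1)).trans_le (le_of_eq (by rw [Vale.Agent.P168.MP.ET_const hw])))
  refine le_trans (Vale.Agent.P168.MP.ET_mono_on (fun _ => one_pos) hT
    (G := fun bs => |cv a (as.getD 0 []) (as.getD 1 []) - q l| +
      |cv (node R q) (bs.getD 0 []) (bs.getD 1 []) - q l|) fun bs hb => ?_) ?_
  · have hlen : as.length = bs.length := ha.1.trans hb.1.symm
    have e : ∀ i, i < 2 → (as.getD i []).length = (bs.getD i []).length := fun i h => by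
      rw [ha.2.1 i h, hb.2.1 i h]
    simp only [dd, cv, Pi.zero_apply, sub_zero, Vale.Agent.P168.MP.getD_zipWith_zip hlen,
      List.map_fst_zip (e 0 two_pos).le, List.map_snd_zip (e 0 two_pos).ge,
      List.map_fst_zip (e 1 one_lt_two).le, List.map_snd_zip (e 1 one_lt_two).ge]
    rw [show ∀ x y z : ℝ, x - y = (x - z) - (y - z) from fun x y z => by ring]
    exact abs_sub _ _
  · rw [Vale.Agent.P168.MP.ET_add, Vale.Agent.P168.MP.ET_const (fun _ => one_pos)]
    exact add_le_add le_rfl hn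

lemma adev_node (hR : 1 ≤ R) (hw : ∀ p, 0 < w p) (hq : Prof R q V) {ι : Type} [Fintype ι]
    (a : List Ω → ι → ℝ) :
    adev R (fun p : List (Ω × Fin (n + 1)) => w (p.map Prod.fst))
        (dd (fun p => a (p.map Prod.fst)) fun p => node R q (p.map Prod.snd)) 0 ≤
      adev R w (cv a) q + 2 * (V / (n + 1)) := by
  have hR' : (0:ℝ) < R := Nat.cast_pos.2 hR
  have h : (∑ l ∈ range R, devOf R (fun p : List (Ω × Fin (n + 1)) => w (p.map Prod.fst))
        (dd (fun p => a (p.map Prod.fst)) fun p => node R q (p.map Prod.snd)) 0 l) / R ≤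
      (∑ l ∈ range R, devOf R w (cv a) q l) / R + V / (n + 1) := by
    rw [div_add' _ _ _ hR'.ne']
    refine div_le_div_of_nonneg_right ?_ hR'.le
    refine (sum_le_sum fun l hl => devOf_node hw hq a (mem_range.1 hl).le).trans_eq ?_
    simp [sum_add_distrib, mul_comm]
  unfold adev
  linarith [devOf_node (n := n) hw hq a (le_refl R)]

lemma log_nest_fst {ι : Type} [Fintype ι] (hw : ∀ p, 0 < w p) (f : ℝ → ℝ) (a : List Ω → ι → ℝ)
    (g : ι → ℝ) :
    log (nest (lin R) (fun p : List (Ω × Λ) => w (p.map Prod.fst))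
        (fac f (fun p => a (p.map Prod.fst)) g) R []) =
      log (nest (lin R) w (fac f a g) R []) := by
  rw [← Vale.Agent.P168.MP.logZ0_mul
      (Y := fac f (fun p : List (Ω × Λ) => a (p.map Prod.fst)) g) (fun p => hw _) (fun p => exp_pos _),
    ← Vale.Agent.P168.MP.logZ0_mul (Y := fac f a g) hw (fun p => exp_pos _)]
  exact congrArg₂ (· - ·)
    (Vale.Agent.P168.MP.logZ0_prod (w₀ := fun p => w p * fac f a g p) (B := Λ))
    (Vale.Agent.P168.MP.logZ0_prod (w₀ := w) (B := Λ))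

lemma log_nest_snd {κ : Type} [Fintype κ] (hw : ∀ p, 0 < w p) (f : ℝ → ℝ) (b : List Λ → κ → ℝ)
    (g : κ → ℝ) :
    log (nest (lin R) (fun p : List (Ω × Λ) => w (p.map Prod.fst))
        (fac f (fun p => b (p.map Prod.snd)) g) R []) =
      log (Z (lin R) (fac f b g) R []) := by
  rw [← Vale.Agent.P168.MP.logZ0_mul
      (Y := fac f (fun p : List (Ω × Λ) => b (p.map Prod.snd)) g) (fun p => hw _) (fun p => exp_pos _),
    Vale.Agent.P168.MP.logZ0_prod (w₀ := w) (B := Λ), sub_eq_iff_eq_add']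
  exact logZ0_mul_prod (G := fac f b g) hw fun _ => exp_pos _

end aux

variable {f f1 f2 f3 : ℝ → ℝ} {B D : ℝ}

lemma tendsto_err (c V : ℝ) : Tendsto (fun n : ℕ => c * (V / ((n : ℝ) + 1))) atTop (𝓝 0) := by
  have := (tendsto_one_div_add_atTop_nhds_zero_nat (𝕜 := ℝ)).const_mul (c * V)
  simpa [mul_div_assoc, div_eq_mul_inv, mul_assoc] using this

lemma le_of_err {A : ℕ → ℝ} {x b : ℝ} (hA : Tendsto A atTop (𝓝 x)) {c V : ℝ}
    (h : ∀ n, A n ≤ b + c * (V / ((n : ℝ) + 1))) : x ≤ b :=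
  le_of_tendsto_of_tendsto' hA (by simpa using (tendsto_err c V).const_add b) h

/-- the value is close to the functional of the profile -/
theorem value_close (hS : Sm f f1 f2 f3 B D) (V : ℝ) : ∃ K : ℝ, 0 ≤ K ∧
    ∀ {Ω ι : Type} [Fintype Ω] [Nonempty Ω] [Fintype ι] {R : ℕ} (_ : 1 ≤ R)
      {w : List Ω → ℝ} (_ : ∀ p, 0 < w p) {a : List Ω → ι → ℝ} (_ : ∀ p, cv a p p ≤ V)
      {q : ℕ → ℝ} (_ : Prof R q V),
      |∫ g, log (nest (lin R) w (fac f a g) R []) ∂gauss ι - Phi (fun y => exp (f y)) R (lin R) q| ≤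
        K * adev R w (cv a) q := by
  obtain ⟨K, hK, h⟩ := interp_value hS V
  refine ⟨K, hK, fun {Ω ι} _ _ _ {R} hR {w} hw {a} ha {q} hq => ?_⟩
  refine le_of_err ((tendsto_const_nhds.sub (node_value (adm_exp hS) (ex_lin R) hq hR)).abs)
    (c := K * 2) (V := V) fun n => ?_
  have h' := @h (Ω × Fin (n + 1)) ι (Ix R n) _ _ _ _ R hR (fun p => w (p.map Prod.fst))
    (fun p => hw _) (fun p => a (p.map Prod.fst)) (fun p => node R q (p.map Prod.snd))
    (fun p => ha _) (fun p => cv_node_le hq _)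
  simp only [log_nest_fst hw, log_nest_snd hw] at h'
  refine h'.trans ((mul_le_mul_of_nonneg_left (adev_node hR hw hq a) hK).trans_eq ?_)
  ring

/-- pairs of replicas -/
theorem pair_close (hS : Sm f f1 f2 f3 B D) (V : ℝ) : ∃ K : ℝ, 0 ≤ K ∧
    ∀ {Ω ι : Type} [Fintype Ω] [Nonempty Ω] [Fintype ι] {R : ℕ} (_ : 1 ≤ R)
      {w : List Ω → ℝ} (_ : ∀ p, 0 < w p) {a : List Ω → ι → ℝ} (_ : ∀ p, cv a p p ≤ V)
      {q : ℕ → ℝ} (_ : Prof R q V) {l : ℕ} (_ : l ≤ R)
      {Ψ : List Ω → List Ω → ℝ} {C : ℝ} (_ : ∀ p p', |Ψ p p'| ≤ C),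
      |(∫ g, ET R (lin R) (fun p => w p * fac f a g p) [(0, l), (0, 0)] (fun ps =>
            Ψ (ps.getD 0 []) (ps.getD 1 []) * (f1 (dot (a (ps.getD 0 [])) g) * f1 (dot (a (ps.getD 1 [])) g))) ∂gauss ι) -
        Gamma (fun y => exp (f y)) f1 R (lin R) q l *
          ET R (lin R) w [(0, l), (0, 0)] (fun ps => Ψ (ps.getD 0 []) (ps.getD 1 []))|
        ≤ K * C * (devOf R w (cv a) q l + adev R w (cv a) q) ∧
      |(∫ g, ET R (lin R) (fun p => w p * fac f a g p) [(0, l), (0, 0)] (fun ps =>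
            Ψ (ps.getD 0 []) (ps.getD 1 [])) ∂gauss ι) -
          ET R (lin R) w [(0, l), (0, 0)] (fun ps => Ψ (ps.getD 0 []) (ps.getD 1 []))|
        ≤ K * C * (devOf R w (cv a) q l + adev R w (cv a) q) := by
  obtain ⟨K, hK, h⟩ := interp_pair hS V
  refine ⟨K, hK, fun {Ω ι} _ _ _ {R} hR {w} hw {a} ha {q} hq {l} hl {Ψ C} hC => ?_⟩
  have hC0 : 0 ≤ C := (abs_nonneg _).trans (hC [] [])
  have hf1 : Continuous f1 := continuous_iff_continuousAt.2 fun x => (hS.d1 x).continuousAt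
  set P := ET R (lin R) w [(0, l), (0, 0)] (fun ps => Ψ (ps.getD 0 []) (ps.getD 1 []))
  have key := fun n : ℕ => @h (Ω × Fin (n + 1)) ι (Ix R n) _ _ _ _ R hR
    (fun p => w (p.map Prod.fst)) (fun p => hw _) (fun p => a (p.map Prod.fst))
    (fun p => node R q (p.map Prod.snd)) (fun p => ha _) (fun p => cv_node_le hq _) l hl
    (fun p p' => Ψ (p.map Prod.fst) (p'.map Prod.fst)) C (fun p p' => hC _ _)
  have hA : ∀ (n : ℕ) (g : ι → ℝ) (Φ : List Ω → List Ω → ℝ),
      ET R (lin R) (fun p : List (Ω × Fin (n + 1)) =>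
          w (p.map Prod.fst) * fac f (fun p => a (p.map Prod.fst)) g p) [(0, l), (0, 0)]
        (fun ps => Φ ((ps.getD 0 []).map Prod.fst) ((ps.getD 1 []).map Prod.fst)) =
      ET R (lin R) (fun p => w p * fac f a g p) [(0, l), (0, 0)]
        (fun ps => Φ (ps.getD 0 []) (ps.getD 1 [])) := fun n g Φ =>
    ET_fst_pair (w := fun p => w p * fac f a g p) (lin R) (fun p => mul_pos (hw p) (exp_pos _)) hl Φ
  have hB : ∀ (n : ℕ) (g : Ix R n → ℝ) (F : List (Fin (n + 1)) → List (Fin (n + 1)) → ℝ),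
      ET R (lin R) (fun p : List (Ω × Fin (n + 1)) =>
          w (p.map Prod.fst) * fac f (fun p => node R q (p.map Prod.snd)) g p) [(0, l), (0, 0)]
        (fun ps => Ψ ((ps.getD 0 []).map Prod.fst) ((ps.getD 1 []).map Prod.fst) *
          F ((ps.getD 0 []).map Prod.snd) ((ps.getD 1 []).map Prod.snd)) =
      P * ET R (lin R) (nodeW (fun y => exp (f y)) R q g) [(0, l), (0, 0)]
        (fun ps => F (ps.getD 0 []) (ps.getD 1 [])) := fun n g F =>
    ET_mul_pair (G := fac f (node R q) g) hw (fun p => exp_pos _) hl Ψ F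
  have herr : ∀ n : ℕ, K * C * (devOf R (fun p : List (Ω × Fin (n + 1)) => w (p.map Prod.fst))
        (dd (fun p => a (p.map Prod.fst)) fun p => node R q (p.map Prod.snd)) 0 l +
      adev R (fun p : List (Ω × Fin (n + 1)) => w (p.map Prod.fst))
        (dd (fun p => a (p.map Prod.fst)) fun p => node R q (p.map Prod.snd)) 0) ≤
      K * C * (devOf R w (cv a) q l + adev R w (cv a) q) + K * C * 3 * (V / ((n:ℝ) + 1)) := fun n =>
    (mul_le_mul_of_nonneg_left (add_le_add (devOf_node hw hq a hl) (adev_node hR hw hq a))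
      (mul_nonneg hK hC0)).trans_eq (by ring)
  constructor
  · refine le_of_err ((tendsto_const_nhds.sub ((node_pair (adm_exp hS) (ex_lin R) hq hf1 hS.b1
      hl).mul_const P)).abs) (c := K * C * 3) (V := V) fun n => ?_
    have h1 := ((key n).1).trans (herr n)
    simp only [fun g => hA n g fun x y => Ψ x y * (f1 (dot (a x) g) * f1 (dot (a y) g)),
      fun g : Ix R n → ℝ => hB n g fun x y => f1 (dot (node R q x) g) * f1 (dot (node R q y) g),
      integral_const_mul] at h1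
    rwa [mul_comm P] at h1
  · refine le_of_err (A := fun _ => |(∫ g, ET R (lin R) (fun p => w p * fac f a g p) [(0, l), (0, 0)]
        (fun ps => Ψ (ps.getD 0 []) (ps.getD 1 [])) ∂gauss ι) - P|) tendsto_const_nhds
      (c := K * C * 3) (V := V) fun n => ?_
    have h2 := ((key n).2).trans (herr n)
    have hB' : ∀ g : Ix R n → ℝ, ET R (lin R) (fun p : List (Ω × Fin (n + 1)) =>
          w (p.map Prod.fst) * fac f (fun p => node R q (p.map Prod.snd)) g p) [(0, l), (0, 0)]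
        (fun ps => Ψ ((ps.getD 0 []).map Prod.fst) ((ps.getD 1 []).map Prod.fst)) = P := fun g => by
      simpa [Vale.Agent.P168.MP.ET_const (w := nodeW (fun y => exp (f y)) R q g)
        (fun p => exp_pos _)] using hB n g fun _ _ => 1
    simp only [fun g => hA n g Ψ, hB', integral_const, probReal_univ, one_smul] at h2
    exact h2

/-- one replica -/
theorem single_close (hS : Sm f f1 f2 f3 B D) (V : ℝ) : ∃ K : ℝ, 0 ≤ K ∧
    ∀ {Ω ι : Type} [Fintype Ω] [Nonempty Ω] [Fintype ι] {R : ℕ} (_ : 1 ≤ R)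
      {w : List Ω → ℝ} (_ : ∀ p, 0 < w p) {a : List Ω → ι → ℝ} (_ : ∀ p, cv a p p ≤ V)
      {q : ℕ → ℝ} (_ : Prof R q V) (Ψ : List Ω → ℝ) {t : ℝ} (_ : 0 < t),
      |(∫ g, ET R (lin R) (fun p => w p * fac f a g p) [(0, 0)] (fun ps => Ψ (ps.getD 0 [])) ∂gauss ι) -
          ET R (lin R) w [(0, 0)] (fun ps => Ψ (ps.getD 0 []))|
        ≤ K * (t * ET R (lin R) w [(0, 0)] (fun ps => Ψ (ps.getD 0 []) ^ 2) +
            adev R w (cv a) q / t) := by
  obtain ⟨K, hK, h⟩ := interp_single hS V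
  refine ⟨K, hK, fun {Ω ι} _ _ _ {R} hR {w} hw {a} ha {q} hq Ψ {t} ht => ?_⟩
  refine le_of_err (A := fun _ => |(∫ g, ET R (lin R) (fun p => w p * fac f a g p) [(0, 0)]
      (fun ps => Ψ (ps.getD 0 [])) ∂gauss ι) - ET R (lin R) w [(0, 0)] (fun ps => Ψ (ps.getD 0 []))|)
    tendsto_const_nhds (c := K * 2 / t) (V := V) fun n => ?_
  have h' := @h (Ω × Fin (n + 1)) ι (Ix R n) _ _ _ _ R hR (fun p => w (p.map Prod.fst))
    (fun p => hw _) (fun p => a (p.map Prod.fst)) (fun p => node R q (p.map Prod.snd))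
    (fun p => ha _) (fun p => cv_node_le hq _) (fun p => Ψ (p.map Prod.fst)) t ht
  have eA : ∀ g : ι → ℝ, ET R (lin R) (fun p : List (Ω × Fin (n + 1)) =>
        w (p.map Prod.fst) * fac f (fun p => a (p.map Prod.fst)) g p) [(0, 0)]
      (fun ps => Ψ ((ps.getD 0 []).map Prod.fst)) =
      ET R (lin R) (fun p => w p * fac f a g p) [(0, 0)] (fun ps => Ψ (ps.getD 0 [])) := fun g => by
    simpa [fac] using single_mul_prod (R := R) (Λ := Fin (n + 1)) (w := fun p => w p * fac f a g p)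
      (G := fun _ => 1) (lin R) (fun p => mul_pos (hw p) (exp_pos _)) (fun _ => one_pos) Ψ
  have eB : ∀ g : Ix R n → ℝ, ET R (lin R) (fun p : List (Ω × Fin (n + 1)) =>
        w (p.map Prod.fst) * fac f (fun p => node R q (p.map Prod.snd)) g p) [(0, 0)]
      (fun ps => Ψ ((ps.getD 0 []).map Prod.fst)) =
      ET R (lin R) w [(0, 0)] (fun ps => Ψ (ps.getD 0 [])) := fun g =>
    single_mul_prod (G := fac f (node R q) g) (lin R) hw (fun p => exp_pos _) Ψ
  have eW : ET R (lin R) (fun p : List (Ω × Fin (n + 1)) => w (p.map Prod.fst)) [(0, 0)]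
      (fun ps => Ψ ((ps.getD 0 []).map Prod.fst) ^ 2) =
      ET R (lin R) w [(0, 0)] (fun ps => Ψ (ps.getD 0 []) ^ 2) := by
    simpa using single_mul_prod (R := R) (Λ := Fin (n + 1)) (w := w) (G := fun _ => 1) (lin R) hw
      (fun _ => one_pos) fun p => Ψ p ^ 2
  simp only [eA, eB, integral_const, probReal_univ, one_smul] at h'
  rw [eW] at h'
  refine h'.trans ((mul_le_mul_of_nonneg_left (add_le_add le_rfl
    (div_le_div_of_nonneg_right (adev_node hR hw hq a) ht.le)) hK).trans_eq ?_)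
  ring

lemma dev_node_prof {R n : ℕ} {q q' : ℕ → ℝ} {V : ℝ} (hq : Prof R q V) {l : ℕ} (hl : l ≤ R) :
    devOf R (fun _ : List (Fin (n + 1)) => (1:ℝ)) (cv (node R q)) q' l ≤
      |q l - q' l| + V / (n + 1) := by
  unfold devOf
  rw [Vale.Agent.P168.MP.ET_cons, Vale.Agent.P168.MP.ET_single]
  refine (Vale.Agent.P168.MP.ext_mono_on (G := fun _ => |q l - q' l| + V / (n + 1))
    (fun _ => one_pos) fun suf hs => ?_).trans_eq
    (Vale.Agent.P168.MP.ext_const (fun _ => one_pos) _ _ _)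
  simp only [List.nil_append, List.getD_cons_zero, List.singleton_append, List.getD_cons_succ]
  refine (Vale.Agent.P168.MP.ext_mono (fun _ => one_pos)
    (G := fun p' => |q l - q' l| + |cv (node R q) suf p' - q l|) fun p' => ?_).trans ?_
  · exact (abs_sub_le _ (q l) _).trans_eq (add_comm _ _)
  · rw [Vale.Agent.P168.MP.ext_add, Vale.Agent.P168.MP.ext_const (fun _ => one_pos)]
    exact add_le_add le_rfl (node_dev (lin R) hq hl hs)

lemma adev_node_prof {R n : ℕ} (hR : 1 ≤ R) {q q' : ℕ → ℝ} {V : ℝ} (hq : Prof R q V) :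
    adev R (fun _ : List (Fin (n + 1)) => (1:ℝ)) (cv (node R q)) q' ≤
      (∑ l ∈ range R, |q l - q' l|) / R + |q R - q' R| + 2 * (V / (n + 1)) := by
  have hR' : (0:ℝ) < R := Nat.cast_pos.2 hR
  have h : (∑ l ∈ range R, devOf R (fun _ : List (Fin (n + 1)) => (1:ℝ)) (cv (node R q)) q' l) / R ≤
      (∑ l ∈ range R, |q l - q' l|) / R + V / (n + 1) := by
    rw [div_add' _ _ _ hR'.ne']
    refine div_le_div_of_nonneg_right ?_ hR'.le
    refine (sum_le_sum fun l hl => dev_node_prof hq (mem_range.1 hl).le).trans_eq ?_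
    simp [sum_add_distrib, mul_comm]
  unfold adev
  linarith [dev_node_prof (n := n) (q' := q') hq (le_refl R)]

/-- Lipschitz dependence on the profile -/
theorem Phi_lip (hS : Sm f f1 f2 f3 B D) (V : ℝ) : ∃ K : ℝ, 0 ≤ K ∧
    ∀ (R : ℕ) (q q' : ℕ → ℝ), 1 ≤ R → Prof R q V → Prof R q' V →
      |Phi (fun y => exp (f y)) R (lin R) q - Phi (fun y => exp (f y)) R (lin R) q'| ≤
          K * ((∑ l ∈ range R, |q l - q' l|) / R + |q R - q' R|) ∧
      ∀ l ≤ R, |Gamma (fun y => exp (f y)) f1 R (lin R) q l - Gamma (fun y => exp (f y)) f1 R (lin R) q' l| ≤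
          K * (|q l - q' l| + (∑ j ∈ range R, |q j - q' j|) / R + |q R - q' R|) := by
  obtain ⟨K₁, hK₁, h₁⟩ := value_close hS V
  obtain ⟨K₂, hK₂, h₂⟩ := pair_close hS V
  have hf1 : Continuous f1 := continuous_iff_continuousAt.2 fun x => (hS.d1 x).continuousAt
  refine ⟨max K₁ K₂, le_max_of_le_left hK₁, fun R q q' hR hq hq' => ⟨?_, fun l hl => ?_⟩⟩
  · refine le_of_err (((node_value (adm_exp hS) (ex_lin R) hq hR).sub tendsto_const_nhds).abs)
      (c := K₁ * 2) (V := V) fun n => ?_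
    have h := @h₁ (Fin (n + 1)) (Ix R n) _ _ _ R hR (fun _ => 1) (fun _ => one_pos) (node R q)
      (fun p => cv_node_le hq p) q' hq'
    simp only [fun g : Ix R n → ℝ => nest_one (lin R) (Y := fac f (node R q) g) (fun _ => exp_pos _) R []] at h
    refine h.trans ((mul_le_mul_of_nonneg_left (adev_node_prof hR hq) hK₁).trans ?_)
    rw [mul_add, ← mul_assoc]
    exact add_le_add (mul_le_mul_of_nonneg_right (le_max_left _ _) (by positivity)) le_rfl
  · refine le_of_err (((node_pair (adm_exp hS) (ex_lin R) hq hf1 hS.b1 hl).sub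
      tendsto_const_nhds).abs) (c := K₂ * 3) (V := V) fun n => ?_
    have h := (@h₂ (Fin (n + 1)) (Ix R n) _ _ _ R hR (fun _ => 1) (fun _ => one_pos) (node R q)
      (fun p => cv_node_le hq p) q' hq' l hl (fun _ _ => 1) 1 (fun _ _ => by simp)).1
    simp only [one_mul, mul_one, Vale.Agent.P168.MP.ET_const
      (fun _ : List (Fin (n + 1)) => (one_pos : (0:ℝ) < 1))] at h
    refine h.trans ((mul_le_mul_of_nonneg_left (add_le_add (dev_node_prof hq hl)
      (adev_node_prof hR hq)) hK₂).trans ?_)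
    have := mul_le_mul_of_nonneg_right (le_max_right K₁ K₂)
      (show 0 ≤ |q l - q' l| + (∑ j ∈ range R, |q j - q' j|) / R + |q R - q' R| by positivity)
    linarith

/-- the profile of the correlations of the derivative -/
theorem Gamma_prof (hS : Sm f f1 f2 f3 B D) {R : ℕ} (_ : 1 ≤ R) {q : ℕ → ℝ} {V : ℝ} (hq : Prof R q V)
    {m : ℕ → ℝ} (hm : ∀ {Ω : Type} (w : List Ω → ℝ), (∀ p, 0 < w p) → Vale.Agent.P168.MP.Ok R m w) :
    Prof R (fun l => Gamma (fun y => exp (f y)) f1 R m q l) (D ^ 2) := by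
  have hE : Ex R m := Ex.of_ok (hm (fun _ : List Unit => (1:ℝ)) fun _ => one_pos)
  have hf1 : Continuous f1 := continuous_iff_continuousAt.2 fun x => (hS.d1 x).continuousAt
  have h := fun {l} hl => gamma_mono (adm_exp hS) hE hq hf1 hS.b1 (l := l) hl
  exact ⟨(h (Nat.zero_le R)).1, fun l hl => (h hl.le).2.2 hl, (h le_rfl).2.1⟩

/-- concentration of the overlap of the derivatives -/
theorem qconc (hS : Sm f f1 f2 f3 B D) (hB : ∀ x, f x ≤ B) : ∃ K : ℝ, 0 ≤ K ∧
    ∀ {Ω : Type} [Fintype Ω] [Nonempty Ω] {R N M : ℕ} [NeZero N] (_ : 1 ≤ R) (_ : 2 ≤ M)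
      (w₀ : List Ω → ℝ) (_ : ∀ p, 0 < w₀ p) (rd : List Ω → Fin N → Bool) {t : ℝ} (_ : 0 < t) {l : ℕ} (_ : l ≤ R),
      let w := fun (g : Fin M → Fin N → ℝ) p => w₀ p * ham f g (rd p)
      ∫ g, devOf R (w g) (qK f1 rd g) (fun l => Gamma (fun y => exp (f y)) f1 R (lin R) (qlev R (w g) rd) l) l ∂pats N M ≤
        t + K / t * ((∫ g, (devOf R (w g) (ovK rd) (qlev R (w g) rd) l + adev R (w g) (ovK rd) (qlev R (w g) rd)) ∂pats N M) + 1 / M) := by
  obtain ⟨KP, hKP, hP⟩ := pair_close hS 1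
  obtain ⟨KL, hKL, hL⟩ := Phi_lip hS 1
  exact qconc_of hS hB hKP hKL hP (fun R q q' hR hq hq' l hl => (hL R q q' hR hq hq').2 l hl)
    fun R q hR hq => Gamma_prof hS hR hq fun w hw => Vale.Agent.P168.MP.ok_lin hR hw

end Vale.Agent.P157.Par
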