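import Vale.Agent.P157.Par.Defs
import Vale.Agent.P168.MP.AttBasic

/-! Pointwise expansions and Gaussian moments for the site step. -/

open MeasureTheory ProbabilityTheory Real Finset
open Vale.Agent.P150 (gauss dot)

namespace Vale.Agent.P157.Par

variable {f f1 f2 f3 : ℝ → ℝ} {B D : ℝ}

lemma Sm.nonneg (hS : Sm f f1 f2 f3 B D) : 0 ≤ D := (abs_nonneg _).trans (hS.b1 0)

lemma Sm.cont0 (hS : Sm f f1 f2 f3 B D) : Continuous f :=
  continuous_iff_continuousAt.2 fun x => (hS.d0 x).continuousAt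

lemma Sm.cont1 (hS : Sm f f1 f2 f3 B D) : Continuous f1 :=
  continuous_iff_continuousAt.2 fun x => (hS.d1 x).continuousAt

lemma Sm.cont2 (hS : Sm f f1 f2 f3 B D) : Continuous f2 :=
  continuous_iff_continuousAt.2 fun x => (hS.d2 x).continuousAt

lemma lip_of_deriv {g g' : ℝ → ℝ} (h : ∀ x, HasDerivAt g (g' x) x) (hb : ∀ x, |g' x| ≤ D) (x y : ℝ) :
    |g x - g y| ≤ D * |x - y| := by
  simpa [Real.norm_eq_abs] using (convex_univ).norm_image_sub_le_of_norm_hasDerivWithin_le
    (fun z _ => (h z).hasDerivWithinAt) (fun z _ => hb z) (Set.mem_univ y) (Set.mem_univ x)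

/-- derivative of a function along a line -/
lemma hasDerivAt_line {g g' : ℝ → ℝ} (h : ∀ x, HasDerivAt g (g' x) x) (v e s : ℝ) :
    HasDerivAt (fun s => g (v + s * e)) (g' (v + s * e) * e) s :=
  (h _).comp s (((hasDerivAt_id s).mul_const e).const_add v |>.congr_deriv (one_mul e))

/-- first order expansion -/
lemma Sm.taylor_one (hS : Sm f f1 f2 f3 B D) (v e : ℝ) :
    |f (v + e) - f v - e * f1 v| ≤ D * e ^ 2 := by
  let F : ℕ → ℝ → ℝ
    | 0 => fun s => f (v + s * e) - f v - s * (f1 v * e)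
    | 1 => fun s => f1 (v + s * e) * e - f1 v * e
    | 2 => fun s => f2 (v + s * e) * e * e
    | _ => fun _ => 0
  have h := Vale.Agent.P168.MP.taylor_bound 1 F (B := D * e ^ 2) (t := 1) zero_le_one
    (fun j hj x _ => by
      interval_cases j
      · exact ((((hasDerivAt_line hS.d0 v e x).sub_const (f v)).sub
          ((hasDerivAt_id x).mul_const (f1 v * e))).congr_deriv (by simp [F]))
      · exact (((hasDerivAt_line hS.d1 v e x).mul_const e).sub_const (f1 v * e)).congr_deriv (by simp [F]))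
    (fun x _ => by
      simp only [F, mul_assoc, ← sq, abs_mul, abs_of_nonneg (sq_nonneg e)]
      exact mul_le_mul_of_nonneg_right (hS.b2 _) (sq_nonneg e))
    (fun j hj => by interval_cases j; simp [F])
  simpa [F, mul_comm e] using h

/-- second order expansion -/
lemma Sm.taylor_two (hS : Sm f f1 f2 f3 B D) (v e : ℝ) :
    |f (v + e) - f v - e * f1 v - e ^ 2 / 2 * f2 v| ≤ D * |e| ^ 3 := by
  let F : ℕ → ℝ → ℝ
    | 0 => fun s => f (v + s * e) - f v - s * (f1 v * e)
    | 1 => fun s => f1 (v + s * e) * e - f1 v * e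
    | 2 => fun s => f2 (v + s * e) * e * e
    | 3 => fun s => f3 (v + s * e) * e * e * e
    | _ => fun _ => 0
  have h := Vale.Agent.P168.MP.taylor_bound 2 F (B := D * |e| ^ 3) (t := 1) zero_le_one
    (fun j hj x _ => by
      interval_cases j
      · exact ((((hasDerivAt_line hS.d0 v e x).sub_const (f v)).sub
          ((hasDerivAt_id x).mul_const (f1 v * e))).congr_deriv (by simp [F]))
      · exact (((hasDerivAt_line hS.d1 v e x).mul_const e).sub_const (f1 v * e)).congr_deriv (by simp [F])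
      · exact ((((hasDerivAt_line hS.d2 v e x).mul_const e).mul_const e)).congr_deriv (by simp [F]))
    (fun x _ => by
      simp only [F, abs_mul, mul_assoc]
      refine (mul_le_mul_of_nonneg_right (hS.b3 _) (by positivity)).trans_eq ?_
      ring)
    (fun j hj => by interval_cases j <;> simp [F])
  simp [F] at h
  refine le_trans (le_of_eq ?_) h
  congr 1
  ring

/-- the effect of shrinking a field by a factor `c`, `c² + t² = 1` -/
lemma shrink {c t : ℝ} (hc : 0 ≤ c) (h : c ^ 2 + t ^ 2 = 1) :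
    |c - 1| ≤ t ^ 2 ∧ |c - 1 + t ^ 2 / 2| ≤ t ^ 2 * t ^ 2 := by
  have h1 : c ≤ 1 := by nlinarith [sq_nonneg t]
  have e : (1 - c) * (1 + c) = t ^ 2 := by linear_combination -h
  have h2 : 1 - c ≤ t ^ 2 := by nlinarith
  refine ⟨by rw [abs_le]; constructor <;> linarith [sq_nonneg t], ?_⟩
  have h4 : c - 1 + t ^ 2 / 2 = -((1 - c) * (1 - c) / 2) := by linear_combination (1 / 2 : ℝ) * h
  rw [h4, abs_neg, abs_of_nonneg (by positivity)]
  nlinarith

/-- the shrinking term of one pattern -/
lemma Sm.shrink_term (hS : Sm f f1 f2 f3 B D) {c t : ℝ} (hc : 0 ≤ c) (h : c ^ 2 + t ^ 2 = 1) (u : ℝ) :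
    |f (c * u) - f u + t ^ 2 / 2 * f2 (c * u)| ≤ t ^ 2 * D * (|u| + 1) ∧
    |f (c * u) - f u + t ^ 2 / 2 * f2 (c * u) - t ^ 2 / 2 * (f2 u - u * f1 u)| ≤
      t ^ 2 * t ^ 2 * D * (3 * u ^ 2 + 3) := by
  obtain ⟨h1, h2⟩ := shrink hc h
  have hD := hS.nonneg
  have e : c * u - u = (c - 1) * u := by ring
  have a : |f (c * u) - f u| ≤ D * (t ^ 2 * |u|) := (lip_of_deriv hS.d0 hS.b1 _ _).trans (by
    rw [e, abs_mul]; gcongr)
  constructor
  · refine (abs_add_le _ _).trans ?_
    rw [abs_mul, abs_of_nonneg (show (0:ℝ) ≤ t ^ 2 / 2 by positivity)]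
    have := mul_le_mul_of_nonneg_left (hS.b2 (c * u)) (show (0:ℝ) ≤ t ^ 2 / 2 by positivity)
    nlinarith [mul_nonneg (sq_nonneg t) hD]
  · have b := hS.taylor_one u ((c - 1) * u)
    rw [show u + (c - 1) * u = c * u by ring] at b
    have b' : |f (c * u) - f u - (c - 1) * u * f1 u| ≤ D * (t ^ 2 * t ^ 2 * u ^ 2) := by
      refine b.trans (mul_le_mul_of_nonneg_left ?_ hD)
      rw [mul_pow]
      refine mul_le_mul_of_nonneg_right ?_ (sq_nonneg u)
      rw [← sq_abs, sq]
      exact mul_le_mul h1 h1 (abs_nonneg _) (sq_nonneg t)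
    have c' : |(c - 1 + t ^ 2 / 2) * (u * f1 u)| ≤ t ^ 2 * t ^ 2 * (D * |u|) := by
      rw [abs_mul, abs_mul]
      refine mul_le_mul h2 ?_ (by positivity) (by positivity)
      rw [mul_comm]; exact mul_le_mul_of_nonneg_right (hS.b1 u) (abs_nonneg _)
    have d : |t ^ 2 / 2 * (f2 (c * u) - f2 u)| ≤ t ^ 2 * t ^ 2 * (D * |u|) := by
      rw [abs_mul, abs_of_nonneg (show (0:ℝ) ≤ t ^ 2 / 2 by positivity)]
      calc t ^ 2 / 2 * |f2 (c * u) - f2 u| ≤ t ^ 2 / 2 * (D * (t ^ 2 * |u|)) := by
            refine mul_le_mul_of_nonneg_left ((lip_of_deriv hS.d2 hS.b3 _ _).trans ?_) (by positivity)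
            rw [e, abs_mul]; gcongr
        _ ≤ _ := by nlinarith [mul_nonneg (mul_nonneg (sq_nonneg t) (sq_nonneg t)) (mul_nonneg hD (abs_nonneg u))]
    have hu : |u| ≤ u ^ 2 + 1 := by nlinarith [sq_abs u, abs_nonneg u]
    have p : 0 ≤ t ^ 2 * t ^ 2 * D := by positivity
    have := mul_le_mul_of_nonneg_left hu p
    rw [show f (c * u) - f u + t ^ 2 / 2 * f2 (c * u) - t ^ 2 / 2 * (f2 u - u * f1 u) =
      (f (c * u) - f u - (c - 1) * u * f1 u) + ((c - 1 + t ^ 2 / 2) * (u * f1 u)) +
        t ^ 2 / 2 * (f2 (c * u) - f2 u) by ring]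
    refine (abs_add_three _ _ _).trans ?_
    nlinarith [mul_nonneg p (sq_nonneg u)]

/-- `log cosh` has bounded derivatives -/
lemma sm_logcosh : Sm (fun x => log (cosh x)) (fun x => sinh x / cosh x) (fun x => 1 / cosh x ^ 2)
    (fun x => -(2 * sinh x) / cosh x ^ 3) 0 2 := by
  have hc : ∀ x, (0:ℝ) < cosh x := cosh_pos
  have hs : ∀ x, |sinh x| ≤ cosh x := fun x => by
    rw [abs_le, sinh_eq, cosh_eq]; constructor <;> linarith [exp_pos x, exp_pos (-x)]
  refine
    { d0 := fun x => (hasDerivAt_cosh x).log (hc x).ne'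
      d1 := fun x => ((hasDerivAt_sinh x).div (hasDerivAt_cosh x) (hc x).ne').congr_deriv (by
        congr 1; linear_combination cosh_sq_sub_sinh_sq x)
      d2 := fun x => (((hasDerivAt_cosh x).pow 2).inv (pow_pos (hc x) 2).ne').congr_deriv (by
        have := (hc x).ne'; field_simp; simp; ring) |>.congr_of_eventuallyEq
          (Filter.Eventually.of_forall fun y => by simp [one_div])
      cont3 := by
        exact (by fun_prop : Continuous fun x => -(2 * sinh x)).div (by fun_prop) fun x => (pow_pos (hc x) 3).ne'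
      lb := fun x => by simpa using log_nonneg (one_le_cosh x)
      b1 := fun x => by
        rw [abs_div, abs_of_pos (hc x), div_le_iff₀ (hc x)]; linarith [hs x, hc x]
      b2 := fun x => by
        have := one_le_pow₀ (n := 2) (one_le_cosh x)
        rw [abs_of_nonneg (by positivity), div_le_iff₀ (by positivity)]; linarith
      b3 := fun x => by
        have h2 := one_le_pow₀ (n := 2) (one_le_cosh x)
        rw [abs_div, abs_of_pos (pow_pos (hc x) 3), abs_neg, abs_mul, div_le_iff₀ (pow_pos (hc x) 3)]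
        calc |(2:ℝ)| * |sinh x| ≤ 2 * cosh x := by rw [abs_two]; linarith [hs x]
          _ ≤ 2 * (cosh x * cosh x ^ 2) := by nlinarith [mul_le_mul_of_nonneg_left h2 (hc x).le]
          _ = 2 * cosh x ^ 3 := by ring }

section moments
variable {ι : Type*} [Fintype ι]

/-- a Gaussian moment of order four -/
noncomputable def c4 : ℝ := ∫ z, (z ^ 2 - 1) ^ 2 ∂gaussianReal 0 1

/-- a Gaussian absolute moment of order three -/
noncomputable def c3 : ℝ := ∫ z, |z| ^ 3 ∂gaussianReal 0 1

lemma integrable_pow_gaussian (n : ℕ) : Integrable (fun z : ℝ => |z| ^ n) (gaussianReal 0 1) :=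
  (memLp_id_gaussianReal (μ := 0) (v := 1) n).integrable_norm_pow'

lemma c3_nonneg : 0 ≤ c3 := integral_nonneg fun z => by positivity

lemma c4_nonneg : 0 ≤ c4 := integral_nonneg fun z => sq_nonneg _

lemma memLp_sq_sub_one : MemLp (fun z : ℝ => z ^ 2 - 1) 2 (gaussianReal 0 1) := by
  rw [memLp_two_iff_integrable_sq (by fun_prop)]
  refine (((integrable_pow_gaussian 4).add (integrable_const (1:ℝ))).mono' (by fun_prop)
    (Filter.Eventually.of_forall fun z => ?_))
  rw [Real.norm_eq_abs, abs_of_nonneg (sq_nonneg _)]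
  simp only [Pi.add_apply]
  rw [show |z| ^ 4 = z ^ 4 from Even.pow_abs (by decide) z]
  nlinarith [sq_nonneg z, sq_nonneg (z ^ 2)]

/-- independent centred terms -/
lemma integral_sq_sum (F : ι → ℝ) :
    Integrable (fun z : ι → ℝ => (∑ a, F a * (z a ^ 2 - 1)) ^ 2) (gauss ι) ∧
    ∫ z, (∑ a, F a * (z a ^ 2 - 1)) ^ 2 ∂gauss ι = c4 * ∑ a, F a ^ 2 := by
  set X : ι → ℝ → ℝ := fun a z => F a * (z ^ 2 - 1)
  have hX : ∀ a, MemLp (X a) 2 (gaussianReal 0 1) := fun a => memLp_sq_sub_one.const_mul _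
  have hXa : ∀ a, MemLp (fun z : ι → ℝ => X a (z a)) 2 (gauss ι) := fun a =>
    (hX a).comp_measurePreserving (measurePreserving_eval _ a)
  have hsum : MemLp (fun z : ι → ℝ => ∑ a, X a (z a)) 2 (gauss ι) := memLp_finsetSum univ fun a _ => hXa a
  have h1 : ∫ z : ℝ, (z ^ 2 - 1) ∂gaussianReal 0 1 = 0 := by
    have h := variance_id_gaussianReal (μ := 0) (v := 1)
    rw [variance_eq_sub (memLp_id_gaussianReal 2)] at h
    simp only [id, integral_id_gaussianReal] at h
    have h2 : ∫ z : ℝ, z ^ 2 ∂gaussianReal 0 1 = 1 := by simpa using h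
    have hi2 : Integrable (fun z : ℝ => z ^ 2) (gaussianReal 0 1) :=
      (memLp_id_gaussianReal (μ := 0) (v := 1) 2).integrable_sq
    rw [integral_sub hi2 (integrable_const _), h2]
    simp
  have hmean : ∫ z : ι → ℝ, ∑ a, X a (z a) ∂gauss ι = 0 := by
    rw [integral_finsetSum _ fun a _ => (hXa a).integrable one_le_two]
    refine Finset.sum_eq_zero fun a _ => ?_
    rw [gauss, integral_comp_eval (i := a) (μ := fun _ : ι => gaussianReal 0 1) (hX a).aestronglyMeasurable]
    simp [X, integral_const_mul, h1]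
  refine ⟨hsum.integrable_sq, ?_⟩
  have hv := variance_sum_pi (μ := fun _ : ι => gaussianReal 0 1) hX
  rw [show (∑ a, fun z : ι → ℝ => X a (z a)) = fun z => ∑ a, X a (z a) from funext fun z => Finset.sum_apply _ _ _,
    variance_eq_sub (show MemLp _ 2 (Measure.pi fun _ : ι => gaussianReal 0 1) from hsum)] at hv
  simp only [Pi.pow_apply, gauss] at hv hmean
  rw [hmean] at hv
  simp only [zero_pow two_ne_zero, sub_zero] at hv
  simp only [gauss]
  refine hv.trans ?_
  rw [Finset.mul_sum]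
  refine Finset.sum_congr rfl fun a _ => ?_
  rw [variance_eq_sub (hX a)]
  simp only [X, Pi.pow_apply, mul_pow, integral_const_mul, h1, mul_zero, zero_pow two_ne_zero, sub_zero]
  rw [c4, mul_comm]

lemma integrable_cosh_sq (x : ι → ℝ) :
    Integrable (fun z : ι → ℝ => cosh (dot x z) ^ 2) (gauss ι) ∧
    ∫ z, cosh (dot x z) ^ 2 ∂gauss ι ≤ exp (2 * dot x x) := by
  have hi : ∀ a : ι → ℝ, Integrable (fun z => exp (dot a z)) (gauss ι) := fun a => by
    refine Vale.Agent.P150.integrable_of_bound (C := 1) (M := ∑ k, |a k|) (by unfold dot; fun_prop) fun z => ?_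
    rw [abs_exp, one_mul]
    exact exp_le_exp.2 ((le_abs_self _).trans (Vale.Agent.P150.abs_dot_le
      (fun k => Finset.single_le_sum (fun j _ => abs_nonneg (a j)) (mem_univ k)) z))
  set a : ι → ℝ := fun k => 2 * x k
  have h : ∀ z, cosh (dot x z) ^ 2 = exp (dot a z) / 4 + exp (dot (-a) z) / 4 + 1 / 2 := fun z => by
    have e : dot a z = 2 * dot x z := by simp only [dot, a, Finset.mul_sum, mul_assoc]
    have e' : dot (-a) z = -(2 * dot x z) := by rw [← e]; simp [dot]
    rw [e, e', cosh_eq, div_pow, add_sq, ← exp_nat_mul, ← exp_nat_mul, mul_assoc, ← exp_add]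
    push_cast
    rw [show dot x z + -dot x z = 0 by ring, exp_zero, mul_neg]
    ring
  have hA : (∑ k, a k ^ 2) / 2 = 2 * dot x x := by
    simp only [dot, a, Finset.mul_sum, Finset.sum_div]
    exact Finset.sum_congr rfl fun k _ => by ring
  simp only [h]
  refine ⟨(((hi a).div_const 4).add ((hi (-a)).div_const 4)).add (integrable_const _), ?_⟩
  have hab : Integrable (fun z => exp (dot a z) / 4 + exp (dot (-a) z) / 4) (gauss ι) :=
    ((hi a).div_const 4).add ((hi (-a)).div_const 4)
  rw [integral_add hab (integrable_const _),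
    integral_add ((hi a).div_const 4) ((hi (-a)).div_const 4), integral_div, integral_div,
    Vale.Agent.P150.mgf_dot, Vale.Agent.P150.mgf_dot]
  simp only [Pi.neg_apply, neg_sq, hA, integral_const, measureReal_def, measure_univ, ENNReal.toReal_one,
    smul_eq_mul, one_mul]
  have : 1 ≤ exp (2 * dot x x) := one_le_exp (by
    have : 0 ≤ dot x x := Finset.sum_nonneg fun k _ => mul_self_nonneg _
    linarith)
  linarith

lemma integral_abs_cube : Integrable (fun z : ι → ℝ => ∑ a, |z a| ^ 3) (gauss ι) ∧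
    ∫ z, ∑ a, |z a| ^ 3 ∂gauss ι = c3 * Fintype.card ι := by
  have h : ∀ a : ι, Integrable (fun z : ι → ℝ => |z a| ^ 3) (gauss ι) := fun a =>
    (measurePreserving_eval (fun _ : ι => gaussianReal 0 1) a).integrable_comp_of_integrable
      (integrable_pow_gaussian 3)
  refine ⟨integrable_finsetSum _ fun a _ => h a, ?_⟩
  rw [integral_finsetSum _ fun a _ => h a]
  simp only [gauss, fun a : ι => integral_comp_eval (μ := fun _ : ι => gaussianReal 0 1) (i := a)
    (f := fun z : ℝ => |z| ^ 3) (by fun_prop)]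
  simp [c3, mul_comm]

end moments

end Vale.Agent.P157.Par
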