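import Vale.Agent.P157.Par.InterpBase
import Vale.Agent.P157.RS.Calc
import Vale.Agent.P157.Lim.Split

/-! Derivatives of replica expectations of products of derivatives of the potential, as functions of the
finitely many field values at the leaves. -/

open MeasureTheory ProbabilityTheory Real Finset
open Vale.Agent.P150 (gauss dot)
open Vale.Agent.P168.MP
open Vale.Agent.P157.Lim (Bd Der cvec field dcov)
open Vale.Agent.P157.RS (BdT DerT Lin)

namespace Vale.Agent.P157.Par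

set_option linter.unusedSectionVars false

/-- a potential with bounded derivatives -/
structure Sd (f f1 f2 f3 : ℝ → ℝ) (D : ℝ) : Prop where
  d0 : ∀ x, HasDerivAt f (f1 x) x
  d1 : ∀ x, HasDerivAt f1 (f2 x) x
  d2 : ∀ x, HasDerivAt f2 (f3 x) x
  cont3 : Continuous f3
  b1 : ∀ x, |f1 x| ≤ D
  b2 : ∀ x, |f2 x| ≤ D
  b3 : ∀ x, |f3 x| ≤ D

variable {f f1 f2 f3 : ℝ → ℝ} {B D : ℝ}

lemma Sm.sd (h : Sm f f1 f2 f3 B D) : Sd f f1 f2 f3 D := ⟨h.d0, h.d1, h.d2, h.cont3, h.b1, h.b2, h.b3⟩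

lemma Sd.cont0 (h : Sd f f1 f2 f3 D) : Continuous f :=
  continuous_iff_continuousAt.2 fun x => (h.d0 x).continuousAt

lemma Sd.cont1 (h : Sd f f1 f2 f3 D) : Continuous f1 :=
  continuous_iff_continuousAt.2 fun x => (h.d1 x).continuousAt

lemma Sd.cont2 (h : Sd f f1 f2 f3 D) : Continuous f2 :=
  continuous_iff_continuousAt.2 fun x => (h.d2 x).continuousAt

lemma Sd.abs_le (h : Sd f f1 f2 f3 D) (x : ℝ) : |f x| ≤ |f 0| + D * |x| := by
  have h' := Convex.norm_image_sub_le_of_norm_hasDerivWithin_le (s := Set.univ) (f := f) (f' := f1) (C := D)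
    (fun y _ => (h.d0 y).hasDerivWithinAt) (fun y _ => h.b1 y) convex_univ (Set.mem_univ 0) (Set.mem_univ x)
  simp only [sub_zero, Real.norm_eq_abs] at h'
  linarith [abs_sub_abs_le_abs_sub (f x) (f 0)]

/-- derivatives of the potential by order; order `4` and above is `0` -/
def Dk (f1 f2 f3 : ℝ → ℝ) : ℕ → ℝ → ℝ
  | 0, _ => 1
  | 1, x => f1 x
  | 2, x => f2 x
  | 3, x => f3 x
  | _, _ => 0

/-- the order of the derivative -/
def nxt : ℕ → ℕ
  | 0 => 4
  | k + 1 => k + 2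

lemma hasDerivAt_Dk (h : Sd f f1 f2 f3 D) {k : ℕ} (hk : k ≠ 3) (x : ℝ) :
    HasDerivAt (Dk f1 f2 f3 k) (Dk f1 f2 f3 (nxt k) x) x :=
  match k with
  | 0 => hasDerivAt_const x 1
  | 1 => h.d1 x
  | 2 => h.d2 x
  | 3 => absurd rfl hk
  | _ + 4 => hasDerivAt_const x 0

lemma continuous_Dk (h : Sd f f1 f2 f3 D) : ∀ k, Continuous (Dk f1 f2 f3 k)
  | 0 => continuous_const
  | 1 => h.cont1
  | 2 => h.cont2
  | 3 => h.cont3
  | _ + 4 => continuous_const

lemma abs_Dk_le (h : Sd f f1 f2 f3 D) : ∀ k x, |Dk f1 f2 f3 k x| ≤ max 1 D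
  | 0, _ => by simp [Dk]
  | 1, x => (h.b1 x).trans (le_max_right _ _)
  | 2, x => (h.b2 x).trans (le_max_right _ _)
  | 3, x => (h.b3 x).trans (le_max_right _ _)
  | _ + 4, _ => by simp [Dk]

variable {Ω : Type} [Fintype Ω] [Nonempty Ω] {R : ℕ} {m : ℕ → ℝ} {w : List Ω → ℝ}

/-- the leaf of a path -/
noncomputable def idx (R : ℕ) (p : List Ω) : Fin R → Ω := fun i => p.getD i (Classical.arbitrary Ω)

omit [Fintype Ω] in
lemma ofFn_idx {p : List Ω} (hp : p.length = R) : List.ofFn (idx R p) = p := by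
  refine List.ext_getElem (by simp [hp]) fun i h1 h2 => ?_
  simp only [idx, List.getElem_ofFn]
  exact List.getD_eq_getElem _ _ h2

/-- the weight tilted by the potential at the leaves -/
noncomputable def Wz (R : ℕ) (w : List Ω → ℝ) (f : ℝ → ℝ) (z : (Fin R → Ω) → ℝ) (p : List Ω) : ℝ :=
  w p * exp (f (z (idx R p)))

/-- product of derivatives at the replicas -/
noncomputable def tv (R : ℕ) (f1 f2 f3 : ℝ → ℝ) (ks : List ℕ) (z : (Fin R → Ω) → ℝ)
    (ps : List (List Ω)) : ℝ :=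
  ∏ i ∈ range ks.length, Dk f1 f2 f3 (ks.getD i 0) (z (idx R (ps.getD i [])))

/-- the basic functional -/
noncomputable def val (R : ℕ) (m : ℕ → ℝ) (w : List Ω → ℝ) (f f1 f2 f3 : ℝ → ℝ) (T : List (ℕ × ℕ))
    (ks : List ℕ) (Ψ : List (List Ω) → ℝ) (z : (Fin R → Ω) → ℝ) : ℝ :=
  ET R m (Wz R w f z) T fun ps => Ψ ps * tv R f1 f2 f3 ks z ps

/-- a term of a derivative: coefficient, replicas, orders, the differentiated replica -/
structure Ch where
  c : ℝ
  T : List (ℕ × ℕ)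
  ks : List ℕ
  i : ℕ

/-- the terms of the derivative of `val` -/
noncomputable def chl (R : ℕ) (m : ℕ → ℝ) (T : List (ℕ × ℕ)) (ks : List ℕ) : List Ch :=
  ((List.range T.length).map fun i => ⟨1, T, ks.set i (nxt (ks.getD i 0)), i⟩) ++
    (att R m T).map fun c => ⟨c.2, c.1 :: T, ks ++ [1], T.length⟩

/-- admissible replicas and orders -/
def Good (R : ℕ) (T : List (ℕ × ℕ)) (ks : List ℕ) : Prop :=
  Valid R T ∧ ks.length = T.length ∧ ∀ k ∈ ks, k ≠ 3

lemma chl_mem {T : List (ℕ × ℕ)} {ks : List ℕ} (hT : Good R T ks) {ch : Ch} (hc : ch ∈ chl R m T ks) :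
    Valid R ch.T ∧ ch.ks.length = ch.T.length ∧ T.length ≤ ch.T.length ∧ ch.T.length ≤ T.length + 1 ∧
      ch.i < ch.T.length ∧ ((∀ k ∈ ks, k ≤ 1) → ∀ k ∈ ch.ks, k ≠ 3) := by
  obtain ⟨h1, h2, -⟩ := hT
  rcases List.mem_append.1 hc with hc | hc <;> obtain ⟨x, hx, rfl⟩ := List.mem_map.1 hc
  · refine ⟨h1, by simp [h2], le_rfl, Nat.le_succ _, List.mem_range.1 hx, fun h k hk => ?_⟩
    have hxl : x < ks.length := h2 ▸ List.mem_range.1 hx
    rcases List.mem_or_eq_of_mem_set hk with hk | rfl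
    · have := h k hk; omega
    · have := h _ (List.getElem_mem hxl)
      rw [List.getD_eq_getElem _ _ hxl]
      rcases Nat.le_one_iff_eq_zero_or_eq_one.1 this with e | e <;> simp [e, nxt]
  · refine ⟨att_valid h1 hx, by simp [h2], by simp, by simp, by simp, fun h k hk => ?_⟩
    rcases List.mem_append.1 hk with hk | hk
    · have := h k hk; omega
    · simp at hk; omega

lemma chl_good {T : List (ℕ × ℕ)} {ks : List ℕ} (hT : Good R T ks) (h1 : ∀ k ∈ ks, k ≤ 1) {ch : Ch}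
    (hc : ch ∈ chl R m T ks) : Good R ch.T ch.ks :=
  ⟨(chl_mem hT hc).1, (chl_mem hT hc).2.1, (chl_mem hT hc).2.2.2.2.2 h1⟩

lemma chl_sum (T : List (ℕ × ℕ)) (ks : List ℕ) (G : List (ℕ × ℕ) → ℝ) :
    ((chl R m T ks).map fun ch => |ch.c| * G ch.T).sum =
      T.length * G T + ((att R m T).map fun c => |c.2| * G (c.1 :: T)).sum := by
  simp [chl, Function.comp_def]

/-- directional derivative of `val` -/
noncomputable def dirD (R : ℕ) (m : ℕ → ℝ) (w : List Ω → ℝ) (f f1 f2 f3 : ℝ → ℝ) (T : List (ℕ × ℕ))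
    (ks : List ℕ) (Ψ : List (List Ω) → ℝ) (u : List Ω → ℝ) (z : (Fin R → Ω) → ℝ) : ℝ :=
  ((chl R m T ks).map fun ch =>
    ch.c * val R m w f f1 f2 f3 ch.T ch.ks (fun ps => Ψ (ps.take T.length) * u (ps.getD ch.i [])) z).sum

/-- second derivative contracted with a kernel -/
noncomputable def L2 (R : ℕ) (m : ℕ → ℝ) (w : List Ω → ℝ) (f f1 f2 f3 : ℝ → ℝ) (T : List (ℕ × ℕ))
    (ks : List ℕ) (Ψ : List (List Ω) → ℝ) (d : List Ω → List Ω → ℝ) (z : (Fin R → Ω) → ℝ) : ℝ :=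
  ((chl R m T ks).map fun ch => ch.c * ((chl R m ch.T ch.ks).map fun ch' =>
    ch'.c * val R m w f f1 f2 f3 ch'.T ch'.ks
      (fun ps => Ψ (ps.take T.length) * d (ps.getD ch'.i []) (ps.getD ch.i [])) z).sum).sum

omit [Fintype Ω] [Nonempty Ω] in
lemma supp_take {T : List (ℕ × ℕ)} {ps : List (List Ω)} (hs : Supp R T ps) : ps.take T.length = ps := by
  rw [List.take_of_length_le hs.1.le]

omit [Fintype Ω] [Nonempty Ω] in
lemma supp_concat {x : ℕ × ℕ} {T : List (ℕ × ℕ)} {ps : List (List Ω)} (hs : Supp R (x :: T) ps) :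
    ∃ qs q, ps = qs ++ [q] ∧ qs.length = T.length := by
  rcases List.eq_nil_or_concat ps with rfl | ⟨qs, q, rfl⟩
  · simp [Supp] at hs
  · exact ⟨qs, q, List.concat_eq_append, by simpa using hs.1⟩

lemma ok_Wz (hm : Ok R m w) (f : ℝ → ℝ) (z : (Fin R → Ω) → ℝ) : Ok R m (Wz R w f z) :=
  ok_reweight hm fun p => mul_pos (hm.wpos p) (exp_pos _)

lemma hasDerivAt_Wz (hS : Sd f f1 f2 f3 D) {c : ℝ → (Fin R → Ω) → ℝ} {c' : (Fin R → Ω) → ℝ} {τ : ℝ}
    (hc : ∀ s, HasDerivAt (fun x => c x s) (c' s) τ) (p : List Ω) :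
    HasDerivAt (fun x => Wz R w f (c x) p)
      (Wz R w f (c τ) p * (f1 (c τ (idx R p)) * c' (idx R p))) τ := by
  refine (((hS.d0 _).comp τ (hc _)).exp.const_mul (w p)).congr_deriv ?_
  simp only [Wz, Function.comp_apply]; ring

lemma hasDerivAt_val (hm : Ok R m w) (hS : Sd f f1 f2 f3 D) {T : List (ℕ × ℕ)} {ks : List ℕ}
    (hT : Good R T ks) (Ψ : List (List Ω) → ℝ) {c : ℝ → (Fin R → Ω) → ℝ} {c' : (Fin R → Ω) → ℝ} {τ : ℝ}
    (hc : ∀ s, HasDerivAt (fun x => c x s) (c' s) τ) :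
    HasDerivAt (fun x => val R m w f f1 f2 f3 T ks Ψ (c x))
      (dirD R m w f f1 f2 f3 T ks Ψ (fun p => c' (idx R p)) (c τ)) τ := by
  obtain ⟨hV, hl, h3⟩ := hT
  have hF : ∀ ps, HasDerivAt (fun x => Ψ ps * tv R f1 f2 f3 ks (c x) ps)
      (∑ i ∈ range T.length, Ψ ps * c' (idx R (ps.getD i [])) *
        tv R f1 f2 f3 (ks.set i (nxt (ks.getD i 0))) (c τ) ps) τ := fun ps => by
    unfold tv
    refine ((HasDerivAt.fun_finsetProd (u := range ks.length) fun i hi =>
      (hasDerivAt_Dk hS (k := ks.getD i 0) ?_ _).comp τ (hc _)).const_mul (Ψ ps)).congr_deriv ?_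
    · have hi' := mem_range.1 hi
      rw [List.getD_eq_getElem _ _ hi']; exact h3 _ (List.getElem_mem hi')
    · simp only [Function.comp_apply]
      rw [mul_sum, ← hl]
      refine sum_congr rfl fun i hi => ?_
      have hi' := mem_range.1 hi
      have e : ∏ j ∈ (range ks.length).erase i,
            Dk f1 f2 f3 ((ks.set i (nxt (ks.getD i 0))).getD j 0) (c τ (idx R (ps.getD j []))) =
          ∏ j ∈ (range ks.length).erase i, Dk f1 f2 f3 (ks.getD j 0) (c τ (idx R (ps.getD j []))) :=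
        prod_congr rfl fun j hj => by
          obtain ⟨hji, hj'⟩ := mem_erase.1 hj
          have hj'' := mem_range.1 hj'
          rw [List.getD_eq_getElem (ks.set i _) _ (by simpa using hj''), List.getElem_set_ne (Ne.symm hji),
            List.getD_eq_getElem _ _ hj'']
      rw [List.length_set, ← mul_prod_erase (range ks.length) _ hi, e,
        List.getD_eq_getElem (ks.set i _) _ (by simpa using hi'), List.getElem_set_self, smul_eq_mul]
      ring
  refine (hasDerivAt_ET (ok_Wz hm f (c τ)) (hasDerivAt_Wz hS hc) hV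
    (F := fun x ps => Ψ ps * tv R f1 f2 f3 ks (c x) ps) fun ps _ => hF ps).congr_deriv ?_
  rw [add_comm, dirD, chl, List.map_append, List.sum_append, List.map_map, List.map_map, ET_sum]
  refine congrArg₂ (· + ·) ?_ (congrArg List.sum (List.map_congr_left fun x hx => ?_))
  · rw [show ∀ g : ℕ → ℝ, ((List.range T.length).map g).sum = ∑ i ∈ range T.length, g i from fun g => rfl]
    refine sum_congr rfl fun i _ => ?_
    simp only [Function.comp_apply, one_mul, val]
    exact ET_congr hV fun ps hs => by rw [supp_take hs]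
  · simp only [Function.comp_apply, val]
    congr 1
    refine ET_congr (att_valid hV hx) fun ps hs => ?_
    obtain ⟨qs, q, rfl, hq⟩ := supp_concat hs
    rw [List.dropLast_concat, List.getLastD_concat, List.take_left' hq,
      List.getD_append_right _ _ _ _ hq.le, show T.length - qs.length = 0 by omega, List.getD_cons_zero]
    simp only [tv, List.length_append, List.length_singleton, prod_range_succ]
    rw [List.getD_append_right _ _ _ _ le_rfl, Nat.sub_self, List.getD_cons_zero,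
      List.getD_append_right _ _ _ _ (by omega : qs.length ≤ ks.length),
      show ks.length - qs.length = 0 by omega, List.getD_cons_zero]
    have e : ∏ i ∈ range ks.length, Dk f1 f2 f3 ((ks ++ [1]).getD i 0) (c τ (idx R ((qs ++ [q]).getD i []))) =
        ∏ i ∈ range ks.length, Dk f1 f2 f3 (ks.getD i 0) (c τ (idx R (qs.getD i []))) :=
      prod_congr rfl fun i hi => by
        rw [List.getD_append _ _ _ _ (mem_range.1 hi),
          List.getD_append _ _ _ _ (show i < qs.length by have := mem_range.1 hi; omega)]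
    rw [e]
    simp only [Dk]; ring

open Classical in
/-- the indicator of a leaf -/
noncomputable def dl (v : Fin R → Ω) (p : List Ω) : ℝ := if idx R p = v then 1 else 0

lemma val_sum {α : Type*} (s : Finset α) (T : List (ℕ × ℕ)) (ks : List ℕ) (F : α → List (List Ω) → ℝ)
    (c : α → ℝ) (z : (Fin R → Ω) → ℝ) :
    ∑ v ∈ s, val R m w f f1 f2 f3 T ks (F v) z * c v =
      val R m w f f1 f2 f3 T ks (fun ps => ∑ v ∈ s, F v ps * c v) z := by
  simp only [val, sum_mul, ET_sum, ← ET_mul_const]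
  exact sum_congr rfl fun v _ => congrArg _ (funext fun ps => by ring)

lemma dirD_sum (T : List (ℕ × ℕ)) (ks : List ℕ) (Ψ : List (List Ω) → ℝ) (c : (Fin R → Ω) → ℝ)
    (z : (Fin R → Ω) → ℝ) :
    ∑ v, dirD R m w f f1 f2 f3 T ks Ψ (dl v) z * c v =
      dirD R m w f f1 f2 f3 T ks Ψ (fun p => c (idx R p)) z := by
  simp only [dirD, ← List.sum_map_mul_right]
  rw [← list_sum_map_finset_sum]
  refine congrArg List.sum (List.map_congr_left fun ch _ => ?_)
  simp only [mul_assoc, ← mul_sum, val_sum]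
  simp [dl]

lemma der_val (hm : Ok R m w) (hS : Sd f f1 f2 f3 D) {T : List (ℕ × ℕ)} {ks : List ℕ}
    (hT : Good R T ks) (Ψ : List (List Ω) → ℝ) :
    Der (val R m w f f1 f2 f3 T ks Ψ) (fun v => dirD R m w f f1 f2 f3 T ks Ψ (dl v)) :=
  fun c c' τ hc => (hasDerivAt_val hm hS hT Ψ hc).congr_deriv (dirD_sum T ks Ψ c' (c τ)).symm

lemma der_list_sum {S α : Type*} [Fintype S] (L : List α) {F : α → (S → ℝ) → ℝ}
    {G : α → S → (S → ℝ) → ℝ} (h : ∀ a ∈ L, Der (F a) (G a)) :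
    Der (fun z => (L.map fun a => F a z).sum) (fun v z => (L.map fun a => G a v z).sum) := by
  induction L with
  | nil => simpa using Der.const (S := S) 0
  | cons a L ih =>
    simp only [List.map_cons, List.sum_cons]
    exact (h a List.mem_cons_self).add (ih fun b hb => h b (List.mem_cons_of_mem _ hb))

/-- second derivative -/
noncomputable def H2 (R : ℕ) (m : ℕ → ℝ) (w : List Ω → ℝ) (f f1 f2 f3 : ℝ → ℝ) (T : List (ℕ × ℕ))
    (ks : List ℕ) (Ψ : List (List Ω) → ℝ) (v u : Fin R → Ω) (z : (Fin R → Ω) → ℝ) : ℝ :=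
  ((chl R m T ks).map fun ch => ch.c * dirD R m w f f1 f2 f3 ch.T ch.ks
    (fun ps => Ψ (ps.take T.length) * dl v (ps.getD ch.i [])) (dl u) z).sum

lemma der_dirD (hm : Ok R m w) (hS : Sd f f1 f2 f3 D) {T : List (ℕ × ℕ)} {ks : List ℕ}
    (hT : Good R T ks) (h1 : ∀ k ∈ ks, k ≤ 1) (Ψ : List (List Ω) → ℝ) (v : Fin R → Ω) :
    Der (dirD R m w f f1 f2 f3 T ks Ψ (dl v)) (fun u => H2 R m w f f1 f2 f3 T ks Ψ v u) := by
  refine der_list_sum _ fun ch hc => ?_
  intro c c' τ h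
  refine ((der_val hm hS (chl_good hT h1 hc) _ c c' τ h).const_mul ch.c).congr_deriv ?_
  simp [mul_sum, mul_assoc]

/-! ### regularity -/

lemma exists_bound_supp (T : List (ℕ × ℕ)) (Ψ : List (List Ω) → ℝ) :
    ∃ C, 0 ≤ C ∧ ∀ ps, Supp R T ps → |Ψ ps| ≤ C := by
  refine ⟨∑ s : Fin T.length → Fin R → Ω, |Ψ (List.ofFn fun i => List.ofFn (s i))|, by positivity,
    fun ps hs => ?_⟩
  refine le_trans (le_of_eq (congrArg _ (congrArg Ψ ?_)))
    (single_le_sum (f := fun s : Fin T.length → Fin R → Ω => |Ψ (List.ofFn fun i => List.ofFn (s i))|)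
      (fun _ _ => abs_nonneg _) (mem_univ fun i : Fin T.length => idx R (ps.getD i.1 [])))
  refine List.ext_getElem (by simp [hs.1]) fun i h1 h2 => ?_
  have hi : i < T.length := hs.1 ▸ h1
  have := hs.2.1 i hi
  simp only [List.getElem_ofFn]
  rw [List.getD_eq_getElem _ _ h1] at this ⊢
  exact (ofFn_idx this).symm

omit [Fintype Ω] [Nonempty Ω] in
lemma getD_take {n i : ℕ} (h : i < n) (l : List (List Ω)) : (l.take n).getD i [] = l.getD i [] := by
  simp [List.getD_eq_getElem?_getD, List.getElem?_take_of_lt h]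

lemma abs_tv_le (hS : Sd f f1 f2 f3 D) (ks : List ℕ) (z : (Fin R → Ω) → ℝ) (ps : List (List Ω)) :
    |tv R f1 f2 f3 ks z ps| ≤ max 1 D ^ ks.length := by
  rw [tv, abs_prod]
  exact (Finset.prod_le_prod (fun i _ => abs_nonneg _) fun i _ => abs_Dk_le hS _ _).trans_eq (by simp)

lemma continuous_Wz (hS : Sd f f1 f2 f3 D) (p : List Ω) : Continuous fun z => Wz R w f z p :=
  continuous_const.mul (continuous_exp.comp (hS.cont0.comp (continuous_apply _)))

lemma bd_val (hm : Ok R m w) (hS : Sd f f1 f2 f3 D) {T : List (ℕ × ℕ)} (hT : Valid R T) (ks : List ℕ)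
    (Ψ : List (List Ω) → ℝ) : Bd (val R m w f f1 f2 f3 T ks Ψ) := by
  refine ⟨continuous_ET (continuous_Wz hS) (fun z => (ok_Wz hm f z).wpos) R T fun ps =>
    continuous_const.mul (continuous_finsetProd _ fun i _ => (continuous_Dk hS _).comp (continuous_apply _)), ?_⟩
  obtain ⟨C, hC0, hC⟩ := exists_bound_supp (R := R) T Ψ
  refine ⟨C * max 1 D ^ ks.length, fun z => (ET_abs_le (ok_Wz hm f z).wpos _ _).trans ?_⟩
  refine (ET_mono_on (ok_Wz hm f z).wpos hT (G := fun _ => C * max 1 D ^ ks.length) fun ps hs => ?_).trans_eq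
    (ET_const (ok_Wz hm f z).wpos T _)
  rw [abs_mul]
  exact mul_le_mul (hC ps hs) (abs_tv_le hS _ _ _) (abs_nonneg _) hC0

lemma bd_list_sum {S α : Type*} [Fintype S] (L : List α) {F : α → (S → ℝ) → ℝ} (h : ∀ a ∈ L, Bd (F a)) :
    Bd (fun z => (L.map fun a => F a z).sum) := by
  induction L with
  | nil => simpa using Bd.const (S := S) 0
  | cons a L ih =>
    simp only [List.map_cons, List.sum_cons]
    exact (h a List.mem_cons_self).add (ih fun b hb => h b (List.mem_cons_of_mem _ hb))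

lemma bd_dirD (hm : Ok R m w) (hS : Sd f f1 f2 f3 D) {T : List (ℕ × ℕ)} {ks : List ℕ}
    (hT : Good R T ks) (Ψ : List (List Ω) → ℝ) (u : List Ω → ℝ) :
    Bd (dirD R m w f f1 f2 f3 T ks Ψ u) :=
  bd_list_sum _ fun _ hc => (Bd.const _).mul (bd_val hm hS (chl_mem hT hc).1 _ _)

lemma bd_H2 (hm : Ok R m w) (hS : Sd f f1 f2 f3 D) {T : List (ℕ × ℕ)} {ks : List ℕ}
    (hT : Good R T ks) (h1 : ∀ k ∈ ks, k ≤ 1) (Ψ : List (List Ω) → ℝ) (v u : Fin R → Ω) :
    Bd (H2 R m w f f1 f2 f3 T ks Ψ v u) :=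
  bd_list_sum _ fun _ hc => (Bd.const _).mul (bd_dirD hm hS (chl_good hT h1 hc) _ _)

lemma bd_L2 (hm : Ok R m w) (hS : Sd f f1 f2 f3 D) {T : List (ℕ × ℕ)} {ks : List ℕ}
    (hT : Good R T ks) (h1 : ∀ k ∈ ks, k ≤ 1) (Ψ : List (List Ω) → ℝ) (d : List Ω → List Ω → ℝ) :
    Bd (L2 R m w f f1 f2 f3 T ks Ψ d) :=
  bd_list_sum _ fun _ hc => (Bd.const _).mul (bd_list_sum _ fun _ hc' =>
    (Bd.const _).mul (bd_val hm hS (chl_mem (chl_good hT h1 hc) hc').1 _ _))

lemma lin_logZ0 (hm : Ok R m w) (hS : Sd f f1 f2 f3 D) :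
    Lin (fun (_ : ℝ) z => logZ0 R m (Wz R w f z)) := by
  have hp := fun z => (ok_Wz hm f z).wpos
  refine ⟨(Continuous.log (continuous_Z (continuous_Wz hS) hp R []) fun z =>
    (Z_pos (hp z) R []).ne').comp continuous_snd, |logZ0 R m w| + |f 0| + D, fun _ z => ?_⟩
  have hD : 0 ≤ D := (abs_nonneg _).trans (hS.b1 0)
  set M := |f 0| + D * ∑ v, |z v|
  have hb : ∀ q : List Ω, exp (-M) ≤ exp (f (z (idx R q))) ∧ exp (f (z (idx R q))) ≤ exp M := fun q => by
    have h := (hS.abs_le (z (idx R q))).trans (add_le_add le_rfl (mul_le_mul_of_nonneg_left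
      (single_le_sum (f := fun v => |z v|) (fun _ _ => abs_nonneg _) (mem_univ (idx R q))) hD))
    rw [abs_le] at h
    exact ⟨exp_le_exp.2 h.1, exp_le_exp.2 h.2⟩
  have e := logZ0_mul (R := R) (m := m) hm.wpos (Y := fun q => exp (f (z (idx R q)))) fun q => exp_pos _
  obtain ⟨h1, h2⟩ := nest_mem hm (exp_pos (-M)) (fun q _ => hb q) R [] (by simp)
  have hl1 := log_le_log (exp_pos _) h1
  have hl2 := log_le_log (lt_of_lt_of_le (exp_pos _) h1) h2
  rw [log_exp] at hl1 hl2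
  have hs : 0 ≤ ∑ v, |z v| := sum_nonneg fun _ _ => abs_nonneg _
  have habs : |logZ0 R m (Wz R w f z)| ≤ |logZ0 R m w| + M := by
    rw [show Wz R w f z = fun q => w q * exp (f (z (idx R q))) from rfl]
    refine abs_le.2 ⟨?_, ?_⟩ <;> linarith [le_abs_self (logZ0 R m w), neg_abs_le (logZ0 R m w)]
  refine habs.trans ?_
  nlinarith [abs_nonneg (logZ0 R m w), abs_nonneg (f 0)]

lemma derT_logZ0 (hm : Ok R m w) (hS : Sd f f1 f2 f3 D) :
    DerT (fun (_ : ℝ) z => logZ0 R m (Wz R w f z)) (fun _ _ => 0)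
      (fun v _ => val R m w f f1 f2 f3 [(0, 0)] [1] fun ps => dl v (ps.getD 0 [])) := by
  intro c c' τ _ hc
  refine (hasDerivAt_logZ0 (ok_Wz hm f (c τ)) (hasDerivAt_Wz hS hc)).congr_deriv ?_
  rw [zero_add, val_sum, val]
  congr 1; funext ps
  simp [tv, dl, Dk]; ring

/-- the two kernels agree on the support -/
lemma dcov_idx {ι κ : Type} [Fintype ι] [Fintype κ] (a : List Ω → ι → ℝ) (b : List Ω → κ → ℝ)
    {p q : List Ω} (hp : p.length = R) (hq : q.length = R) :
    dcov (fun s : Fin R → Ω => a (List.ofFn s)) (fun s : Fin R → Ω => b (List.ofFn s)) (idx R p) (idx R q) =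
      dd a b p q := by
  simp [dcov, dd, cv, ofFn_idx hp, ofFn_idx hq]

lemma sum_dl (d : (Fin R → Ω) → (Fin R → Ω) → ℝ) (p q : List Ω) :
    ∑ v, ∑ u, d u v * (dl v p * dl u q) = d (idx R q) (idx R p) := by
  simp [dl]

lemma sum_dcov_H2 {ι κ : Type} [Fintype ι] [Fintype κ] (a : List Ω → ι → ℝ)
    (b : List Ω → κ → ℝ) {T : List (ℕ × ℕ)} {ks : List ℕ} (hT : Good R T ks) (h1 : ∀ k ∈ ks, k ≤ 1)
    (Ψ : List (List Ω) → ℝ) (z : (Fin R → Ω) → ℝ) :
    ∑ v, ∑ u, dcov (fun s : Fin R → Ω => a (List.ofFn s)) (fun s : Fin R → Ω => b (List.ofFn s)) u v *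
        H2 R m w f f1 f2 f3 T ks Ψ v u z =
      L2 R m w f f1 f2 f3 T ks Ψ (dd a b) z := by
  simp only [H2, L2, dirD, ← List.sum_map_mul_left, ← list_sum_map_finset_sum]
  refine congrArg List.sum (List.map_congr_left fun ch hc => ?_)
  refine congrArg List.sum (List.map_congr_left fun ch' hc' => ?_)
  obtain ⟨hV', -, -, -, hi', -⟩ := chl_mem (chl_good hT h1 hc) hc'
  obtain ⟨-, -, hn, -, hi, -⟩ := chl_mem hT hc
  obtain ⟨-, -, hn', -, -, -⟩ := chl_mem (chl_good hT h1 hc) hc'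
  simp only [val, ← ET_const_mul, ← ET_sum]
  refine ET_congr hV' fun ps hs => ?_
  simp only [getD_take hi, List.take_take, min_eq_left hn]
  rw [← dcov_idx a b (hs.2.1 _ hi') (hs.2.1 _ (by omega)),
    ← sum_dl (dcov (fun s : Fin R → Ω => a (List.ofFn s)) fun s : Fin R → Ω => b (List.ofFn s))
      (ps.getD ch.i []) (ps.getD ch'.i []), mul_sum, sum_mul, mul_sum, mul_sum]
  refine sum_congr rfl fun v _ => ?_
  simp only [mul_sum, sum_mul]
  exact sum_congr rfl fun u _ => by ring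

/-! ### along the interpolation -/

variable {ι κ : Type} [Fintype ι] [Fintype κ]

/-- the field at the leaves along the interpolation -/
noncomputable def zt (R : ℕ) (a : List Ω → ι → ℝ) (b : List Ω → κ → ℝ) (t : ℝ) (g : ι ⊕ κ → ℝ) :
    (Fin R → Ω) → ℝ :=
  field (fun s : Fin R → Ω => a (List.ofFn s)) (fun s : Fin R → Ω => b (List.ofFn s)) t g

omit [Fintype Ω] in
lemma zt_idx (a : List Ω → ι → ℝ) (b : List Ω → κ → ℝ) (t : ℝ) (g : ι ⊕ κ → ℝ) {p : List Ω}
    (hp : p.length = R) : zt R a b t g (idx R p) = dot (cvec a b t p) g := by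
  simp [zt, field, cvec, ofFn_idx hp]

/-- the field at the leaves of a family of coefficient vectors -/
noncomputable def zA (R : ℕ) (c : List Ω → ι → ℝ) (g : ι → ℝ) : (Fin R → Ω) → ℝ :=
  fun s => dot (c (List.ofFn s)) g

lemma val_zA (c : List Ω → ι → ℝ) (g : ι → ℝ) {T : List (ℕ × ℕ)} (hT : Valid R T) {ks : List ℕ}
    (hl : ks.length = T.length) (Ψ : List (List Ω) → ℝ) :
    val R m w f f1 f2 f3 T ks Ψ (zA R c g) =
      ET R m (fun p => w p * fac f c g p) T fun ps =>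
        Ψ ps * ∏ i ∈ range ks.length, Dk f1 f2 f3 (ks.getD i 0) (dot (c (ps.getD i [])) g) := by
  rw [val, ET_congr_weight hT (w' := fun p => w p * fac f c g p) fun q hq => by
    simp [Wz, fac, zA, ofFn_idx hq]]
  refine ET_congr hT fun ps hs => ?_
  simp only [tv]
  congr 1
  refine prod_congr rfl fun i hi => ?_
  rw [zA, ofFn_idx (hs.2.1 i (hl ▸ mem_range.1 hi))]

lemma zt_eq (a : List Ω → ι → ℝ) (b : List Ω → κ → ℝ) (t : ℝ) (g : ι ⊕ κ → ℝ) :
    zt R a b t g = zA R (fun p => cvec a b t p) g := rfl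

lemma logZ0_zt (hm : Ok R m w) (a : List Ω → ι → ℝ) (b : List Ω → κ → ℝ) (t : ℝ) (g : ι ⊕ κ → ℝ) :
    log (nest m w (fac f (fun p => cvec a b t p) g) R []) =
      logZ0 R m (Wz R w f (zt R a b t g)) - logZ0 R m w := by
  rw [show fac f (fun p => cvec a b t p) g = fun p => exp (f (dot (cvec a b t p) g)) from rfl,
    ← logZ0_mul hm.wpos fun p => exp_pos _]
  congr 1
  exact logZ0_congr fun q hq => by simp [Wz, zt_idx a b t g hq]

/-- derivative of an expectation -/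
theorem interp_val (hm : Ok R m w) (hS : Sd f f1 f2 f3 D) (a : List Ω → ι → ℝ) (b : List Ω → κ → ℝ)
    {T : List (ℕ × ℕ)} {ks : List ℕ} (hT : Good R T ks) (h1 : ∀ k ∈ ks, k ≤ 1) (Ψ : List (List Ω) → ℝ) :
    ContinuousOn (fun t => ∫ g, val R m w f f1 f2 f3 T ks Ψ (zt R a b t g) ∂gauss (ι ⊕ κ)) (Set.Icc 0 1) ∧
      ∀ t ∈ Set.Ioo (0:ℝ) 1,
        HasDerivAt (fun t => ∫ g, val R m w f f1 f2 f3 T ks Ψ (zt R a b t g) ∂gauss (ι ⊕ κ))
          (1 / 2 * ∫ g, L2 R m w f f1 f2 f3 T ks Ψ (dd a b) (zt R a b t g) ∂gauss (ι ⊕ κ)) t := by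
  set A := fun s : Fin R → Ω => a (List.ofFn s)
  set A' := fun s : Fin R → Ω => b (List.ofFn s)
  have hB : ∀ {F : ((Fin R → Ω) → ℝ) → ℝ}, Bd F → BdT (fun (_ : ℝ) z => F z) := fun h =>
    ⟨h.1.comp continuous_snd, h.2.choose, fun _ z => h.2.choose_spec z⟩
  have hL := (hB (bd_val hm hS hT.1 ks Ψ)).lin
  refine ⟨Vale.Agent.P157.RS.continuousOn_lin A A' hL, fun t ht => ?_⟩
  refine (Vale.Agent.P157.RS.interpT A A' hL (Ht := fun _ _ => 0)
    (fun c c' τ _ hc => (der_val hm hS hT Ψ c c' τ hc).congr_deriv (by simp)) (BdT.const 0)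
    (fun v => hB (bd_dirD hm hS hT Ψ (dl v))) (fun _ v => der_dirD hm hS hT h1 Ψ v)
    (fun v u => hB (bd_H2 hm hS hT h1 Ψ v u)) ht.1 ht.2).congr_deriv ?_
  have hi : ∀ v u, Integrable (fun g => dcov A A' u v * H2 R m w f f1 f2 f3 T ks Ψ v u (field A A' t g))
      (gauss (ι ⊕ κ)) := fun v u => (Vale.Agent.P157.Lim.integrable_Bd A A' (bd_H2 hm hS hT h1 Ψ v u) t).const_mul _
  rw [integral_zero, zero_add]
  congr 1
  simp only [← integral_const_mul, ← integral_finsetSum _ fun u (_ : u ∈ univ) => hi _ u,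
    ← integral_finsetSum _ fun v (_ : v ∈ univ) => integrable_finsetSum _ fun u _ => hi v u]
  exact integral_congr_ae (Filter.Eventually.of_forall fun g => sum_dcov_H2 a b hT h1 Ψ _)

/-- derivative of the value -/
theorem interp_log (hm : Ok R m w) (hS : Sd f f1 f2 f3 D) (a : List Ω → ι → ℝ) (b : List Ω → κ → ℝ) :
    ContinuousOn (fun t => ∫ g, log (nest m w (fac f (fun p => cvec a b t p) g) R []) ∂gauss (ι ⊕ κ))
        (Set.Icc 0 1) ∧
      (∀ {U : List (ℕ × ℕ)} (ks : List ℕ), Valid R U → ∀ Ψ : List (List Ω) → ℝ,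
        ContinuousOn (fun t => ∫ g, val R m w f f1 f2 f3 U ks Ψ (zt R a b t g) ∂gauss (ι ⊕ κ)) (Set.Icc 0 1)) ∧
      ∀ t ∈ Set.Ioo (0:ℝ) 1,
        HasDerivAt (fun t => ∫ g, log (nest m w (fac f (fun p => cvec a b t p) g) R []) ∂gauss (ι ⊕ κ))
          (1 / 2 * ∫ g, ((chl R m [(0, 0)] [1]).map fun ch => ch.c * val R m w f f1 f2 f3 ch.T ch.ks
            (fun ps => dd a b (ps.getD ch.i []) (ps.getD 0 [])) (zt R a b t g)).sum ∂gauss (ι ⊕ κ)) t := by
  set A := fun s : Fin R → Ω => a (List.ofFn s)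
  set A' := fun s : Fin R → Ω => b (List.ofFn s)
  have hB : ∀ {F : ((Fin R → Ω) → ℝ) → ℝ}, Bd F → BdT (fun (_ : ℝ) z => F z) := fun h =>
    ⟨h.1.comp continuous_snd, h.2.choose, fun _ z => h.2.choose_spec z⟩
  have hT : Good R [(0, 0)] [1] := ⟨⟨rfl, rfl⟩, rfl, by simp⟩
  have hL := lin_logZ0 hm hS
  have hL' : Lin (fun (_ : ℝ) z => logZ0 R m (Wz R w f z) - logZ0 R m w) := by
    obtain ⟨hc, C, hC⟩ := hL
    refine ⟨hc.sub continuous_const, C + |logZ0 R m w|, fun s z => ?_⟩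
    refine (abs_sub _ _).trans ?_
    rw [add_mul]
    exact add_le_add (hC s z) (le_mul_of_one_le_right (abs_nonneg _)
      (le_add_of_nonneg_right (sum_nonneg fun _ _ => abs_nonneg _)))
  simp only [logZ0_zt hm]
  refine ⟨Vale.Agent.P157.RS.continuousOn_lin A A' hL', fun ks hU Ψ =>
    Vale.Agent.P157.RS.continuousOn_lin A A' (hB (bd_val hm hS hU ks Ψ)).lin, fun t ht => ?_⟩
  refine (Vale.Agent.P157.RS.interpT A A' hL'
    (fun c c' τ hτ hc => (derT_logZ0 hm hS c c' τ hτ hc).sub_const _) (BdT.const 0)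
    (fun v => hB (bd_val hm hS hT.1 _ _)) (fun _ v => der_val hm hS hT _)
    (fun v u => hB (bd_dirD hm hS hT _ _)) ht.1 ht.2).congr_deriv ?_
  have hi : ∀ v u, Integrable (fun g => dcov A A' u v * dirD R m w f f1 f2 f3 [(0, 0)] [1]
      (fun ps => dl v (ps.getD 0 [])) (dl u) (field A A' t g))
      (gauss (ι ⊕ κ)) := fun v u => (Vale.Agent.P157.Lim.integrable_Bd A A' (bd_dirD hm hS hT _ _) t).const_mul _
  rw [integral_zero, zero_add]
  congr 1
  simp only [← integral_const_mul, ← integral_finsetSum _ fun u (_ : u ∈ univ) => hi _ u,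
    ← integral_finsetSum _ fun v (_ : v ∈ univ) => integrable_finsetSum _ fun u _ => hi v u]
  refine integral_congr_ae (Filter.Eventually.of_forall fun g => ?_)
  simp only [dirD, ← List.sum_map_mul_left, ← list_sum_map_finset_sum]
  refine congrArg List.sum (List.map_congr_left fun ch hc => ?_)
  obtain ⟨hV, -, hn, -, hi, -⟩ := chl_mem hT hc
  simp only [val, zt, ← ET_const_mul, ← ET_sum]
  refine ET_congr hV fun ps hs => ?_
  simp only [getD_take (show 0 < [((0:ℕ), (0:ℕ))].length by simp)]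
  rw [← dcov_idx a b (hs.2.1 _ hi) (hs.2.1 0 (by omega)),
    ← sum_dl (dcov A A') (ps.getD 0 []) (ps.getD ch.i []), sum_mul, mul_sum]
  refine sum_congr rfl fun v _ => ?_
  simp only [mul_sum, sum_mul]
  exact sum_congr rfl fun u _ => by ring

end Vale.Agent.P157.Par
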