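import Vale.Agent.P157.Par.Node
import Vale.Agent.P157.Par.Basics

/-! Limits of the node functionals as the number of labels tends to infinity. -/

open MeasureTheory ProbabilityTheory Real Finset Filter
open scoped Topology
open Vale.Agent.P150 (gauss dot l1)
open Vale.Agent.P168.MP (lin ET ext trans Z avg ext_succ ext_bound Z_pos)

namespace Vale.Agent.P157.Par

/-- the node weight -/
noncomputable def nodeW (e : ℝ → ℝ) (R : ℕ) (q : ℕ → ℝ) {n : ℕ} (g : Ix R n → ℝ)
    (p : List (Fin (n + 1))) : ℝ := e (dot (node R q p) g)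

variable {e h F : ℝ → ℝ} {a A D C : ℝ} {R : ℕ} {m q : ℕ → ℝ} {V : ℝ}

lemma nodeW_pos (he : Adm e a A D) {n : ℕ} (g : Ix R n → ℝ) (p : List (Fin (n + 1))) :
    0 < nodeW e R q g p := he.a_pos.trans_le (he.lb _)

lemma Z_GR (he : Adm e a A D) (hm : Ex R m) (hq : Prof R q V) {n : ℕ} :
    ∀ (k : ℕ) (pre : List (Fin (n + 1))), pre.length + k ≤ R → ∀ g : Ix R n → ℝ,
      a ≤ Z m (nodeW e R q g) k pre ∧ Z m (nodeW e R q g) k pre ≤ A * exp (D * √V * l1 g)
  | 0, pre, _, g => by
    refine ⟨he.lb _, (he.ub _).trans (mul_le_mul_of_nonneg_left (exp_le_exp.2 ?_)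
      (zero_le_one.trans he.A_ge))⟩
    rw [mul_assoc D]
    refine mul_le_mul_of_nonneg_left (Vale.Agent.P150.abs_dot_le (fun k => ?_) g) he.D_nonneg
    refine abs_le_sqrt ((le_of_eq (sq _)).trans (le_trans ?_ (cv_node_le hq pre)))
    exact single_le_sum (f := fun k => node R q pre k * node R q pre k)
      (fun k _ => mul_self_nonneg _) (mem_univ k)
  | k + 1, pre, hk, g => by
    have ih := fun o => Z_GR he hm hq k (pre ++ [o]) (by simp; omega) g
    set M := m (pre.length + 1)
    have hM : 0 < M := hm.pos _ (by omega) (by omega)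
    have hav : 0 < avg fun o => Z m (nodeW e R q g) k (pre ++ [o]) ^ M :=
      Vale.Agent.P168.MP.avg_pos fun o => rpow_pos_of_pos (he.a_pos.trans_le (ih o).1) _
    show a ≤ (avg fun o => Z m (nodeW e R q g) k (pre ++ [o]) ^ M) ^ (1 / M) ∧
      (avg fun o => Z m (nodeW e R q g) k (pre ++ [o]) ^ M) ^ (1 / M) ≤ _
    have hA : 0 ≤ A * exp (D * √V * l1 g) := by have := he.A_ge; positivity
    have hc : (0:ℝ) < Fintype.card (Fin (n + 1)) := Nat.cast_pos.2 Fintype.card_pos
    have key : ∀ x : ℝ, 0 ≤ x → x = (avg fun _ : Fin (n + 1) => x ^ M) ^ (1 / M) := fun x hx => by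
      rw [Vale.Agent.P168.MP.avg_const, one_div, rpow_rpow_inv hx hM.ne']
    constructor
    · exact (key a he.a_pos.le).trans_le (rpow_le_rpow (div_nonneg (sum_nonneg fun _ _ =>
        rpow_nonneg he.a_pos.le _) hc.le) (div_le_div_of_nonneg_right (sum_le_sum fun o _ =>
        rpow_le_rpow he.a_pos.le (ih o).1 hM.le) hc.le) (by positivity))
    · exact (rpow_le_rpow hav.le (div_le_div_of_nonneg_right (sum_le_sum fun o _ =>
        rpow_le_rpow (he.a_pos.le.trans (ih o).1) (ih o).2 hM.le) hc.le)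
        (by positivity)).trans_eq (key _ hA).symm

lemma nodeW_cont (he : Adm e a A D) {n : ℕ} (p : List (Fin (n + 1))) :
    Continuous fun g : Ix R n → ℝ => nodeW e R q g p :=
  he.cont.comp (continuous_dot_left _)

lemma Z_cont (he : Adm e a A D) {n k : ℕ} (p : List (Fin (n + 1))) :
    Continuous fun g : Ix R n → ℝ => Z m (nodeW e R q g) k p :=
  continuous_Z (nodeW_cont he) (fun g p => nodeW_pos he g p) k p

/-- the tilting factor at level `R - k` -/
noncomputable def nodeS (e : ℝ → ℝ) (R : ℕ) (m q : ℕ → ℝ) {n : ℕ} (k : ℕ) (g : Ix R n → ℝ)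
    (p : List (Fin (n + 1))) : ℝ := Z m (nodeW e R q g) k p ^ m (R - k)

/-- its limit -/
noncomputable def limS (e : ℝ → ℝ) (R : ℕ) (m q : ℕ → ℝ) (k : ℕ) (y : ℝ) : ℝ :=
  Vn e R m q k y ^ m (R - k)

lemma limS_adm (he : Adm e a A D) (hm : Ex R m) (q : ℕ → ℝ) {k : ℕ} (hk : k < R) :
    ∃ A', Adm (limS e R m q k) a A' D :=
  (Vn_adm he hm q k hk.le).imp fun _ h => h.rpow (hm.mem hk).1.le (hm.mem hk).2

lemma nodeS_spec (he : Adm e a A D) (hm : Ex R m) (hq : Prof R q V) {n k : ℕ}
    {p : List (Fin (n + 1))} (hk : k < R) (hp : p.length + k ≤ R) :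
    (∀ g, a ≤ nodeS e R m q k g p ∧ nodeS e R m q k g p ≤ A * exp (D * √V * l1 g)) ∧
      GR fun g => nodeS e R m q k g p := by
  have hb := Z_GR he hm hq k p hp
  obtain ⟨h0, h1⟩ := hm.mem hk
  have h : ∀ g, a ≤ nodeS e R m q k g p ∧ nodeS e R m q k g p ≤ A * exp (D * √V * l1 g) := fun g =>
    ⟨le_rpow he.a_pos he.a_le (hb g).1 h0.le h1, rpow_le_max (he.a_pos.le.trans (hb g).1) (hb g).2
      (one_le_mul_of_one_le_of_one_le he.A_ge (one_le_exp (mul_nonneg
        (mul_nonneg he.D_nonneg (sqrt_nonneg _)) (Vale.Agent.P150.l1_nonneg g)))) h0.le h1⟩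
  exact ⟨h, (Z_cont he p).rpow_const fun g => Or.inr h0.le, A, D * √V, fun g =>
    (abs_of_nonneg (he.a_pos.le.trans (h g).1)).trans_le (h g).2⟩

lemma avgS_spec (he : Adm e a A D) (hm : Ex R m) (hq : Prof R q V) {n k : ℕ} {pre : List (Fin (n + 1))}
    (hp : pre.length + 1 + k ≤ R) :
    (∀ g, a ≤ avg fun o => nodeS e R m q k g (pre ++ [o])) ∧
      GR fun g => avg fun o => nodeS e R m q k g (pre ++ [o]) := by
  have h := fun o => nodeS_spec he hm hq (n := n) (k := k) (p := pre ++ [o]) (by omega) (by simp; omega)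
  have hc : (0:ℝ) ≤ Fintype.card (Fin (n + 1)) := Nat.cast_nonneg _
  have hlo : ∀ g, a ≤ avg fun o => nodeS e R m q k g (pre ++ [o]) := fun g =>
    (Vale.Agent.P168.MP.avg_const (Ω := Fin (n + 1)) a).symm.trans_le
      (div_le_div_of_nonneg_right (sum_le_sum fun o _ => ((h o).1 g).1) hc)
  refine ⟨hlo, (continuous_finsetSum _ fun o _ => (h o).2.1).div_const _, A, D * √V, fun g => ?_⟩
  rw [abs_of_nonneg (he.a_pos.le.trans (hlo g))]
  exact (div_le_div_of_nonneg_right (sum_le_sum fun o _ => ((h o).1 g).2) hc).trans_eq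
    (Vale.Agent.P168.MP.avg_const (Ω := Fin (n + 1)) _)

lemma ext_cont (he : Adm e a A D) {n k : ℕ} {G : List (Fin (n + 1)) → (Ix R n → ℝ) → ℝ}
    (hG : ∀ p, Continuous (G p)) (j : ℕ) (pre : List (Fin (n + 1))) :
    Continuous fun g => ext m (fun p => Z m (nodeW e R q g) k p) j pre fun p => G p g :=
  continuous_ext (fun p => Z_cont he p) (fun g p => Z_pos (fun p => nodeW_pos he g p) k p) j pre hG

/-! ### vanishing errors -/

/-- the mean error at the prefixes of length `l` tends to zero -/
def Van (R l : ℕ) (X : (n : ℕ) → List (Fin (n + 1)) → (Ix R n → ℝ) → ℝ) : Prop :=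
  ∀ ε > 0, ∃ N, ∀ n ≥ N, ∀ pre : List (Fin (n + 1)), pre.length = l →
    ∫ g, |X n pre g| ∂gauss (Ix R n) ≤ ε

variable {l : ℕ} {X Y Y' : (n : ℕ) → List (Fin (n + 1)) → (Ix R n → ℝ) → ℝ}

lemma Van.of_le (hY : Van R l Y) (hg : ∀ n pre, pre.length = l → GR (Y n pre)) {c : ℝ} (hc : 0 ≤ c)
    (h : ∀ n pre g, pre.length = l → |X n pre g| ≤ c * |Y n pre g|) : Van R l X := by
  intro ε hε
  obtain ⟨N, hN⟩ := hY (ε / (c + 1)) (div_pos hε (by linarith))
  refine ⟨N, fun n hn pre hp => ?_⟩
  refine (integral_mono_of_nonneg (Eventually.of_forall fun _ => abs_nonneg _)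
    ((hg n pre hp).int.abs.const_mul c) (Eventually.of_forall fun g => h n pre g hp)).trans ?_
  rw [integral_const_mul]
  calc c * _ ≤ c * (ε / (c + 1)) := mul_le_mul_of_nonneg_left (hN n hn pre hp) hc
    _ ≤ (c + 1) * (ε / (c + 1)) := by gcongr; linarith
    _ = ε := by field_simp

lemma Van.of_le₂ (hY : Van R l Y) (hY' : Van R l Y') (hg : ∀ n pre, pre.length = l → GR (Y n pre))
    (hg' : ∀ n pre, pre.length = l → GR (Y' n pre)) {c : ℝ} (hc : 0 ≤ c)
    (h : ∀ n pre g, pre.length = l → |X n pre g| ≤ c * (|Y n pre g| + |Y' n pre g|)) :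
    Van R l X := by
  intro ε hε
  obtain ⟨N, hN⟩ := hY (ε / (2 * (c + 1))) (div_pos hε (by linarith))
  obtain ⟨N', hN'⟩ := hY' (ε / (2 * (c + 1))) (div_pos hε (by linarith))
  refine ⟨max N N', fun n hn pre hp => ?_⟩
  have i1 := (hg n pre hp).int.abs
  have i2 := (hg' n pre hp).int.abs
  refine (integral_mono_of_nonneg (Eventually.of_forall fun _ => abs_nonneg _)
    ((i1.add i2).const_mul c) (Eventually.of_forall fun g => h n pre g hp)).trans ?_
  rw [integral_const_mul, integral_add' i1 i2]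
  calc c * _ ≤ c * (ε / (2 * (c + 1)) + ε / (2 * (c + 1))) := by
        gcongr
        · exact hN n (le_trans (le_max_left _ _) hn) pre hp
        · exact hN' n (le_trans (le_max_right _ _) hn) pre hp
    _ ≤ (c + 1) * (ε / (2 * (c + 1)) + ε / (2 * (c + 1))) := by gcongr; linarith
    _ = ε := by field_simp; ring

/-- averaging over the children of a node -/
lemma van_avg (hq : Prof R q V) (hh : EG h) (hl : l < R) (hX : Van R (l + 1)
      fun n p g => X n p g - h (dot (node R q p) g))
    (hXg : ∀ n p, p.length = l + 1 → GR (X n p)) :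
    Van R l fun n pre g => avg (fun o => X n (pre ++ [o]) g) -
      ∫ z, h (dot (node R q pre) g + cst q (l + 1) * z) ∂gaussianReal 0 1 := by
  obtain ⟨K, hK⟩ := lln hq hh hl
  intro ε hε
  obtain ⟨N, hN⟩ := hX (ε / 2) (by linarith)
  obtain ⟨N', hN'⟩ := exists_nat_ge (K / (ε / 4) / (ε / 4))
  refine ⟨max N N', fun n hn pre hp => ?_⟩
  have hhg : ∀ u : Ix R n → ℝ, GR fun g : Ix R n → ℝ => h (dot u g) := fun u => GR.dot hh u
  have i1 : ∀ o, Integrable (fun g => |X n (pre ++ [o]) g - h (dot (node R q (pre ++ [o])) g)|)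
      (gauss (Ix R n)) := fun o => (((hXg n _ (by simp [hp])).sub (hhg _)).int).abs
  have i1s : Integrable (fun g => avg fun o =>
      |X n (pre ++ [o]) g - h (dot (node R q (pre ++ [o])) g)|) (gauss (Ix R n)) :=
    (integrable_finsetSum _ fun o _ => i1 o).div_const _
  have i2 : Integrable (fun g => |avg (fun o => h (dot (node R q (pre ++ [o])) g)) -
      ∫ z, h (dot (node R q pre) g + cst q (l + 1) * z) ∂gaussianReal 0 1|) (gauss (Ix R n)) :=
    (((integrable_finsetSum _ fun o _ => (hhg _).int).div_const _).sub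
      (GR.dot (hh.conv _) _).int).abs
  refine (integral_mono_of_nonneg (Eventually.of_forall fun _ => abs_nonneg _) (i1s.add i2)
    (Eventually.of_forall fun g => ?_)).trans ?_
  · simp only [Pi.add_apply, avg]
    refine (abs_sub_le _ ((∑ o, h (dot (node R q (pre ++ [o])) g)) /
      (Fintype.card (Fin (n + 1)) : ℝ)) _).trans (add_le_add ?_ le_rfl)
    rw [← sub_div, ← sum_sub_distrib, abs_div, Nat.abs_cast]
    exact div_le_div_of_nonneg_right (abs_sum_le_sum_abs _ _) (Nat.cast_nonneg _)
  · rw [integral_add' i1s i2]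
    have h1 : ∫ g, avg (fun o => |X n (pre ++ [o]) g - h (dot (node R q (pre ++ [o])) g)|)
        ∂gauss (Ix R n) ≤ ε / 2 := by
      simp only [avg, integral_div, integral_finsetSum _ fun o _ => i1 o]
      rw [div_le_iff₀ (Nat.cast_pos.2 Fintype.card_pos)]
      refine (sum_le_sum fun o _ => hN n (le_trans (le_max_left _ _) hn) _ (by simp [hp])).trans ?_
      simp [mul_comm]
    have hn' : K / (ε / 4) / (ε / 4) ≤ n + 1 := hN'.trans (by
      have : N' ≤ n := le_trans (le_max_right _ _) hn
      have : (N':ℝ) ≤ n := by exact_mod_cast this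
      linarith)
    have h2 : K / (ε / 4) / (n + 1) ≤ ε / 4 := by
      rw [div_le_iff₀ (by positivity)]
      calc K / (ε / 4) = K / (ε / 4) / (ε / 4) * (ε / 4) := by field_simp
        _ ≤ (n + 1) * (ε / 4) := by gcongr
        _ = _ := mul_comm _ _
    linarith [hK n pre hp (ε / 4) (by linarith)]

lemma cst_eq {k : ℕ} (hk : k < R) :
    √(q (R - k) - q (R - (k + 1))) = cst q (R - (k + 1) + 1) := by
  simp only [cst]; rw [show R - (k + 1) + 1 = R - k by omega]

lemma van_Q_of (he : Adm e a A D) (hm : Ex R m) (hq : Prof R q V) {k : ℕ} (hk : k < R)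
    (hS : Van R (R - k) fun n p g => nodeS e R m q k g p - limS e R m q k (dot (node R q p) g)) :
    Van R (R - (k + 1)) fun n pre g => avg (fun o => nodeS e R m q k g (pre ++ [o])) -
      ∫ z, limS e R m q k (dot (node R q pre) g + √(q (R - k) - q (R - (k + 1))) * z)
        ∂gaussianReal 0 1 := by
  obtain ⟨A', hV⟩ := limS_adm he hm q (k := k) (by omega)
  rw [cst_eq hk]
  refine van_avg (X := fun n p g => nodeS e R m q k g p) hq hV.eg (by omega) ?_
    fun n p hp => (nodeS_spec he hm hq hk (by omega)).2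
  rwa [show R - (k + 1) + 1 = R - k by omega]

lemma van_S (he : Adm e a A D) (hm : Ex R m) (hq : Prof R q V) : ∀ k, k < R →
    Van R (R - k) fun n p g => nodeS e R m q k g p - limS e R m q k (dot (node R q p) g)
  | 0, _ => fun ε hε => ⟨0, fun n _ pre _ => by simp [nodeS, limS, Z, Vn, nodeW, hε.le]⟩
  | k + 1, hk => by
    have hkR : k < R := by omega
    obtain ⟨A', hV⟩ := limS_adm he hm q (k := k) (by omega)
    set M := m (R - k)
    set M' := m (R - (k + 1))
    have hM : 0 < M := (hm.mem hkR).1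
    have hM' : 0 ≤ M' := (hm.mem hk).1.le
    have hle : M' ≤ M := by
      simp only [M, M', show R - k = R - (k + 1) + 1 by omega]
      exact hm.mono _ (by omega) (by omega)
    set p := 1 / M * M'
    have hp0 : 0 ≤ p := by positivity
    have hp1 : p ≤ 1 := by
      rw [show p = M' / M by simp only [p]; ring]
      exact div_le_one_of_le₀ hle hM.le
    set c := √(q (R - k) - q (R - (k + 1)))
    refine (van_Q_of he hm hq hkR (van_S he hm hq k hkR)).of_le ?_ (one_div_nonneg.2 he.a_pos.le) ?_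
    · intro n pre hpre
      exact (avgS_spec he hm hq (by omega)).2.sub (GR.dot (hV.eg.conv c) _)
    · intro n pre g hpre
      have hb : a ≤ avg fun o => nodeS e R m q k g (pre ++ [o]) :=
        (avgS_spec he hm hq (by omega)).1 g
      have hB : a ≤ ∫ z, limS e R m q k (dot (node R q pre) g + c * z) ∂gaussianReal 0 1 :=
        hV.int_pos _ _
      have e1 : nodeS e R m q (k + 1) g pre = (avg fun o => nodeS e R m q k g (pre ++ [o])) ^ p := by
        rw [nodeS, Z, show pre.length + 1 = R - k by omega]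
        exact (rpow_mul (he.a_pos.le.trans hb) (1 / M) M').symm
      have e2 : limS e R m q (k + 1) (dot (node R q pre) g) =
          (∫ z, limS e R m q k (dot (node R q pre) g + c * z) ∂gaussianReal 0 1) ^ p := by
        rw [limS, Vn]
        exact (rpow_mul (he.a_pos.le.trans hB) (1 / M) M').symm
      rw [e1, e2]
      exact (rpow_sub_le he.a_pos he.a_le hb hB hp0 hp1).trans_eq (by ring)

/-- one tilted step -/
lemma van_step (he : Adm e a A D) (hm : Ex R m) (hq : Prof R q V) {k : ℕ} (hk : k < R)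
    {G : (n : ℕ) → List (Fin (n + 1)) → (Ix R n → ℝ) → ℝ} (hF : Continuous F)
    (hFb : ∀ y, |F y| ≤ C) (hGc : ∀ n p, p.length = R - k → Continuous (G n p))
    (hGb : ∀ n p g, |G n p g| ≤ C)
    (hG : Van R (R - k) fun n p g => G n p g - F (dot (node R q p) g)) :
    Van R (R - (k + 1)) fun n pre g =>
      avg (fun o => nodeS e R m q k g (pre ++ [o]) * G n (pre ++ [o]) g) /
        avg (fun o => nodeS e R m q k g (pre ++ [o])) - tl e R m q k F (dot (node R q pre) g) := by
  obtain ⟨A', hV⟩ := limS_adm he hm q (k := k) (by omega)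
  have hC : 0 ≤ C := (abs_nonneg _).trans (hFb 0)
  obtain ⟨-, A₂, M₂, -, hA₂⟩ := hV.eg.sq
  have hVF : Van R (R - k) fun n p g =>
      nodeS e R m q k g p * G n p g - limS e R m q k (dot (node R q p) g) * F (dot (node R q p) g) := by
    intro ε hε
    set K := 2 * A₂ * exp (M₂ ^ 2 * V / 2)
    have hK : 0 ≤ K := by
      have : 0 ≤ A₂ := nonneg_of_mul_nonneg_left ((abs_nonneg _).trans (hA₂ 0)) (exp_pos _)
      positivity
    set t := ε / (3 * (K + 1)) with htdef
    have ht : 0 < t := by positivity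
    obtain ⟨N, hN⟩ := van_S he hm hq k hk (ε / (3 * (C + 1))) (by positivity)
    obtain ⟨N', hN'⟩ := hG (ε / (3 * (2 * C / (4 * t) + 1))) (by positivity)
    refine ⟨max N N', fun n hn p hp => ?_⟩
    have hs := nodeS_spec he hm hq (n := n) (k := k) (p := p) hk (by omega)
    have i1 : Integrable (fun g => |nodeS e R m q k g p - limS e R m q k (dot (node R q p) g)|)
        (gauss (Ix R n)) := (hs.2.sub (GR.dot hV.eg _)).int.abs
    have i2 := (GR.dot hV.eg.sq (node R q p)).int
    have i3 : Integrable (fun g => |G n p g - F (dot (node R q p) g)|) (gauss (Ix R n)) :=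
      (Integrable.of_bound ((hGc n p hp).sub (GR.dot (EG.of_bound hF hFb) _).1).aestronglyMeasurable
        (2 * C) (Eventually.of_forall fun g => (abs_sub _ _).trans
          (by linarith [hGb n p g, hFb (dot (node R q p) g)]))).abs
    refine (integral_mono_of_nonneg (Eventually.of_forall fun _ => abs_nonneg _)
      (((i1.const_mul C).add (i2.const_mul t)).add (i3.const_mul (2 * C / (4 * t))))
      (Eventually.of_forall fun g => ?_)).trans ?_
    · simp only [Pi.add_apply]
      set S := nodeS e R m q k g p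
      set v := limS e R m q k (dot (node R q p) g)
      set x := G n p g - F (dot (node R q p) g)
      have hx : |x| ≤ 2 * C :=
        (abs_sub _ _).trans (by linarith [hGb n p g, hFb (dot (node R q p) g)])
      have hy : |v * x| ≤ t * v ^ 2 + 2 * C / (4 * t) * |x| := by
        have : |v * x| ≤ t * v ^ 2 + x ^ 2 / (4 * t) := by
          rw [← sub_nonneg, show t * v ^ 2 + x ^ 2 / (4 * t) - |v * x| =
            (2 * t * |v| - |x|) ^ 2 / (4 * t) by
              rw [abs_mul, ← sq_abs v, ← sq_abs x]; field_simp; ring]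
          positivity
        refine this.trans (add_le_add le_rfl ?_)
        rw [div_mul_eq_mul_div, ← sq_abs, sq]
        gcongr
      rw [show S * G n p g - v * F (dot (node R q p) g) = (S - v) * G n p g + v * x by ring,
        add_assoc]
      refine (abs_add_le _ _).trans (add_le_add ?_ hy)
      rw [abs_mul, mul_comm]
      exact mul_le_mul_of_nonneg_right (hGb n p g) (abs_nonneg _)
    · rw [integral_add' ((i1.const_mul C).add (i2.const_mul t)) (i3.const_mul _),
        integral_add' (i1.const_mul C) (i2.const_mul t), integral_const_mul, integral_const_mul,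
        integral_const_mul]
      have h2 := moment_dot hA₂ (cv_node_le hq p)
      simp only [abs_pow, sq_abs] at h2
      have b1 : C * ∫ g, |nodeS e R m q k g p - limS e R m q k (dot (node R q p) g)| ∂gauss (Ix R n) ≤
          ε / 3 := by
        calc _ ≤ (C + 1) * (ε / (3 * (C + 1))) :=
              mul_le_mul (by linarith) (hN n (le_trans (le_max_left _ _) hn) p hp)
                (integral_nonneg fun _ => abs_nonneg _) (by linarith)
          _ = _ := by field_simp
      have b2 : t * ∫ g, limS e R m q k (dot (node R q p) g) ^ 2 ∂gauss (Ix R n) ≤ ε / 3 := by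
        calc _ ≤ t * (K + 1) := mul_le_mul_of_nonneg_left (by linarith) ht.le
          _ = _ := by rw [htdef]; field_simp
      have b3 : 2 * C / (4 * t) *
          ∫ g, |G n p g - F (dot (node R q p) g)| ∂gauss (Ix R n) ≤ ε / 3 := by
        have : 0 ≤ 2 * C / (4 * t) := by positivity
        calc _ ≤ (2 * C / (4 * t) + 1) * (ε / (3 * (2 * C / (4 * t) + 1))) :=
              mul_le_mul (by linarith) (hN' n (le_trans (le_max_right _ _) hn) p hp)
                (integral_nonneg fun _ => abs_nonneg _) (by linarith)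
          _ = _ := by field_simp
      linarith
  set c := √(q (R - k) - q (R - (k + 1)))
  have h1 : Van R (R - (k + 1)) fun n pre g =>
      avg (fun o => nodeS e R m q k g (pre ++ [o]) * G n (pre ++ [o]) g) -
        ∫ z, limS e R m q k (dot (node R q pre) g + c * z) * F (dot (node R q pre) g + c * z)
          ∂gaussianReal 0 1 := by
    simp only [c, cst_eq hk]
    refine van_avg (X := fun n p g => nodeS e R m q k g p * G n p g) hq (hV.eg.mul_bdd hF hFb)
      (by omega) ?_ fun n p hp => ?_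
    · rwa [show R - (k + 1) + 1 = R - k by omega]
    · exact (nodeS_spec he hm hq hk (by omega)).2.mul_bdd (hGc n p (by omega)) (hGb n p)
  have h2 := van_Q_of he hm hq hk (van_S he hm hq k hk)
  refine h1.of_le₂ h2 ?_ ?_ (c := (1 + C) / a) (by have := he.a_pos; positivity) ?_
  · intro n pre hp
    refine GR.sub ⟨(continuous_finsetSum _ fun o _ => ((nodeS_spec he hm hq hk
      (by simp; omega)).2.mul_bdd (hGc n _ (by simp; omega)) (hGb n _)).1).div_const _, ?_⟩
      (GR.dot ((hV.eg.mul_bdd hF hFb).conv c) _)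
    refine ⟨A * C, D * √V, fun g => ?_⟩
    simp only [avg, abs_div, Nat.abs_cast]
    rw [div_le_iff₀ (Nat.cast_pos.2 Fintype.card_pos)]
    refine (abs_sum_le_sum_abs _ _).trans ((sum_le_sum (g := fun _ => A * exp (D * √V * l1 g) * C)
      fun o _ => ?_).trans_eq (by simp; ring))
    have hs := (nodeS_spec he hm hq (n := n) (k := k) (p := pre ++ [o]) (by omega) (by simp; omega)).1 g
    rw [abs_mul, abs_of_nonneg (he.a_pos.le.trans hs.1)]
    exact mul_le_mul hs.2 (hGb n _ g) (abs_nonneg _) ((he.a_pos.le.trans hs.1).trans hs.2)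
  · intro n pre hp
    exact (avgS_spec he hm hq (by omega)).2.sub (GR.dot (hV.eg.conv c) _)
  · intro n pre g hp
    have hb : a ≤ avg fun o => nodeS e R m q k g (pre ++ [o]) :=
      (avgS_spec he hm hq (by omega)).1 g
    have hB : 0 < ∫ z, limS e R m q k (dot (node R q pre) g + c * z) ∂gaussianReal 0 1 :=
      he.a_pos.trans_le (hV.int_pos _ _)
    refine (div_sub_div_le (C := C) he.a_pos hb hB ((tl_prop he hm q hk hF hFb).2 _)).trans ?_
    rw [div_mul_eq_mul_div]
    refine div_le_div_of_nonneg_right ?_ he.a_pos.le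
    have h0 : ∀ x y : ℝ, 0 ≤ x → 0 ≤ y → x + C * y ≤ (1 + C) * (x + y) := fun x y hx hy => by
      nlinarith [mul_nonneg hC hx]
    exact h0 _ _ (abs_nonneg _) (abs_nonneg _)

/-- several tilted steps -/
lemma van_ext (he : Adm e a A D) (hm : Ex R m) (hq : Prof R q V) (k : ℕ)
    {G : (n : ℕ) → List (Fin (n + 1)) → (Ix R n → ℝ) → ℝ} (hF : Continuous F)
    (hFb : ∀ y, |F y| ≤ C) (hGc : ∀ n p, Continuous (G n p))
    (hGb : ∀ n p g, |G n p g| ≤ C)
    (hG : Van R (R - k) fun n p g => G n p g - F (dot (node R q p) g)) :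
    ∀ j, k + j ≤ R → Van R (R - (k + j)) fun n pre g =>
      ext m (fun p => Z m (nodeW e R q g) k p) j pre (fun p => G n p g) -
        tlN e R m q k j F (dot (node R q pre) g)
  | 0, _ => by simpa [tlN] using hG
  | j + 1, hj => by
    have ih := van_ext he hm hq k hF hFb hGc hGb hG j (by omega)
    have hpos : ∀ n (g : Ix R n → ℝ) p, 0 < Z m (nodeW e R q g) k p :=
      fun n g p => Z_pos (fun p => nodeW_pos he g p) k p
    have hj' := tlN_prop he hm q k hF hFb j (by omega)
    have := van_step he hm hq (k := k + j) (by omega) hj'.1 hj'.2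
      (G := fun n p g => ext m (fun p => Z m (nodeW e R q g) k p) j p fun p => G n p g)
      (fun n p _ => ext_cont he (hGc n) j p)
      (fun n p g => ext_bound (hpos n g) fun p => hGb n p g) ih
    intro ε hε
    obtain ⟨N, hN⟩ := this ε hε
    refine ⟨N, fun n hn pre hp => le_trans (le_of_eq ?_) (hN n hn pre (by omega))⟩
    refine integral_congr_ae (Eventually.of_forall fun g => ?_)
    have hl : m (pre.length + 1) = m (R - (k + j)) := by congr 1; omega
    have hc : ((Fintype.card (Fin (n + 1)) : ℕ) : ℝ) ≠ 0 := Nat.cast_ne_zero.2 Fintype.card_ne_zero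
    simp only [ext_succ, Vale.Agent.P168.MP.trans, Vale.Agent.P168.MP.Z_Z, add_comm j k, hl, nodeS, avg,
      tlN, div_mul_eq_mul_div]
    rw [div_div_div_cancel_right₀ hc, sum_div]

/-- passing to the integrals -/
lemma tend_of_van {X : (n : ℕ) → List (Fin (n + 1)) → (Ix R n → ℝ) → ℝ} {Y : ℝ → ℝ} (hY : EG Y)
    (hX : ∀ n, GR (X n [])) (hv : Van R 0 fun n p g => X n p g - Y (dot (node R q p) g)) :
    Tendsto (fun n => ∫ g, X n [] g ∂gauss (Ix R n)) atTop
      (𝓝 (∫ z, Y (√(q 0) * z) ∂gaussianReal 0 1)) := by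
  have e : ∀ n, ∫ g, Y (dot (node R q ([] : List (Fin (n + 1)))) g) ∂gauss (Ix R n) =
      ∫ z, Y (√(q 0) * z) ∂gaussianReal 0 1 := fun n => by
    have hd : ∀ g : Ix R n → ℝ, dot (node R q ([] : List (Fin (n + 1)))) g =
        √(q 0) * g (key []) := fun g => by simp [dot, node, cst, ite_mul]
    simp only [hd]
    have hm := measurePreserving_eval (fun _ : Ix R n => gaussianReal 0 1) (key [])
    rw [gauss]
    conv_rhs => rw [← hm.map_eq]
    exact (integral_map (f := fun z => Y (√(q 0) * z)) hm.measurable.aemeasurable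
      (hY.1.comp (by fun_prop)).aestronglyMeasurable).symm
  refine Metric.tendsto_atTop.2 fun ε hε => ?_
  obtain ⟨N, hN⟩ := hv (ε / 2) (by linarith)
  refine ⟨N, fun n hn => ?_⟩
  rw [Real.dist_eq, ← e n, ← integral_sub (hX n).int (GR.dot hY _).int]
  exact (abs_integral_le_integral_abs.trans (hN n hn [] rfl)).trans_lt (by linarith)

/-- the value of the node field tends to `Phi` -/
theorem node_value (he : Adm e a A D) (hm : Ex R m) (hq : Prof R q V) (hR : 1 ≤ R) :
    Tendsto (fun n => ∫ g, log (Z m (nodeW e R q g) R ([] : List (Fin (n + 1))))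
      ∂gauss (Ix R n)) atTop (𝓝 (Phi e R m q)) := by
  obtain ⟨k, rfl⟩ : ∃ k, R = k + 1 := ⟨R - 1, by omega⟩
  obtain ⟨A₁, hN⟩ := Vn_adm he hm q (k + 1) le_rfl
  obtain ⟨A', hV⟩ := limS_adm he hm q (k := k) (by omega)
  have hlog : ∀ x, a ≤ x → |log x| ≤ x + 1 / a := fun x hx => by
    have hx0 : 0 < x := he.a_pos.trans_le hx
    have h1 := log_le_sub_one_of_pos hx0
    have h2 := log_le_sub_one_of_pos (inv_pos.2 hx0)
    rw [log_inv] at h2
    have h3 : x⁻¹ ≤ 1 / a := by rw [one_div]; exact inv_anti₀ he.a_pos hx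
    have h4 : 0 ≤ 1 / a := by have := he.a_pos; positivity
    exact abs_le.2 ⟨by linarith, by linarith⟩
  have hY : EG fun y => log (Vn e (k + 1) m q (k + 1) y) := by
    refine ⟨hN.cont.log fun y => (he.a_pos.trans_le (hN.lb y)).ne', A₁ + 1 / a, D, he.D_nonneg,
      fun y => (hlog _ (hN.lb y)).trans ?_⟩
    rw [add_mul]
    exact add_le_add (hN.ub y) (le_mul_of_one_le_right (by have := he.a_pos; positivity)
      (one_le_exp (mul_nonneg he.D_nonneg (abs_nonneg y))))
  refine tend_of_van (X := fun n p g => log (Z m (nodeW e (k + 1) q g) (k + 1) p))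
    hY (fun n => ?_) ?_
  · have hb := Z_GR he hm hq (n := n) (k + 1) [] (by simp)
    refine ⟨(Z_cont he _).log fun g => (he.a_pos.trans_le (hb g).1).ne', A + 1 / a, D * √V,
      fun g => (hlog _ (hb g).1).trans ?_⟩
    rw [add_mul]
    exact add_le_add (hb g).2 (le_mul_of_one_le_right (by have := he.a_pos; positivity)
      (one_le_exp (mul_nonneg (mul_nonneg he.D_nonneg (sqrt_nonneg _))
        (Vale.Agent.P150.l1_nonneg g))))
  · have hv := van_Q_of he hm hq (Nat.lt_succ_self k) (van_S he hm hq k (Nat.lt_succ_self k))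
    rw [Nat.sub_self] at hv
    have hmp : 0 < m (k + 1 - k) := (hm.mem (Nat.lt_succ_self k)).1
    set c := √(q (k + 1 - k) - q 0)
    refine hv.of_le ?_ (c := 1 / m (k + 1 - k) / a)
      (by have := he.a_pos; positivity) ?_
    · intro n pre hp
      exact (avgS_spec he hm hq (by omega)).2.sub (GR.dot (hV.eg.conv c) _)
    · intro n pre g hp
      have hb : a ≤ avg fun o => nodeS e (k + 1) m q k g (pre ++ [o]) :=
        (avgS_spec he hm hq (by omega)).1 g
      have hB : a ≤ ∫ z, limS e (k + 1) m q k (dot (node (k + 1) q pre) g + c * z)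
          ∂gaussianReal 0 1 := hV.int_pos _ _
      have e1 : log (Z m (nodeW e (k + 1) q g) (k + 1) pre) =
          1 / m (k + 1 - k) * log (avg fun o => nodeS e (k + 1) m q k g (pre ++ [o])) := by
        rw [Z, show pre.length + 1 = k + 1 - k by omega, log_rpow]
        · rfl
        · exact he.a_pos.trans_le hb
      have e2 : log (Vn e (k + 1) m q (k + 1) (dot (node (k + 1) q pre) g)) =
          1 / m (k + 1 - k) *
            log (∫ z, limS e (k + 1) m q k (dot (node (k + 1) q pre) g + c * z) ∂gaussianReal 0 1) := by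
        rw [Vn, Nat.sub_self, log_rpow]
        · rfl
        · exact he.a_pos.trans_le hB
      rw [e1, e2, ← mul_sub, abs_mul, abs_of_pos (one_div_pos.2 hmp),
        show ∀ m x : ℝ, 1 / m / a * x = 1 / m * (x / a) from fun m x => by ring]
      refine mul_le_mul_of_nonneg_left ?_ (one_div_pos.2 hmp).le
      have aux : ∀ x y, a ≤ x → a ≤ y → log x - log y ≤ |x - y| / a := fun x y hx hy => by
        have hy0 := he.a_pos.trans_le hy
        rw [← log_div (he.a_pos.trans_le hx).ne' hy0.ne']
        refine (log_le_sub_one_of_pos (div_pos (he.a_pos.trans_le hx) hy0)).trans ?_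
        rw [div_sub_one hy0.ne']
        exact (div_le_div_of_nonneg_right (le_abs_self _) hy0.le).trans
          (div_le_div_of_nonneg_left (abs_nonneg _) he.a_pos hy)
      refine abs_le.2 ⟨?_, aux _ _ hb hB⟩
      have := aux _ _ hB hb
      rw [abs_sub_comm] at this
      linarith

variable {n : ℕ}

lemma pair_eq {Ω : Type*} [Fintype Ω] [Nonempty Ω] {w : List Ω → ℝ}
    (Fn : List Ω → ℝ) {l : ℕ} (hl : l ≤ R) :
    ET R m w [(0, l), (0, 0)] (fun ps => Fn (ps.getD 0 []) * Fn (ps.getD 1 [])) =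
      ext m (fun p => Z m w (R - l) p) l []
        (fun r => ext m w (R - l) r Fn ^ 2) := by
  rw [Vale.Agent.P168.MP.ET_cons, Vale.Agent.P168.MP.ET_single]
  obtain ⟨b, rfl⟩ := Nat.exists_eq_add_of_le hl
  rw [Nat.add_sub_cancel_left, Vale.Agent.P168.MP.ext_tower]
  refine Vale.Agent.P168.MP.ext_congr fun suf hs => ?_
  simp only [List.nil_append, List.getD_cons_zero, List.singleton_append, List.getD_cons_succ,
    Vale.Agent.P168.MP.ext_const_mul]
  rw [Vale.Agent.P168.MP.ext_congr (G := fun p => Fn p * ext m w b suf Fn)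
    fun s _ => by rw [List.take_left' hs], Vale.Agent.P168.MP.ext_mul_const, sq]

/-- the pair functional of the node field tends to `Gamma` -/
theorem node_pair (he : Adm e a A D) (hm : Ex R m) (hq : Prof R q V) (hh : Continuous h) (hb : ∀ y, |h y| ≤ C)
    {l : ℕ} (hl : l ≤ R) :
    Tendsto (fun n => ∫ g, ET R m (nodeW e R q g) [(0, l), (0, 0)]
      (fun ps : List (List (Fin (n + 1))) => h (dot (node R q (ps.getD 0 [])) g) *
        h (dot (node R q (ps.getD 1 [])) g)) ∂gauss (Ix R n))
      atTop (𝓝 (Gamma e h R m q l)) := by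
  have hC : 0 ≤ C := (abs_nonneg _).trans (hb 0)
  set Hn := fun n (p : List (Fin (n + 1))) (g : Ix R n → ℝ) =>
    ext m (nodeW e R q g) (R - l) p fun p' => h (dot (node R q p') g) with hHn
  set H := tlN e R m q 0 (R - l) h
  obtain ⟨hHc, hHb⟩ := tlN_prop he hm q 0 hh hb (R - l) (by omega)
  have hd : ∀ (n : ℕ) (p : List (Fin (n + 1))),
      Continuous fun g : Ix R n → ℝ => h (dot (node R q p) g) := fun n p =>
    hh.comp (by unfold Vale.Agent.P150.dot; fun_prop)
  have hHnb : ∀ n (p : List (Fin (n + 1))) g, |Hn n p g| ≤ C := fun n p g =>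
    ext_bound (fun p => nodeW_pos he g p) fun _ => hb _
  have hZ0 : ∀ n (g : Ix R n → ℝ), (fun p => Z m (nodeW e R q g) 0 p) = nodeW e R q g :=
    fun n g => funext fun p => by rw [Z]
  have hHnc : ∀ n (p : List (Fin (n + 1))), Continuous (Hn n p) := fun n p =>
    continuous_ext (nodeW_cont he) (fun g p => nodeW_pos he g p) (R - l) p (hd n)
  have hv : Van R (R - (0 + (R - l))) fun n p g => Hn n p g - H (dot (node R q p) g) := by
    have := van_ext he hm hq 0 hh hb (G := fun n p g => h (dot (node R q p) g)) hd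
      (fun n p g => hb _) (fun ε hε => ⟨0, fun n _ p _ => by simp [hε.le]⟩) (R - l) (by omega)
    simpa only [hZ0] using this
  rw [show R - (0 + (R - l)) = l by omega] at hv
  set G := fun n (p : List (Fin (n + 1))) (g : Ix R n → ℝ) => Hn n p g ^ 2
  have hGc : ∀ n p, Continuous (G n p) := fun n p => (hHnc n p).pow 2
  have hGb : ∀ n p g, |G n p g| ≤ C ^ 2 := fun n p g => by
    simp only [G, abs_pow]; exact pow_le_pow_left₀ (abs_nonneg _) (hHnb n p g) 2
  have hG : Van R (R - (R - l)) fun n p g => G n p g - H (dot (node R q p) g) ^ 2 := by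
    rw [show R - (R - l) = l by omega]
    refine hv.of_le (fun n p _ => ⟨(hHnc n p).sub (GR.dot (EG.of_bound hHc hHb) _).1, 2 * C, 0,
      fun g => ?_⟩) (c := 2 * C) (by positivity) fun n p g hp => ?_
    · simpa using (abs_sub _ _).trans (by linarith [hHnb n p g, hHb (dot (node R q p) g)])
    · simp only [G]
      rw [sq_sub_sq, abs_mul]
      exact mul_le_mul_of_nonneg_right ((abs_add_le _ _).trans
        (by linarith [hHnb n p g, hHb (dot (node R q p) g)])) (abs_nonneg _)
  have hF2 : ∀ y, |H y ^ 2| ≤ C ^ 2 := fun y => by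
    rw [abs_pow]; exact pow_le_pow_left₀ (abs_nonneg _) (hHb y) 2
  have hv2 := van_ext he hm hq (R - l) (hHc.pow 2) hF2 hGc hGb hG l (by omega)
  rw [show R - (R - l + l) = 0 by omega] at hv2
  obtain ⟨hYc, hYb⟩ := tlN_prop he hm q (R - l) (hHc.pow 2) hF2 l (by omega)
  have := tend_of_van (q := q) (EG.of_bound hYc hYb)
    (X := fun n p g => ext m (fun p => Z m (nodeW e R q g) (R - l) p) l p
      fun r => G n r g)
    (fun n => ⟨ext_cont he (hGc n) l [], C ^ 2, 0, fun g => by
      simpa using ext_bound (fun p => Z_pos (fun p => nodeW_pos he g p) _ _) fun r => hGb n r g⟩)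
    hv2
  refine this.congr fun n => integral_congr_ae (Eventually.of_forall fun g => ?_)
  exact (pair_eq (fun p => h (dot (node R q p) g)) hl).symm

/-- `Gamma` increases along the levels and lies in `[0, C ^ 2]` -/
theorem gamma_mono (he : Adm e a A D) (hm : Ex R m) (hq : Prof R q V) (hh : Continuous h) (hb : ∀ y, |h y| ≤ C)
    {l : ℕ} (hl : l ≤ R) : 0 ≤ Gamma e h R m q l ∧ Gamma e h R m q l ≤ C ^ 2 ∧
      (l < R → Gamma e h R m q l ≤ Gamma e h R m q (l + 1)) := by
  set P := fun (l n : ℕ) (g : Ix R n → ℝ) =>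
    ET R m (nodeW e R q g) [(0, l), (0, 0)]
      (fun ps : List (List (Fin (n + 1))) => h (dot (node R q (ps.getD 0 [])) g) *
        h (dot (node R q (ps.getD 1 [])) g))
  have hP : ∀ l ≤ R, ∀ n g, P l n g = ext m (fun p => Z m (nodeW e R q g) (R - l) p)
      l [] (fun r => ext m (nodeW e R q g) (R - l) r (fun p => h (dot (node R q p) g)) ^ 2) :=
    fun l hl n g => pair_eq (fun p => h (dot (node R q p) g)) hl
  have hpos : ∀ n (g : Ix R n → ℝ) k p, 0 < Z m (nodeW e R q g) k p :=
    fun n g k p => Z_pos (fun p => nodeW_pos he g p) k p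
  have h0 : ∀ l ≤ R, ∀ n g, 0 ≤ P l n g ∧ P l n g ≤ C ^ 2 := fun l hl n g => by
    rw [hP l hl]
    refine ⟨Vale.Agent.P168.MP.ext_nonneg (hpos n g _) fun _ => sq_nonneg _,
      (Vale.Agent.P168.MP.ext_mono (hpos n g _) fun r => ?_).trans_eq
        (Vale.Agent.P168.MP.ext_const (hpos n g _) _ _ _)⟩
    rw [← sq_abs]
    exact pow_le_pow_left₀ (abs_nonneg _)
      (ext_bound (fun p => nodeW_pos he g p) fun _ => hb _) 2
  have hint : ∀ l ≤ R, ∀ n, Integrable (P l n) (gauss (Ix R n)) := fun l hl n => by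
    refine Integrable.of_bound (continuous_ET (nodeW_cont he) (fun g p => nodeW_pos he g p) R _
      fun ps => ?_).aestronglyMeasurable (C ^ 2) (Eventually.of_forall fun g => by
        rw [Real.norm_eq_abs, abs_of_nonneg (h0 l hl n g).1]; exact (h0 l hl n g).2)
    exact (hh.comp (continuous_dot_left _)).mul (hh.comp (continuous_dot_left _))
  have ht := node_pair he hm hq hh hb hl
  refine ⟨ge_of_tendsto' ht fun n => integral_nonneg fun g => (h0 l hl n g).1,
    le_of_tendsto' ht fun n => ?_, fun hlR => ?_⟩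
  · exact (integral_mono (hint l hl n) (integrable_const _) fun g => (h0 l hl n g).2).trans_eq
      (by simp)
  · refine le_of_tendsto_of_tendsto' ht (node_pair he hm hq hh hb hlR) fun n =>
      integral_mono (hint l hl n) (hint (l + 1) hlR n) fun g => ?_
    show P l n g ≤ P (l + 1) n g
    rw [hP l hl, hP (l + 1) hlR]
    set b := R - (l + 1)
    set w := nodeW e R q g
    rw [show R - l = 1 + b by omega, Vale.Agent.P168.MP.ext_tower (a := l) (b := 1)]
    simp only [Vale.Agent.P168.MP.Z_Z]
    refine Vale.Agent.P168.MP.ext_mono (fun p => hpos n g _ p) fun r => ?_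
    rw [Vale.Agent.P168.MP.ext_tower (a := 1) (b := b)]
    exact Vale.Agent.P168.MP.ext_sq_le (hpos n g b) 1 r _

/-- `exp ∘ f` is admissible -/
lemma adm_exp {f f1 f2 f3 : ℝ → ℝ} {B D : ℝ} (hS : Sm f f1 f2 f3 B D) :
    Adm (fun y => exp (f y)) (exp (-|B|)) (exp |f 0|) D where
  cont := continuous_exp.comp (continuous_iff_continuousAt.2 fun x => (hS.d0 x).continuousAt)
  a_pos := exp_pos _
  a_le := exp_le_one_iff.2 (neg_nonpos.2 (abs_nonneg B))
  A_ge := one_le_exp (abs_nonneg _)
  D_nonneg := (abs_nonneg _).trans (hS.b1 0)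
  lb y := exp_le_exp.2 (by linarith [hS.lb y, le_abs_self B])
  ub y := by
    rw [← exp_add]
    refine exp_le_exp.2 ?_
    have h' := Convex.norm_image_sub_le_of_norm_hasDerivWithin_le (s := Set.univ) (f := f)
      (f' := f1) (C := D) (fun x _ => (hS.d0 x).hasDerivWithinAt) (fun x _ => hS.b1 x) convex_univ
      (Set.mem_univ 0) (Set.mem_univ y)
    simp only [sub_zero, Real.norm_eq_abs] at h'
    linarith [le_abs_self (f y - f 0), le_abs_self (f 0)]

lemma nest_one {Ω : Type*} [Fintype Ω] [Nonempty Ω] (m : ℕ → ℝ) {Y : List Ω → ℝ}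
    (hY : ∀ p, 0 < Y p) (k : ℕ) (pre : List Ω) :
    Vale.Agent.P168.MP.nest m (fun _ => 1) Y k pre = Z m Y k pre := by
  have := Vale.Agent.P168.MP.Z_mul (m := m) (w := fun _ : List Ω => (1:ℝ)) (fun _ => one_pos) hY k pre
  simpa [Vale.Agent.P168.MP.Z_one] using this.symm

end Vale.Agent.P157.Par
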