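import Vale.Agent.P157.Par.UpperBin
import Vale.Agent.P157.Par.UpperMix

/-! **Upper bound**: the pressure is at most the functional of every trial, up to `O(√M / N)`, by
interpolation between the patterns and the site fields of the profile `α Γ`. -/

open MeasureTheory ProbabilityTheory Finset Filter
open scoped Topology
open Vale.Agent.P150 (gauss dot)
open Vale.Agent.P168.MP (Ok)

namespace Vale.Agent.P157.Par

lemma adm_cosh : Adm Real.cosh 1 1 1 where
  cont := Real.continuous_cosh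
  a_pos := one_pos
  a_le := le_rfl
  A_ge := le_rfl
  D_nonneg := zero_le_one
  lb := Real.one_le_cosh
  ub y := by
    rw [one_mul, one_mul, ← Real.cosh_abs, Real.cosh_eq]
    linarith [Real.exp_le_exp.2 (show -|y| ≤ |y| by linarith [abs_nonneg y])]

lemma bA_sum {ι : Type} (θ : ℝ) (M : ℕ) (S : Finset ι) (F : ι → ℕ → ℝ) :
    bA θ M (fun i => ∑ l ∈ S, F l i) = ∑ l ∈ S, bA θ M (F l) := by
  classical
  induction S using Finset.induction with
  | empty => simpa using bA_const θ 0 M
  | insert a S ha ih => simp [sum_insert ha, bA_add, ih]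

lemma nodeVec_node {R n : ℕ} {s : ℕ → ℝ} {V : ℝ} (hs : Prof R s V) :
    NodeVec R s (fun x : List (Fin (n + 1)) => node R s x) where
  bd x := (cv_node_self hs x).trans_le (hs.le_of_le (min_le_right _ _) le_rfl)
  diag x hx := by
    have := cv_node_self hs x
    rwa [hx, min_self] at this
  split l hl x y hx hy he hne := by
    have h := cv_node_split hs hx hy hl.le he
    rw [if_neg fun hc => hne ?_] at h
    · exact sub_eq_zero.1 (abs_nonpos_iff.1 h)
    · have e := congrArg (fun L => L.getD l 0) hc.2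
      simpa [List.getD_eq_getElem?_getD, List.getElem?_take_of_lt] using e

variable {f f1 f2 f3 : ℝ → ℝ} {B D : ℝ}

/-- the upper bound from the slope inequality of one pattern -/
theorem upper_bound_of_slope (hS : Sm f f1 f2 f3 B D) {B' : ℝ} (hB : ∀ x, f x ≤ B') {R : ℕ}
    (hR : 1 ≤ R) {m q : ℕ → ℝ} (hm : ∀ {Ω : Type} (w : List Ω → ℝ), (∀ p, 0 < w p) → Ok R m w)
    (hq : Monotone q) (h0 : 0 ≤ q 0) (h1 : q R = 1) {δ : ℝ} (hδ : 0 ≤ δ) (hs : Slope f f1 R m δ)
    {α : ℝ} (hα : 0 < α) :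
    ∃ K : ℝ, ∀ N M : ℕ, 1 ≤ N → pressure (isingUniform N) f M ≤
      Fval α f R m q + α * δ + K * (√(M : ℝ) + 1 + |(M : ℝ) - α * N|) / N := by
  set e := fun y => Real.exp (f y) with he
  have hde : deriv f = f1 := funext fun x => (hS.d0 x).deriv
  have hqp : Prof R q 1 := ⟨h0, fun l _ => hq (Nat.le_succ l), h1.le⟩
  have hex : Ex R m := Ex.of_ok (hm (fun _ : List Bool => (1 : ℝ)) fun _ => one_pos)
  have hA := adm_exp hS
  have hf1c : Continuous f1 := hS.sd.cont1
  set Γ : ℕ → ℝ := fun l => Gamma e f1 R m q l with hΓ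
  have hG : ∀ l ≤ R, 0 ≤ Γ l ∧ Γ l ≤ D ^ 2 ∧ (l < R → Γ l ≤ Γ (l + 1)) := fun l hl =>
    gamma_mono hA hex hqp hf1c hS.b1 hl
  set s : ℕ → ℝ := fun l => α * Γ l with hsdef
  have hsp : Prof R s (α * D ^ 2) :=
    ⟨mul_nonneg hα.le (hG 0 (Nat.zero_le R)).1,
      fun l hl => mul_le_mul_of_nonneg_left ((hG l hl.le).2.2 hl) hα.le,
      mul_le_mul_of_nonneg_left (hG R le_rfl).2.1 hα.le⟩
  set Φ := Phi e R m q with hΦ
  set Ψ := Phi Real.cosh R m s with hΨ
  set S := ∑ l ∈ range R, cf m l * (Γ l * q l) with hSdef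
  set C := ∑ l ∈ range R, |cf m l| with hC
  have hC0 : 0 ≤ C := sum_nonneg fun l _ => abs_nonneg _
  refine ⟨|Φ| + |S| + δ + C * D ^ 2, fun N M hN => ?_⟩
  have : NeZero N := ⟨by omega⟩
  have hN0 : (0 : ℝ) < N := Nat.cast_pos.2 hN
  set Bp := max |B| |B'| with hBp
  have hb : ∀ x, |f x| ≤ Bp := fun x => abs_le.2
    ⟨by linarith [hS.lb x, le_abs_self B, le_max_left |B| |B'|],
      by linarith [hB x, le_abs_self B', le_max_right |B| |B'|]⟩
  have hf : Continuous f := hS.sd.cont0
  set d := |(M : ℝ) - α * N| with hd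
  set rhs : ℕ → ℝ := fun n => N * (∫ z, Real.log (Vale.Agent.P168.MP.Z m (nodeW Real.cosh R s z) R
      ([] : List (Fin (n + 1)))) ∂gauss (Ix R n)) +
    ((M : ℝ) * phiN f R m q n - M / 2 * (∑ l ∈ range R, cf m l * Bl f f1 R m q n l) - N * s R / 2 + M * δ +
      1 / 2 * (∑ l ∈ range R, |cf m l| * (M * |Al f f1 R m q n l - Γ l| + D ^ 2 * d)) +
      (∑ l ∈ range R, |cf m l| * (|s l| + s R) * (N * (collK N R (N * s R) (M * Bp) / √((n + 1 : ℕ) : ℝ))))) +
    2 * (1 / 2 * C * D ^ 2 * √(M : ℝ)) with hrhs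
  have key : ∀ n, N * pressure (isingUniform N) f M ≤ rhs n := fun n => by
    set v : List (Fin (n + 1)) → Ix R n → ℝ := fun x => node R s x
    have hv : NodeVec R s v := nodeVec_node hsp
    set E := ∑ l ∈ range R, |cf m l| * (|s l| + s R) * (N * (collK N R (N * s R) (M * Bp) / √((n + 1 : ℕ) : ℝ)))
    set J : ℝ → ℝ := fun t => bA t M fun i => Pv f N R m v i (1 - t)
    set J' : ℝ → ℝ := fun t => (bA t M fun i => Pd f N R m v i (1 - t) * -1) +
      M * bA t (M - 1) fun i => Pv f N R m v (i + 1) (1 - t) - Pv f N R m v i (1 - t)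
    have hJc : ContinuousOn J (Set.Icc 0 1) :=
      continuousOn_bA M (F := fun i t => Pv f N R m v i (1 - t)) fun i _ =>
        (continuousOn_Pv hm hf hb hv).comp ((continuous_const.sub continuous_id).continuousOn) fun t ht =>
          ⟨by show 0 ≤ 1 - t; linarith [ht.2], by show 1 - t ≤ 1; linarith [ht.1]⟩
    have hJd : ∀ t ∈ Set.Ioo (0 : ℝ) 1, HasDerivAt J (J' t) t := fun t ht =>
      hasDerivAt_bA M (F := fun i θ => Pv f N R m v i (1 - θ))
        (F' := fun i θ => Pd f N R m v i (1 - θ) * -1) fun i _ =>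
          (hasDerivAt_Pv hm hf hb hv (u := 1 - t) (by linarith [ht.2]) (by linarith [ht.1])).comp t
            ((hasDerivAt_id t).const_sub 1)
    have hJb : ∀ t ∈ Set.Ioo (0 : ℝ) 1, J' t ≤
        ((M : ℝ) * phiN f R m q n - M / 2 * (∑ l ∈ range R, cf m l * Bl f f1 R m q n l) - N * s R / 2 + M * δ +
          1 / 2 * (∑ l ∈ range R, |cf m l| * (M * |Al f f1 R m q n l - Γ l| + D ^ 2 * d)) + E) +
        1 / 2 * C * D ^ 2 * √(M : ℝ) / √(1 - t) := by
      intro t ht
      set u := 1 - t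
      have hu0 : 0 ≤ u := by simp only [u]; linarith [ht.2]
      have hu1 : u ≤ 1 := by simp only [u]; linarith [ht.1]
      set O : ℕ → ℕ → ℝ := fun l i => Ovl f N R m v i u l
      have hO : ∀ l i, |O l i| ≤ 1 := fun l i =>
        abs_integral_le_integral_abs.trans ((integral_mono_of_nonneg (g := fun _ => (1 : ℝ))
          (Eventually.of_forall fun g => abs_nonneg _) (integrable_const _)
          (Eventually.of_forall fun g => abs_ovg_le g u l)).trans_eq (by simp))
      have hP : bA t M (fun i => Pd f N R m v i u * -1) ≤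
          -(N * s R / 2) + E - 1 / 2 * ∑ l ∈ range R, cf m l * (N * s l * bA t M (O l)) := by
        refine (bA_le ht.1.le ht.2.le (h := fun i => (-(N * s R / 2) + E) +
          (-1 / 2) * ∑ l ∈ range R, cf m l * (N * s l * O l i)) fun i hi => ?_).trans (le_of_eq ?_)
        · have := Pd_ge (N := N) (M := M) (k := i) hm hf hb hv hR hu0 hu1 hi
          simp only [O, E] at this ⊢
          linarith
        · rw [bA_add, bA_const, bA_const_mul, bA_sum]
          simp only [bA_const_mul]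
          ring
      have hQ : bA t (M - 1) (fun i => Pv f N R m v (i + 1) u - Pv f N R m v i u) ≤
          phiN f R m q n + δ + 1 / 2 * (∑ l ∈ range R, cf m l *
            (bA t (M - 1) (O l) * Al f f1 R m q n l - Bl f f1 R m q n l)) := by
        refine (bA_le ht.1.le ht.2.le (h := fun i => (phiN f R m q n + δ) +
          1 / 2 * ∑ l ∈ range R, cf m l * (Al f f1 R m q n l * O l i + -Bl f f1 R m q n l))
          fun i _ => ?_).trans (le_of_eq ?_)
        · have := Pv_step (N := N) (k := i) hm hf hb hv hs hS.sd hqp h1 n hu1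
          simp only [O, mul_comm (Al f f1 R m q n _), ← sub_eq_add_neg]
          linarith
        · rw [bA_add, bA_const, bA_const_mul, bA_sum]
          simp only [bA_const_mul, bA_add, bA_const]
          congr 2
          exact sum_congr rfl fun l _ => by ring
      have hM : (0 : ℝ) ≤ M := Nat.cast_nonneg M
      have hterm : ∀ l ∈ range R, cf m l * (M * (bA t (M - 1) (O l) * Al f f1 R m q n l) - N * s l * bA t M (O l)) ≤
          |cf m l| * (M * |Al f f1 R m q n l - Γ l| + D ^ 2 * (√(M : ℝ) / √(1 - t) + d)) := fun l hl => by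
        refine (le_abs_self _).trans ?_
        rw [abs_mul]
        refine mul_le_mul_of_nonneg_left ?_ (abs_nonneg _)
        have hY : |bA t (M - 1) (O l)| ≤ 1 := abs_le.2
          ⟨(bA_const t (-1) (M - 1)).symm.trans_le (bA_le ht.1.le ht.2.le fun i _ => (abs_le.1 (hO l i)).1),
            (bA_le ht.1.le ht.2.le fun i _ => (abs_le.1 (hO l i)).2).trans_eq (bA_const t 1 (M - 1))⟩
        have hmis := abs_bA_mismatch ht.1 ht.2 (hO l) M (α * N)
        rw [show (M : ℝ) * (bA t (M - 1) (O l) * Al f f1 R m q n l) - N * s l * bA t M (O l) =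
          M * (bA t (M - 1) (O l) * (Al f f1 R m q n l - Γ l)) +
            Γ l * (M * bA t (M - 1) (O l) - α * N * bA t M (O l)) by simp only [hsdef]; ring]
        refine (abs_add_le _ _).trans (add_le_add ?_ ?_)
        · rw [abs_mul, abs_of_nonneg hM, abs_mul]
          exact mul_le_mul_of_nonneg_left (mul_le_of_le_one_left (abs_nonneg _) hY) hM
        · rw [abs_mul, abs_of_nonneg (hG l (mem_range.1 hl).le).1]
          exact mul_le_mul (hG l (mem_range.1 hl).le).2.1 hmis (abs_nonneg _) (sq_nonneg D)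
      have hsum := sum_le_sum hterm
      have e1 : ∑ l ∈ range R, cf m l * (M * (bA t (M - 1) (O l) * Al f f1 R m q n l) - N * s l * bA t M (O l)) =
          M * (∑ l ∈ range R, cf m l * (bA t (M - 1) (O l) * Al f f1 R m q n l - Bl f f1 R m q n l)) +
          M * (∑ l ∈ range R, cf m l * Bl f f1 R m q n l) -
          ∑ l ∈ range R, cf m l * (N * s l * bA t M (O l)) := by
        rw [mul_sum, mul_sum, ← sum_add_distrib, ← sum_sub_distrib]
        exact sum_congr rfl fun l _ => by ring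
      have e2 : ∑ l ∈ range R, |cf m l| * (M * |Al f f1 R m q n l - Γ l| + D ^ 2 * (√(M : ℝ) / √(1 - t) + d)) =
          (∑ l ∈ range R, |cf m l| * (M * |Al f f1 R m q n l - Γ l| + D ^ 2 * d)) +
            C * (D ^ 2 * (√(M : ℝ) / √(1 - t))) := by
        rw [hC, sum_mul, ← sum_add_distrib]
        exact sum_congr rfl fun l _ => by ring
      rw [e1, e2] at hsum
      have := mul_le_mul_of_nonneg_left hQ hM
      have e3 : 1 / 2 * C * D ^ 2 * √(M : ℝ) / √(1 - t) = 1 / 2 * (C * (D ^ 2 * (√(M : ℝ) / √(1 - t)))) := by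
        ring
      rw [e3]
      show bA t M (fun i => Pd f N R m v i u * -1) +
        M * bA t (M - 1) (fun i => Pv f N R m v (i + 1) u - Pv f N R m v i u) ≤ _
      linarith
    have h := le_of_deriv_le hJc hJd hJb
    simp only [J, bA_at_one, bA_at_zero, sub_self, sub_zero] at h
    rw [Pv_end hN hm hR hf hb, Pv_start hm hR hv] at h
    simp only [hrhs]
    refine h.trans (le_of_eq ?_)
    rfl
  have hAl : ∀ l ∈ range R, Tendsto (fun n => Al f f1 R m q n l) atTop (𝓝 (Γ l)) := fun l hl =>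
    node_pair hA hex hqp hf1c hS.b1 (mem_range.1 hl).le
  have hBl : ∀ l ∈ range R, Tendsto (fun n => Bl f f1 R m q n l) atTop (𝓝 (q l * Γ l)) := fun l hl => by
    have h : Tendsto (fun n => Bl f f1 R m q n l - q l * Al f f1 R m q n l) atTop (𝓝 0) :=
      squeeze_zero_norm (fun n => abs_Bl_sub_le hS.sd hb hqp
        (hm (fun _ : List (Fin (n + 1)) => (1 : ℝ)) fun _ => one_pos) (mem_range.1 hl).le)
        (by simpa [div_eq_mul_inv] using
          (tendsto_one_div_add_atTop_nhds_zero_nat (𝕜 := ℝ)).const_mul (D ^ 2 * Real.exp (4 * Bp)))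
    simpa using h.add ((hAl l hl).const_mul (q l))
  have hsq : Tendsto (fun n : ℕ => √((n + 1 : ℕ) : ℝ)) atTop atTop :=
    Real.tendsto_sqrt_atTop.comp (tendsto_natCast_atTop_atTop.comp (tendsto_add_atTop_nat 1))
  have hlim : Tendsto rhs atTop (𝓝 (N * Ψ + ((M : ℝ) * Φ - M / 2 * (∑ l ∈ range R, cf m l * (q l * Γ l)) -
      N * s R / 2 + M * δ + 1 / 2 * (∑ l ∈ range R, |cf m l| * (M * |Γ l - Γ l| + D ^ 2 * d)) +
      (∑ l ∈ range R, |cf m l| * (|s l| + s R) * (N * 0))) + 2 * (1 / 2 * C * D ^ 2 * √(M : ℝ)))) :=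
    (((node_value adm_cosh hex hsp hR).const_mul (N : ℝ)).add
      ((((((node_value hA hex hqp hR).const_mul (M : ℝ)).sub
        ((tendsto_finsetSum _ fun l hl => (hBl l hl).const_mul (cf m l)).const_mul ((M : ℝ) / 2))).sub
          tendsto_const_nhds).add tendsto_const_nhds).add
        ((tendsto_finsetSum _ fun l hl => ((((hAl l hl).sub tendsto_const_nhds).abs.const_mul (M : ℝ)).add
          tendsto_const_nhds).const_mul |cf m l|).const_mul (1 / 2)) |>.add
        (tendsto_finsetSum _ fun l _ => ((tendsto_const_nhds.div_atTop hsq).const_mul (N : ℝ)).const_mul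
          (|cf m l| * (|s l| + s R))))).add tendsto_const_nhds
  have hle := ge_of_tendsto' hlim key
  have eF : Fval α f R m q = α * Φ + Ψ - α / 2 * (Γ R + S) := by
    simp only [Fval, hde, hΦ, hΨ, hSdef, hsdef, hΓ, he, cf]
  have eS : ∑ l ∈ range R, cf m l * (q l * Γ l) = S := sum_congr rfl fun l _ => by ring
  simp only [eS, sub_self, abs_zero, mul_zero, zero_add, sum_const_zero, add_zero, ← sum_mul, ← hC] at hle
  rw [eF]
  have hfac : ((M : ℝ) - α * N) * (Φ - S / 2 + δ) ≤ d * (|Φ| + |S| + δ) := by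
    refine (le_abs_self _).trans ?_
    rw [abs_mul]
    refine mul_le_mul_of_nonneg_left ?_ (abs_nonneg _)
    rw [abs_le]
    constructor <;> linarith [le_abs_self Φ, neg_abs_le Φ, le_abs_self S, neg_abs_le S, abs_nonneg S]
  have hK : 0 ≤ |Φ| + |S| + δ := by positivity
  have hd0 : 0 ≤ d := abs_nonneg _
  have hr : 0 ≤ √(M : ℝ) := Real.sqrt_nonneg _
  have hCD : 0 ≤ C * D ^ 2 := by positivity
  have main : (N : ℝ) * pressure (isingUniform N) f M ≤
      N * (α * Φ + Ψ - α / 2 * (Γ R + S) + α * δ) + (|Φ| + |S| + δ + C * D ^ 2) * (√(M : ℝ) + 1 + d) := by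
    simp only [hsdef] at hle
    nlinarith [hle, hfac, mul_nonneg hK hr, mul_nonneg hCD hd0, hK, hCD]
  rw [← sub_nonneg, show α * Φ + Ψ - α / 2 * (Γ R + S) + α * δ +
      (|Φ| + |S| + δ + C * D ^ 2) * (√(M : ℝ) + 1 + d) / N - pressure (isingUniform N) f M =
    (N * (α * Φ + Ψ - α / 2 * (Γ R + S) + α * δ) + (|Φ| + |S| + δ + C * D ^ 2) * (√(M : ℝ) + 1 + d) -
      N * pressure (isingUniform N) f M) / N by field_simp]
  exact div_nonneg (sub_nonneg.2 main) hN0.le

/-- the upper bound for `f = log (c - ft ν)` -/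
theorem upper_bound {ν : Measure ℝ} [IsFiniteMeasure ν] {c : ℝ} (hc : ν.real Set.univ < c)
    (hS : Sm (PD.pot ν c) f1 f2 f3 B D) {R : ℕ} (hR : 1 ≤ R) {m q : ℕ → ℝ}
    (hm : ∀ {Ω : Type} (w : List Ω → ℝ), (∀ p, 0 < w p) → Ok R m w)
    (hq : Monotone q) (h0 : 0 ≤ q 0) (h1 : q R = 1) {α : ℝ} (hα : 0 < α) :
    ∃ K : ℝ, ∀ N M : ℕ, 1 ≤ N → pressure (isingUniform N) (PD.pot ν c) M ≤
      Fval α (PD.pot ν c) R m q + K * (√(M : ℝ) + 1 + |(M : ℝ) - α * N|) / N := by
  obtain ⟨K, hK⟩ := upper_bound_of_slope hS (fun x => (le_abs_self _).trans (PD.abs_pot_le hc x)) hR hm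
    hq h0 h1 le_rfl (slope_pot hc hS.sd hR) hα
  exact ⟨K, fun N M hN => by simpa using hK N M hN⟩

end Vale.Agent.P157.Par
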