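import Vale.Agent.P157.Lim.Main

/-! Binomial averages: derivative in the parameter, shift of the size, and a comparison lemma. -/

open Set
open Vale.Agent.P157.Lim (binAvg binAvg_lin binAvg_const binAvg_mono binAvg_sq)

namespace Vale.Agent.P157.Par

/-- binomial average of a function of the number of successes -/
noncomputable def bA (θ : ℝ) (M : ℕ) (h : ℕ → ℝ) : ℝ := binAvg θ M fun i _ => h i

@[simp] lemma bA_zero (θ : ℝ) (h : ℕ → ℝ) : bA θ 0 h = h 0 := rfl

lemma bA_succ (θ : ℝ) (M : ℕ) (h : ℕ → ℝ) :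
    bA θ (M + 1) h = θ * bA θ M (fun i => h (i + 1)) + (1 - θ) * bA θ M h := rfl

lemma bA_lin (θ a b : ℝ) (M : ℕ) (g h : ℕ → ℝ) :
    bA θ M (fun i => a * g i + b * h i) = a * bA θ M g + b * bA θ M h :=
  binAvg_lin θ a b M (fun i _ => g i) (fun i _ => h i)

lemma bA_const (θ c : ℝ) (M : ℕ) : bA θ M (fun _ => c) = c := binAvg_const θ c M

lemma bA_add (θ : ℝ) (M : ℕ) (g h : ℕ → ℝ) :
    bA θ M (fun i => g i + h i) = bA θ M g + bA θ M h := by
  simpa using bA_lin θ 1 1 M g h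

lemma bA_sub (θ : ℝ) (M : ℕ) (g h : ℕ → ℝ) :
    bA θ M (fun i => g i - h i) = bA θ M g - bA θ M h := by
  simpa [sub_eq_add_neg] using bA_lin θ 1 (-1) M g h

lemma bA_const_mul (θ c : ℝ) (M : ℕ) (h : ℕ → ℝ) :
    bA θ M (fun i => c * h i) = c * bA θ M h := by
  simpa using bA_lin θ c 0 M h h

lemma bA_at_one : ∀ (M : ℕ) (h : ℕ → ℝ), bA 1 M h = h M
  | 0, h => rfl
  | M + 1, h => by rw [bA_succ, bA_at_one M]; simp

lemma bA_at_zero : ∀ (M : ℕ) (h : ℕ → ℝ), bA 0 M h = h 0
  | 0, h => rfl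
  | M + 1, h => by rw [bA_succ, bA_at_zero M h]; simp

lemma bA_le {θ : ℝ} (h0 : 0 ≤ θ) (h1 : θ ≤ 1) {g h : ℕ → ℝ} :
    ∀ {M : ℕ}, (∀ i, i ≤ M → g i ≤ h i) → bA θ M g ≤ bA θ M h := by
  intro M
  induction M generalizing g h with
  | zero => exact fun H => H 0 le_rfl
  | succ M ih =>
    intro H
    rw [bA_succ, bA_succ]
    exact add_le_add (mul_le_mul_of_nonneg_left (ih fun i hi => H _ (by omega)) h0)
      (mul_le_mul_of_nonneg_left (ih fun i hi => H _ (by omega)) (by linarith))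

lemma continuousOn_bA {s : Set ℝ} : ∀ (M : ℕ) {F : ℕ → ℝ → ℝ},
    (∀ i, i ≤ M → ContinuousOn (F i) s) → ContinuousOn (fun θ => bA θ M fun i => F i θ) s
  | 0, F, H => H 0 le_rfl
  | M + 1, F, H => by
    simp only [bA_succ]
    exact (continuousOn_id.mul (continuousOn_bA M (F := fun i => F (i + 1))
      fun i hi => H _ (by omega))).add ((continuousOn_const.sub continuousOn_id).mul
      (continuousOn_bA M fun i hi => H _ (by omega)))

/-- derivative of a binomial average -/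
lemma hasDerivAt_bA : ∀ (M : ℕ) {F F' : ℕ → ℝ → ℝ} {t : ℝ},
    (∀ i, i ≤ M → HasDerivAt (F i) (F' i t) t) →
      HasDerivAt (fun θ => bA θ M fun i => F i θ)
        ((bA t M fun i => F' i t) + M * bA t (M - 1) fun i => F (i + 1) t - F i t) t
  | 0, F, F', t, H => by simpa using H 0 le_rfl
  | 1, F, F', t, H => by
    have h := ((hasDerivAt_id t).mul (H 1 le_rfl)).add
      (((hasDerivAt_id t).const_sub 1).mul (H 0 (Nat.zero_le _)))
    refine h.congr_deriv ?_
    simp [bA_succ]; ring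
  | M + 2, F, F', t, H => by
    have h1 := hasDerivAt_bA (M + 1) (F := fun i => F (i + 1)) (F' := fun i => F' (i + 1))
      (t := t) fun i hi => H _ (by omega)
    have h2 := hasDerivAt_bA (M + 1) (F := F) (F' := F') (t := t) fun i hi => H _ (by omega)
    have h := ((hasDerivAt_id t).mul h1).add (((hasDerivAt_id t).const_sub 1).mul h2)
    refine h.congr_deriv ?_
    simp only [id, Nat.add_sub_cancel, show M + 2 - 1 = M + 1 from rfl]
    have e : bA t (M + 1) (fun i => F (i + 1) t) - bA t (M + 1) (fun i => F i t) =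
        t * bA t M (fun i => F (i + 1 + 1) t - F (i + 1) t) +
          (1 - t) * bA t M (fun i => F (i + 1) t - F i t) := by
      rw [← bA_sub, bA_succ]
    rw [bA_succ t (M + 1) fun i => F' i t, bA_succ t M fun i => F (i + 1) t - F i t]
    push_cast
    linear_combination e

/-- mean of `k h (k)` -/
lemma bA_mul_self (θ : ℝ) : ∀ (M : ℕ) (h : ℕ → ℝ),
    bA θ (M + 1) (fun i => (i : ℝ) * h i) = ((M : ℝ) + 1) * θ * bA θ M (fun i => h (i + 1))
  | 0, h => by simp [bA_succ]
  | M + 1, h => by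
    have e : (fun i : ℕ => ((i + 1 : ℕ) : ℝ) * h (i + 1)) =
        fun i : ℕ => (i : ℝ) * h (i + 1) + h (i + 1) := by
      funext i; push_cast; ring
    rw [bA_succ θ (M + 1), e, bA_add θ (M + 1) (fun i => (i : ℝ) * h (i + 1)),
      bA_mul_self θ M fun i => h (i + 1), bA_mul_self θ M h,
      bA_succ θ M fun i => h (i + 1)]
    push_cast
    ring

/-- changing the size by one costs a square root -/
lemma abs_bA_shift {θ : ℝ} (h0 : 0 < θ) (h1 : θ < 1) {h : ℕ → ℝ} (hb : ∀ i, |h i| ≤ 1) (M : ℕ) :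
    |((M + 1 : ℕ) : ℝ) * (bA θ M h - bA θ (M + 1) h)| ≤ √((M + 1 : ℕ) : ℝ) / √(1 - θ) := by
  set n : ℝ := ((M + 1 : ℕ) : ℝ) with hn
  have hn0 : 0 < n := by positivity
  have h10 : 0 < 1 - θ := by linarith
  set v := n * θ * (1 - θ)
  have hv : 0 < v := by positivity
  have e : bA θ (M + 1) (fun i => ((i : ℝ) - n * θ) * h i) =
      n * θ * (1 - θ) * (bA θ M (fun i => h (i + 1)) - bA θ M h) := by
    have : (fun i : ℕ => ((i : ℝ) - n * θ) * h i) =
        fun i : ℕ => 1 * ((i : ℝ) * h i) + -(n * θ) * h i := by funext i; ring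
    rw [this, bA_lin, bA_mul_self, bA_succ θ M h, hn]
    push_cast; ring
  have hsq : bA θ (M + 1) (fun i : ℕ => ((i : ℝ) - n * θ) ^ 2) = v := by
    rw [bA, binAvg_sq, hn]
    simp only [v, hn]; ring
  have key : |bA θ (M + 1) (fun i => ((i : ℝ) - n * θ) * h i)| ≤ √v := by
    have hp : ∀ (i : ℕ), |((i : ℝ) - n * θ) * h i| ≤
        1 / (2 * √v) * ((i : ℝ) - n * θ) ^ 2 + √v / 2 := fun i => by
      rw [abs_mul]
      refine (mul_le_of_le_one_right (abs_nonneg _) (hb i)).trans ?_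
      have hs : 0 < √v := Real.sqrt_pos.2 hv
      rw [div_mul_eq_mul_div, one_mul, div_add_div _ _ (by positivity) two_ne_zero,
        le_div_iff₀ (by positivity), ← sq_abs ((i : ℝ) - n * θ)]
      nlinarith [sq_nonneg (|(i : ℝ) - n * θ| - √v)]
    have hval : bA θ (M + 1) (fun i : ℕ => 1 / (2 * √v) * ((i : ℝ) - n * θ) ^ 2 + √v / 2) = √v := by
      rw [bA_add, bA_const, bA_const_mul, hsq]
      have hs : √v ≠ 0 := (Real.sqrt_pos.2 hv).ne'
      field_simp
      rw [Real.sq_sqrt hv.le]; ring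
    rw [abs_le]
    constructor
    · have := bA_le h0.le h1.le (M := M + 1)
        (g := fun i : ℕ => -1 * (1 / (2 * √v) * ((i : ℝ) - n * θ) ^ 2 + √v / 2))
        (h := fun i : ℕ => ((i : ℝ) - n * θ) * h i) fun i _ => by
          linarith [neg_abs_le (((i : ℝ) - n * θ) * h i), hp i]
      rw [bA_const_mul, hval] at this
      linarith
    · have := bA_le h0.le h1.le (M := M + 1)
        (h := fun i : ℕ => 1 / (2 * √v) * ((i : ℝ) - n * θ) ^ 2 + √v / 2)
        (g := fun i : ℕ => ((i : ℝ) - n * θ) * h i) fun i _ => (le_abs_self _).trans (hp i)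
      rwa [hval] at this
  rw [e] at key
  have hd : n * (bA θ M h - bA θ (M + 1) h) =
      -(n * θ * (bA θ M (fun i => h (i + 1)) - bA θ M h)) := by
    rw [bA_succ θ M h]; ring
  rw [hd, abs_neg, le_div_iff₀ (Real.sqrt_pos.2 h10)]
  refine le_of_mul_le_mul_right ?_ (Real.sqrt_pos.2 h10)
  calc |n * θ * (bA θ M (fun i => h (i + 1)) - bA θ M h)| * √(1 - θ) * √(1 - θ)
      = |n * θ * (bA θ M (fun i => h (i + 1)) - bA θ M h)| * (1 - θ) := by
        rw [mul_assoc, Real.mul_self_sqrt h10.le]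
    _ = |n * θ * (1 - θ) * (bA θ M (fun i => h (i + 1)) - bA θ M h)| := by
        rw [show n * θ * (1 - θ) * (bA θ M (fun i => h (i + 1)) - bA θ M h) =
          n * θ * (bA θ M (fun i => h (i + 1)) - bA θ M h) * (1 - θ) by ring,
          abs_mul _ (1 - θ), abs_of_pos h10]
    _ ≤ √v := key
    _ ≤ √(n * (1 - θ)) := Real.sqrt_le_sqrt (by
        simp only [v]; nlinarith [mul_pos hn0 h10])
    _ = √n * √(1 - θ) := Real.sqrt_mul hn0.le _

/-- the mismatch between the pattern and the site derivatives -/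
lemma abs_bA_mismatch {θ : ℝ} (h0 : 0 < θ) (h1 : θ < 1) {h : ℕ → ℝ} (hb : ∀ i, |h i| ≤ 1)
    (M : ℕ) (β : ℝ) :
    |(M : ℝ) * bA θ (M - 1) h - β * bA θ M h| ≤ √(M : ℝ) / √(1 - θ) + |(M : ℝ) - β| := by
  have hh : ∀ n, |bA θ n h| ≤ 1 := fun n => by
    rw [abs_le]
    exact ⟨(bA_const θ (-1) n).symm.trans_le (bA_le h0.le h1.le fun i _ => (abs_le.1 (hb i)).1),
      (bA_le h0.le h1.le fun i _ => (abs_le.1 (hb i)).2).trans_eq (bA_const θ 1 n)⟩
  have h2 : |((M : ℝ) - β) * bA θ M h| ≤ |(M : ℝ) - β| := by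
    rw [abs_mul]; exact mul_le_of_le_one_right (abs_nonneg _) (hh M)
  rcases M with _ | M
  · simp only [Nat.cast_zero, zero_mul, zero_sub, abs_neg, Real.sqrt_zero, zero_div, zero_add,
      abs_mul]
    exact mul_le_of_le_one_right (abs_nonneg _) (hh 0)
  rw [Nat.add_sub_cancel, show ((M + 1 : ℕ) : ℝ) * bA θ M h - β * bA θ (M + 1) h =
    ((M + 1 : ℕ) : ℝ) * (bA θ M h - bA θ (M + 1) h) + (((M + 1 : ℕ) : ℝ) - β) * bA θ (M + 1) h by ring]
  exact (abs_add_le _ _).trans (add_le_add (abs_bA_shift h0 h1 hb M) h2)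

/-- integrating a derivative bound with an inverse square root -/
lemma le_of_deriv_le {J J' : ℝ → ℝ} {A B : ℝ} (hJ : ContinuousOn J (Icc 0 1))
    (hd : ∀ t ∈ Ioo (0 : ℝ) 1, HasDerivAt J (J' t) t)
    (hb : ∀ t ∈ Ioo (0 : ℝ) 1, J' t ≤ A + B / √(1 - t)) : J 1 ≤ J 0 + A + 2 * B := by
  have hanti : AntitoneOn (fun t => J t - A * t + 2 * B * √(1 - t)) (Icc 0 1) := by
    refine antitoneOn_of_hasDerivWithinAt_nonpos (convex_Icc 0 1)
      ((hJ.sub (continuousOn_const.mul continuousOn_id)).add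
        (continuousOn_const.mul (continuousOn_const.sub continuousOn_id).sqrt))
      (f' := fun t => J' t - A * 1 + 2 * B * (-1 / (2 * √(1 - t)))) ?_ ?_
    · intro t ht
      rw [interior_Icc] at ht
      exact (((hd t ht).sub ((hasDerivAt_id t).const_mul A)).add
        ((((hasDerivAt_id t).const_sub 1).sqrt (by simp; linarith [ht.2])).const_mul (2 * B))).hasDerivWithinAt
    · intro t ht
      rw [interior_Icc] at ht
      have := hb t ht
      have hs : 0 < √(1 - t) := Real.sqrt_pos.2 (by linarith [ht.2])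
      rw [show 2 * B * (-1 / (2 * √(1 - t))) = -(B / √(1 - t)) by field_simp]
      linarith
  have := hanti (left_mem_Icc.2 zero_le_one) (right_mem_Icc.2 zero_le_one) zero_le_one
  simp only [sub_zero, Real.sqrt_one, mul_zero, sub_self, Real.sqrt_zero, mul_one] at this
  linarith

end Vale.Agent.P157.Par
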