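import Vale.Agent.P157.Par.UpperSlope
import Vale.Agent.P157.PD.Main

/-! The two ends of the interpolation: without patterns the sites decouple, with all patterns and no
site field one finds the pressure. -/

open MeasureTheory ProbabilityTheory Finset
open Vale.Agent.P150 (gauss dot l1)
open Vale.Agent.P168 (sg)
open Vale.Agent.P168.MP (Ok logZ0 avg Z)

namespace Vale.Agent.P157.Par

variable {f : ℝ → ℝ} {N L R : ℕ} {m : ℕ → ℝ}

/-- the weight of `k` patterns at the configuration read at the last mark -/
noncomputable def base (f : ℝ → ℝ) (R : ℕ) [NeZero L] {k : ℕ} (g : Fin k → Fin N → ℝ)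
    (p : List (Site N L)) : ℝ := ham f g (spins R p)

/-- mean value of `k` patterns together with the site fields of variance `u` -/
noncomputable def Pv (f : ℝ → ℝ) (N R : ℕ) (m : ℕ → ℝ) [NeZero L] {K : Type} [Fintype K]
    (v : List (Fin L) → K → ℝ) (k : ℕ) (u : ℝ) : ℝ :=
  ∫ g, linVal R m (base f R g) (siteVec (N := N) R v) u ∂pats N k

lemma abs_logZ0_le {Ω : Type} [Fintype Ω] [Nonempty Ω] {w : List Ω → ℝ} (hm : Ok R m w) {C : ℝ}
    (h : ∀ p, |Real.log (w p)| ≤ C) : |logZ0 R m w| ≤ C := by
  rw [logZ0, Z_mfix]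
  exact Vale.Agent.P168.MP.Upper.abs_log_Z_le (exps_mfix hm).pos hm.wpos h R []

/-- one coordinate block of a Gaussian family -/
lemma map_coord {K : Type} [Fintype K] (i : Fin N) :
    (gauss (Fin N × K)).map (fun h k => h (i, k)) = gauss K := by
  classical
  refine (Measure.pi_eq fun s hs => ?_).symm
  rw [Measure.map_apply (show Measurable fun (h : Fin N × K → ℝ) k => h (i, k) from
    measurable_pi_lambda _ fun k => measurable_pi_apply _) (MeasurableSet.univ_pi hs)]
  have e : (fun (h : Fin N × K → ℝ) k => h (i, k)) ⁻¹' Set.univ.pi s =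
      Set.univ.pi fun jk : Fin N × K => if jk.1 = i then s jk.2 else Set.univ := by
    ext h
    simp only [Set.mem_preimage, Set.mem_univ_pi]
    refine ⟨fun H jk => ?_, fun H k => by simpa using H (i, k)⟩
    split_ifs with hj
    · obtain ⟨j, k⟩ := jk
      obtain rfl : j = i := hj
      exact H k
    · trivial
  rw [e, gauss, Measure.pi_pi, Fintype.prod_prod_type, prod_eq_single i]
  · simp
  · intro j _ hj
    simp [hj]
  · simp

variable [NeZero L] {K : Type} [Fintype K] {s : ℕ → ℝ} {v : List (Fin L) → K → ℝ}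

/-- without patterns the sites decouple -/
theorem Pv_start (hm : ∀ {Ω : Type} (w : List Ω → ℝ), (∀ p, 0 < w p) → Ok R m w) (hR : 1 ≤ R)
    (hv : NodeVec R s v) :
    Pv f N R m v 0 1 = N * ∫ z, logZ0 R m (fun x : List (Fin L) => Real.cosh (dot (v x) z)) ∂gauss K := by
  set G : (K → ℝ) → List (Fin L) → ℝ := fun z x => Real.cosh (dot (v x) z)
  set W : (K → ℝ) → List (Bool × Fin L) → ℝ := fun z p =>
    Real.exp (sg (p.getD (R - 1) (false, 0)).1 * dot (v (p.map Prod.snd)) z)
  have hG : ∀ z x, 0 < G z x := fun z x => Real.cosh_pos _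
  have hGc : ∀ x, Continuous fun z => G z x := fun x =>
    Real.continuous_cosh.comp (continuous_dot_left _)
  have hbase : ∀ g : Fin 0 → Fin N → ℝ, base f (L := L) R g = fun _ => 1 := fun g => by
    funext p; simp [base, ham]
  have hWG : ∀ z, Z m (W z) R [] = Z m (G z) R [] := fun z => by
    obtain ⟨k, hk⟩ : ∃ k, R = k + 1 := ⟨R - 1, by omega⟩
    have := Z_spin (W := W z) (G := G z) (hm _ fun p => Real.exp_pos _) (fun pre lam hl => by
      have hd : ∀ b : Bool, (pre ++ [(b, lam)]).getD (R - 1) (false, 0) = (b, lam) := fun b => by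
        rw [List.getD_append_right _ _ _ _ (by omega), show R - 1 - pre.length = 0 by omega]; rfl
      simp only [W, G, hd, List.map_append, List.map_cons, List.map_nil, Real.cosh_eq, sg]
      simp) k [] (by simp [hk])
    simpa [← hk] using this
  have hsite : ∀ h : Fin N × K → ℝ, logZ0 R m (linW (fun _ => (1 : ℝ)) (siteVec (N := N) R v) 1 h) =
      ∑ i, logZ0 R m (G fun k => h (i, k)) := fun h => by
    have hP : ∀ (i : Fin N) p, 0 < W (fun k => h (i, k)) p := fun i p => Real.exp_pos _
    have e : Z m (linW (fun _ => (1 : ℝ)) (siteVec (N := N) R v) 1 h) R [] =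
        Z m (fun p : List (Site N L) => ∏ i, W (fun k => h (i, k)) (p.map fun o => o i)) R [] := by
      refine Vale.Agent.P168.MP.Upper.Z_congr R [] fun p hp => ?_
      simp only [List.nil_append, linW, W, one_mul, Real.sqrt_one, ← Real.exp_sum]
      congr 1
      have hg : ∀ i : Fin N, ((p.map fun o => o i).getD (R - 1) (false, 0)).1 = spins R p i := fun i => by
        rw [spins, List.getD_eq_getElem _ _ (by simp [hp]; omega), List.getD_eq_getElem _ _ (by omega),
          List.getElem_map]
      simp only [hg, List.map_map, Function.comp_def, dot, siteVec, if_pos hp, Fintype.sum_prod_type, mul_sum]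
      exact sum_congr rfl fun i _ => sum_congr rfl fun k _ => by simp only [labs]; ring
    have hz := Vale.Agent.P168.MP.Upper.Z_pi (m := m) (β := fun _ : Fin N => Bool × Fin L)
      (Equiv.refl _) (F := fun i => W fun k => h (i, k)) (fun i p => (hP i p).le) R []
    simp only [Equiv.refl_apply] at hz
    rw [logZ0, e, hz, Real.log_prod fun i _ => (Vale.Agent.P168.MP.Z_pos (hP i) R _).ne']
    simp only [List.map_nil, hWG, logZ0]
  have hcont : Continuous fun z => logZ0 R m (G z) := continuous_logZ0 hGc hG R
  have hint : Integrable (fun z => logZ0 R m (G z)) (gauss K) := by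
    refine Vale.Agent.P150.integrable_of_bound hcont (C := √(s R)) (M := 1) fun z => ?_
    rw [one_mul]
    refine (abs_logZ0_le (hm _ (hG z)) (C := √(s R) * l1 z) fun x => ?_).trans
      (mul_le_mul_of_nonneg_left (by linarith [Real.add_one_le_exp (l1 z)]) (Real.sqrt_nonneg _))
    rw [abs_of_nonneg (Real.log_nonneg (Real.one_le_cosh _))]
    refine le_trans ?_ (Vale.Agent.P150.abs_dot_le (abs_v_le hv x) z)
    rw [Real.log_le_iff_le_exp (Real.cosh_pos _), ← Real.cosh_abs, Real.cosh_eq]
    linarith [Real.exp_le_exp.2 (show -|dot (v x) z| ≤ |dot (v x) z| by linarith [abs_nonneg (dot (v x) z)])]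
  have hmap : ∀ i : Fin N, ∫ h, logZ0 R m (G fun k => h (i, k)) ∂gauss (Fin N × K) =
      ∫ z, logZ0 R m (G z) ∂gauss K := fun i => by
    conv_rhs => rw [← map_coord (N := N) i]
    rw [integral_map (measurable_pi_lambda _ fun k => measurable_pi_apply _).aemeasurable
      hcont.aestronglyMeasurable]
  have hi : ∀ i : Fin N, Integrable (fun h => logZ0 R m (G fun k => h (i, k))) (gauss (Fin N × K)) :=
    fun i => by
      have := (integrable_map_measure (μ := gauss (Fin N × K)) (f := fun h k => h (i, k))
        (g := fun z => logZ0 R m (G z))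
        (by rw [map_coord]; exact hcont.aestronglyMeasurable)
        (measurable_pi_lambda _ fun k => measurable_pi_apply _).aemeasurable).1 (by rw [map_coord]; exact hint)
      exact this
  simp only [Pv, hbase, linVal, hsite]
  rw [integral_const, probReal_univ, one_smul, integral_finsetSum _ fun i _ => hi i]
  simp only [hmap]
  simp [G]

/-- all patterns and no site field -/
theorem Pv_end (hN : 1 ≤ N) (hm : ∀ {Ω : Type} (w : List Ω → ℝ), (∀ p, 0 < w p) → Ok R m w)
    (hR : 1 ≤ R) (hf : Continuous f) {Bp : ℝ} (hb : ∀ x, |f x| ≤ Bp) (M : ℕ) :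
    Pv f N R m v M 0 = N * pressure (isingUniform N) f M := by
  have hN0 : (N : ℝ) ≠ 0 := Nat.cast_ne_zero.2 (by omega)
  rw [Lim.pressure_eq_free hf hb, mul_div_cancel₀ _ hN0, Lim.free,
    Lim.iterate_eq_integral hf hb (fun _ => by unfold Lim.wt; positivity)]
  simp only [Pv, linVal, linW_zero, integral_const, probReal_univ, one_smul]
  refine integral_congr_ae (Filter.Eventually.of_forall fun g => ?_)
  simp only
  rw [logZ0_last (Ω := Site N L) (w := base f R g) (F := fun o => ham f g fun i => (o i).1)
    (hm _ fun p => ham_pos f g _) hR (fun _ => (false, 0)) (fun o => ham_pos f g _) fun p _ => rfl]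
  have e : avg (fun o : Site N L => ham f g fun i => (o i).1) = ∑ σ, Lim.wt N σ * ham f g σ := by
    have h1 := Vale.Agent.P168.MP.Upper.avg_equiv (Equiv.arrowProdEquivProdArrow (Fin N) (fun _ => Bool) (fun _ => Fin L))
      (fun o : (Fin N → Bool) × (Fin N → Fin L) => ham f g o.1)
    rw [show (fun o : Site N L => ham f g fun i => (o i).1) = fun o : Site N L =>
      ham f g ((Equiv.arrowProdEquivProdArrow (Fin N) (fun _ => Bool) (fun _ => Fin L) o).1) from rfl, h1,
      Vale.Agent.P168.MP.Upper.avg_fst (B := Fin N → Fin L) (ham f g), avg, Finset.sum_div]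
    refine sum_congr rfl fun σ _ => ?_
    simp [Lim.wt, div_eq_inv_mul]
  rw [e, Lim.lse]
  refine congrArg Real.log (sum_congr rfl fun σ _ => ?_)
  simp [ham, Lim.inc]

end Vale.Agent.P157.Par
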