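import Vale.Agent.P157.Par.Defs
import Vale.Agent.P157.PD.Core
import Vale.Agent.P168.MP.Upper.Tree

/-! Concavity of `E log nest` of one pattern along the interpolation of two covariances, for
`e^f = c - ft ν` (series with nonnegative coefficients and convex moments), and the slope bound. -/

open MeasureTheory ProbabilityTheory Set Filter
open scoped Topology
open Vale.Agent.P150 (gauss dot)
open Vale.Agent.P168.MP (Ok nest logZ0 Z)
open Vale.Agent.P157.Lim (cvec)
open Vale.Agent.P157.PD (ft abs_ft continuous_ft)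

namespace Vale.Agent.P157.Par

open Vale.Agent.P168.MP.Upper (Exps leaves coefTop coefTop_nonneg J Pr isExp_J hasSum_log)

/-! ### moments of products -/

section moments

variable {ν : Measure ℝ} [IsFiniteMeasure ν] {S ι κ : Type*} [Fintype ι] [Fintype κ]
  {a : S → ι → ℝ} {b : S → κ → ℝ}

/-- product of `ft` at the fields of the listed states -/
noncomputable def ftProd (ν : Measure ℝ) (a : S → ι → ℝ) (b : S → κ → ℝ) (t : ℝ) (ps : List S)
    (g : ι ⊕ κ → ℝ) : ℝ := (ps.map fun s => ft ν (dot (cvec a b t s) g)).prod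

/-- the moment of a product with an oscillatory factor -/
noncomputable def momL (ν : Measure ℝ) (a : S → ι → ℝ) (b : S → κ → ℝ) (t : ℝ) (ps : List S)
    (A : ι → ℝ) (B : κ → ℝ) : ℝ :=
  ∫ g, Real.cos (dot (cvec (fun _ : Unit => A) (fun _ => B) t ()) g) *
    ftProd ν a b t ps g ∂gauss (ι ⊕ κ)

lemma continuous_ftProd (t : ℝ) (ps : List S) : Continuous (ftProd ν a b t ps) := by
  induction ps with
  | nil => exact continuous_const
  | cons s ps ih =>
    show Continuous fun g => ft ν (dot (cvec a b t s) g) * ftProd ν a b t ps g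
    exact (continuous_ft.comp (by unfold dot; fun_prop)).mul ih

lemma abs_ftProd (t : ℝ) (ps : List S) (g : ι ⊕ κ → ℝ) :
    |ftProd ν a b t ps g| ≤ ν.real univ ^ ps.length := by
  induction ps with
  | nil => simp [ftProd]
  | cons s ps ih =>
    show |ft ν (dot (cvec a b t s) g) * ftProd ν a b t ps g| ≤ _
    rw [abs_mul, List.length_cons, pow_succ']
    exact mul_le_mul (abs_ft _) ih (abs_nonneg _) measureReal_nonneg

lemma integrable_cos_ftProd (t : ℝ) (ps : List S) {p : (ι ⊕ κ → ℝ) → ℝ} (hp : Continuous p) :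
    Integrable (fun g => Real.cos (p g) * ftProd ν a b t ps g) (gauss (ι ⊕ κ)) :=
  Integrable.of_bound ((Real.continuous_cos.comp hp).mul (continuous_ftProd t ps)).aestronglyMeasurable
    (ν.real univ ^ ps.length) (Eventually.of_forall fun g => by
      rw [Real.norm_eq_abs, abs_mul]
      exact (mul_le_mul (Real.abs_cos_le_one _) (abs_ftProd t ps g) (abs_nonneg _)
        zero_le_one).trans_eq (one_mul _))

lemma momL_cons (t : ℝ) (s : S) (ps : List S) (A : ι → ℝ) (B : κ → ℝ) :
    momL ν a b t (s :: ps) A B = ∫ τ,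
      (momL ν a b t ps (fun i => A i + τ * a s i) (fun j => B j + τ * b s j) +
        momL ν a b t ps (fun i => A i + (-τ) * a s i) (fun j => B j + (-τ) * b s j)) / 2 ∂ν := by
  set p := fun g => dot (cvec (fun _ : Unit => A) (fun _ => B) t ()) g
  set q := fun g => dot (cvec a b t s) g
  have pc : Continuous p := by unfold p dot; fun_prop
  have qc : Continuous q := by unfold q dot; fun_prop
  have yc := continuous_ftProd (ν := ν) (a := a) (b := b) t ps
  have e : momL ν a b t (s :: ps) A B =
      ∫ g, ∫ τ, Real.cos (p g) * ftProd ν a b t ps g * Real.cos (τ * q g) ∂ν ∂gauss (ι ⊕ κ) := by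
    refine integral_congr_ae (Eventually.of_forall fun g => ?_)
    show Real.cos (p g) * (ft ν (q g) * ftProd ν a b t ps g) =
      ∫ τ, Real.cos (p g) * ftProd ν a b t ps g * Real.cos (τ * q g) ∂ν
    rw [integral_const_mul, ft]; ring
  rw [e, integral_integral_swap]
  · refine integral_congr_ae (Eventually.of_forall fun τ => ?_)
    have hm : ∀ σ : ℝ, momL ν a b t ps (fun i => A i + σ * a s i) (fun j => B j + σ * b s j) =
        ∫ g, Real.cos (p g + σ * q g) * ftProd ν a b t ps g ∂gauss (ι ⊕ κ) := fun σ => by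
      refine integral_congr_ae (Eventually.of_forall fun g => ?_)
      simp only [Vale.Agent.P157.PD.dot_cvec_linear]
      rfl
    have hi : ∀ σ : ℝ,
        Integrable (fun g => Real.cos (p g + σ * q g) * ftProd ν a b t ps g) (gauss (ι ⊕ κ)) :=
      fun σ => integrable_cos_ftProd t ps (pc.add (continuous_const.mul qc))
    simp only [hm]
    rw [← integral_add (hi τ) (hi (-τ)), ← integral_div]
    refine integral_congr_ae (Eventually.of_forall fun g => ?_)
    simp only [neg_mul, ← sub_eq_add_neg, Real.cos_add, Real.cos_sub]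
    ring
  · refine Integrable.of_bound (Continuous.aestronglyMeasurable ?_) (ν.real univ ^ ps.length)
      (Eventually.of_forall fun z => ?_)
    · exact (((Real.continuous_cos.comp pc).mul yc).comp continuous_fst).mul
        (Real.continuous_cos.comp (continuous_snd.mul (qc.comp continuous_fst)))
    · simp only [Function.uncurry, Real.norm_eq_abs, abs_mul]
      exact (mul_le_mul ((mul_le_mul (Real.abs_cos_le_one _) (abs_ftProd t ps z.1) (abs_nonneg _)
        zero_le_one).trans_eq (one_mul _)) (Real.abs_cos_le_one _) (abs_nonneg _)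
        (by positivity)).trans_eq (mul_one _)

lemma integrable_momL (t : ℝ) (s : S) (ps : List S) (A : ι → ℝ) (B : κ → ℝ) (k : ℝ) :
    Integrable (fun τ =>
      momL ν a b t ps (fun i => A i + k * τ * a s i) (fun j => B j + k * τ * b s j)) ν := by
  have bnd : ∀ τ g, |Real.cos (dot (cvec (fun _ : Unit => fun i => A i + k * τ * a s i)
      (fun _ => fun j => B j + k * τ * b s j) t ()) g) * ftProd ν a b t ps g| ≤
        ν.real univ ^ ps.length := fun τ g => by
    rw [abs_mul]
    exact (mul_le_mul (Real.abs_cos_le_one _) (abs_ftProd t ps g) (abs_nonneg _)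
      zero_le_one).trans_eq (one_mul _)
  refine Integrable.of_bound (Continuous.aestronglyMeasurable ?_) (ν.real univ ^ ps.length)
    (Eventually.of_forall fun τ => ?_)
  · refine continuous_of_dominated (bound := fun _ => ν.real univ ^ ps.length) (fun τ => ?_)
      (fun τ => Eventually.of_forall fun g => bnd τ g) (integrable_const _)
      (Eventually.of_forall fun g => ?_)
    · exact ((Real.continuous_cos.comp (by unfold dot; fun_prop)).mul
        (continuous_ftProd t ps)).aestronglyMeasurable
    · simp only [Vale.Agent.P157.PD.dot_cvec_linear]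
      fun_prop
  · exact (norm_integral_le_of_norm_le_const (Eventually.of_forall fun g => bnd τ g)).trans_eq
      (by simp)

/-- moments of products are convex along the interpolation -/
lemma momL_convex {t : ℝ} (h0 : 0 ≤ t) (h1 : t ≤ 1) (ps : List S) :
    ∀ (A : ι → ℝ) (B : κ → ℝ),
      momL ν a b t ps A B ≤ t * momL ν a b 1 ps A B + (1 - t) * momL ν a b 0 ps A B := by
  induction ps with
  | nil =>
    intro A B
    have e : ∀ u : ℝ, 0 ≤ u → u ≤ 1 →
        momL ν a b u [] A B = Real.exp (-(u * dot A A + (1 - u) * dot B B) / 2) := fun u u0 u1 => by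
      rw [← Vale.Agent.P157.PD.dot_cvec_self A B u0 u1, ← Vale.Agent.P157.PD.integral_cos_dot]
      simp [momL, ftProd]
    rw [e t h0 h1, e 1 zero_le_one le_rfl, e 0 le_rfl zero_le_one]
    have := convexOn_exp.2 (mem_univ (-(dot A A) / 2)) (mem_univ (-(dot B B) / 2)) h0
      (show 0 ≤ 1 - t by linarith) (by ring)
    simp only [smul_eq_mul] at this
    simp only [one_mul, zero_mul, sub_self, sub_zero, add_zero, zero_add]
    rwa [show -(t * dot A A + (1 - t) * dot B B) / 2 =
      t * (-dot A A / 2) + (1 - t) * (-dot B B / 2) by ring]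
  | cons s ps ih =>
    intro A B
    simp only [momL_cons]
    have hi : ∀ u : ℝ, Integrable (fun τ =>
        (momL ν a b u ps (fun i => A i + τ * a s i) (fun j => B j + τ * b s j) +
        momL ν a b u ps (fun i => A i + (-τ) * a s i) (fun j => B j + (-τ) * b s j)) / 2) ν :=
      fun u => by
      have p := integrable_momL (ν := ν) (a := a) (b := b) u s ps A B 1
      have m := integrable_momL (ν := ν) (a := a) (b := b) u s ps A B (-1)
      simp only [one_mul, neg_mul] at p m
      simpa [neg_mul] using (p.add m).div_const 2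
    rw [← integral_const_mul, ← integral_const_mul,
      ← integral_add ((hi 1).const_mul _) ((hi 0).const_mul _)]
    refine integral_mono (hi t) (((hi 1).const_mul _).add ((hi 0).const_mul _)) fun τ => ?_
    have a1 := ih (fun i => A i + τ * a s i) (fun j => B j + τ * b s j)
    have a2 := ih (fun i => A i + (-τ) * a s i) (fun j => B j + (-τ) * b s j)
    linarith

lemma ftProd_convex {t : ℝ} (h0 : 0 ≤ t) (h1 : t ≤ 1) (ps : List S) :
    ∫ g, ftProd ν a b t ps g ∂gauss (ι ⊕ κ) ≤
      t * ∫ g, ftProd ν a b 1 ps g ∂gauss (ι ⊕ κ) +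
        (1 - t) * ∫ g, ftProd ν a b 0 ps g ∂gauss (ι ⊕ κ) := by
  simpa [momL, dot, cvec] using
    momL_convex (ν := ν) (a := a) (b := b) h0 h1 ps (fun _ => 0) (fun _ => 0)

end moments

/-! ### exponents at all levels -/

variable {Ω : Type} [Fintype Ω] {R : ℕ} {m : ℕ → ℝ} {w : List Ω → ℝ}

/-- `m` extended by `1` outside `1..R` -/
noncomputable def mfix (R : ℕ) (m : ℕ → ℝ) (l : ℕ) : ℝ := if 1 ≤ l ∧ l ≤ R then m l else 1

omit [Fintype Ω] in
lemma exps_mfix (hm : Ok R m w) : Exps R (mfix R m) where
  pos l := by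
    unfold mfix; split_ifs with h
    exacts [hm.pos l h.1 h.2, one_pos]
  mono l h1 h2 := by
    rw [mfix, mfix, if_pos ⟨h1, h2.le⟩, if_pos ⟨by omega, h2⟩]
    exact hm.mono l h1 h2
  top := by
    unfold mfix; split_ifs
    exacts [hm.top, rfl]

lemma Z_congr_exp {m m' : ℕ → ℝ} (w : List Ω → ℝ) : ∀ (k : ℕ) (pre : List Ω),
    (∀ l, pre.length < l → l ≤ pre.length + k → m l = m' l) →
      Z m w k pre = Z m' w k pre
  | 0, pre, _ => by rw [Z, Z]
  | k + 1, pre, h => by
    have e : ∀ o, Z m w k (pre ++ [o]) = Z m' w k (pre ++ [o]) := fun o =>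
      Z_congr_exp w k _ fun l h1 h2 => h l (by simp at h1; omega) (by simp at h2; omega)
    simp only [Z, e, h (pre.length + 1) (by omega) (by omega)]

lemma Z_mfix (R : ℕ) (m : ℕ → ℝ) (w : List Ω → ℝ) :
    Z m w R [] = Z (mfix R m) w R [] :=
  Z_congr_exp w R [] fun l h1 h2 => by simp at h1 h2; rw [mfix, if_pos ⟨h1, h2⟩]

instance countable_tree (k : ℕ) : Countable (Vale.Agent.P168.MP.Upper.Tree k) := by
  induction k with
  | zero => exact inferInstanceAs (Countable Unit)
  | succ k ih =>
    have := ih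
    exact inferInstanceAs (Countable (List (Vale.Agent.P168.MP.Upper.Tree k)))

/-! ### concavity -/

variable {ν : Measure ℝ} [IsFiniteMeasure ν] {c : ℝ} {ι κ : Type} [Fintype ι] [Fintype κ]

/-- the value of one pattern along the interpolation -/
noncomputable def Gint (ν : Measure ℝ) (c : ℝ) (R : ℕ) (m : ℕ → ℝ) (w : List Ω → ℝ)
    (a : List Ω → ι → ℝ) (b : List Ω → κ → ℝ) (t : ℝ) : ℝ :=
  ∫ g, Real.log (nest m w (fac (PD.pot ν c) (fun p => cvec a b t p) g) R []) ∂gauss (ι ⊕ κ)

theorem Gint_concave [Nonempty Ω] (hc : ν.real univ < c) (hm : Ok R m w) (hR : 1 ≤ R)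
    (a : List Ω → ι → ℝ) (b : List Ω → κ → ℝ) {t : ℝ} (h0 : 0 ≤ t) (h1 : t ≤ 1) :
    t * Gint ν c R m w a b 1 + (1 - t) * Gint ν c R m w a b 0 ≤ Gint ν c R m w a b t := by
  obtain ⟨r, rfl⟩ : ∃ r, R = r + 1 := ⟨R - 1, by omega⟩
  set μ := mfix (r + 1) m
  have E : Exps (r + 1) μ := exps_mfix hm
  have hw := hm.wpos
  have c0 : 0 < c := lt_of_le_of_lt measureReal_nonneg hc
  set ρ := ν.real univ / c
  have ρ0 : 0 ≤ ρ := div_nonneg measureReal_nonneg c0.le
  have ρ1 : ρ < 1 := (div_lt_one c0).2 hc
  set X := fun (u : ℝ) (g : ι ⊕ κ → ℝ) (p : List Ω) => ft ν (dot (cvec a b u p) g) / c with hX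
  have hXb : ∀ u g p, |X u g p| ≤ ρ := fun u g p => by
    rw [hX, abs_div, abs_of_pos c0]
    exact div_le_div_of_nonneg_right (abs_ft _) c0.le
  have hX1 : ∀ u g p, |X u g p| < 1 := fun u g p => (hXb u g p).trans_lt ρ1
  have expand : ∀ u g, HasSum
      (fun L => coefTop r μ L * J μ w (r + 1) L [] (Pr (X u g)))
      (Real.log c - Real.log (nest m w (fac (PD.pot ν c) (fun p => cvec a b u p) g) (r + 1) [])) := by
    intro u g
    have hY : ∀ p, 0 < fac (PD.pot ν c) (fun p => cvec a b u p) g p := fun p => Real.exp_pos _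
    have hw' : ∀ p, 0 < w p * (1 - X u g p) := fun p =>
      mul_pos (hw p) (by linarith [(abs_lt.1 (hX1 u g p)).2])
    have e1 : (fun p => w p * fac (PD.pot ν c) (fun p => cvec a b u p) g p) =
        fun p => c * (w p * (1 - X u g p)) := by
      funext p
      rw [fac, PD.pot, Real.exp_log (PD.sub_ft_pos hc _), hX]
      field_simp
    rw [← Vale.Agent.P168.MP.logZ0_mul hw hY, e1, logZ0, logZ0, Z_mfix _ m, Z_mfix _ m w,
      Vale.Agent.P168.MP.Upper.Z_const_mul E.pos (fun p => (hw' p).le) c0.le,
      Real.log_mul c0.ne' (Vale.Agent.P168.MP.Z_pos hw' _ _).ne']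
    have h := hasSum_log E hw (y := 1) (X := X u g) (fun p => by simpa using hX1 u g p)
    simp only [one_pow, mul_one, one_mul] at h
    convert h using 1
    ring
  set T := fun (u : ℝ) (L : List (Vale.Agent.P168.MP.Upper.Tree r)) =>
    coefTop r μ L * J μ w (r + 1) L [] fun ps => ∫ g, Pr (X u g) ps ∂gauss (ι ⊕ κ) with hT
  have hXc : ∀ u ps, Continuous fun g => Pr (X u g) ps := fun u ps => by
    induction ps with
    | nil => simpa [Pr] using continuous_const
    | cons s ps ih =>
      show Continuous fun g => X u g s * Pr (X u g) ps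
      exact ((continuous_ft.comp (by unfold dot; fun_prop)).div_const c).mul ih
  have hPr : ∀ u g ps, |Pr (X u g) ps| ≤ Pr (fun _ : List Ω => ρ) ps := fun u g ps => by
    induction ps with
    | nil => simp [Pr]
    | cons s ps ih =>
      show |X u g s * Pr (X u g) ps| ≤ ρ * Pr (fun _ : List Ω => ρ) ps
      rw [abs_mul]; exact mul_le_mul (hXb u g s) ih (abs_nonneg _) ρ0
  have hint : ∀ u ps, Integrable (fun g => Pr (X u g) ps) (gauss (ι ⊕ κ)) := fun u ps =>
    Integrable.of_bound (hXc u ps).aestronglyMeasurable (Pr (fun _ : List Ω => ρ) ps)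
      (Eventually.of_forall fun g => hPr u g ps)
  have hJ : ∀ L : List (Vale.Agent.P168.MP.Upper.Tree r), J μ w (r + 1) L [] (Pr fun _ : List Ω => ρ) = ρ ^ leaves (r + 1) L := fun L => by
    have h := (isExp_J (m := μ) hw (r + 1) L []).scale ρ (fun _ => (1 : ℝ))
    simp only [mul_one] at h
    rw [h]
    have e : (Pr fun _ : List Ω => (1 : ℝ)) = fun _ => 1 := by funext l; simp [Pr]
    rw [e, (isExp_J (m := μ) hw (r + 1) L []).const, mul_one]
  have hsum : Summable fun L => coefTop r μ L * J μ w (r + 1) L [] (Pr fun _ : List Ω => ρ) := by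
    have h := (hasSum_log E hw (y := 1) (X := fun _ : List Ω => ρ)
      (fun p => by rw [one_mul, abs_of_nonneg ρ0]; exact ρ1)).summable
    simpa using h
  have key : ∀ u, HasSum (T u) (Real.log c - Gint ν c (r + 1) m w a b u) := by
    intro u
    have hb : ∀ L g, ‖coefTop r μ L * J μ w (r + 1) L [] (Pr (X u g))‖ ≤
        coefTop r μ L * J μ w (r + 1) L [] (Pr fun _ : List Ω => ρ) := fun L g => by
      rw [Real.norm_eq_abs, abs_mul, abs_of_nonneg (coefTop_nonneg E L)]
      refine mul_le_mul_of_nonneg_left ?_ (coefTop_nonneg E L)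
      exact ((isExp_J hw _ _ _).abs_le _).trans ((isExp_J hw _ _ _).mono fun l => hPr u g l)
    have hm' : ∀ L, AEStronglyMeasurable
        (fun g => coefTop r μ L * J μ w (r + 1) L [] (Pr (X u g))) (gauss (ι ⊕ κ)) := fun L =>
      ((isExp_J (m := μ) hw (r + 1) L []).integral (hint u)).1.aestronglyMeasurable.const_mul _
    have h := hasSum_integral_of_dominated_convergence (μ := gauss (ι ⊕ κ))
      (fun L _ => coefTop r μ L * J μ w (r + 1) L [] (Pr fun _ : List Ω => ρ)) hm'
      (fun L => Eventually.of_forall (hb L)) (Eventually.of_forall fun _ => hsum)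
      (integrable_const _) (Eventually.of_forall fun g => expand u g)
    have hi : Integrable (fun g => Real.log c -
        Real.log (nest m w (fac (PD.pot ν c) (fun p => cvec a b u p) g) (r + 1) []))
        (gauss (ι ⊕ κ)) := by
      refine Integrable.of_bound (aestronglyMeasurable_of_tendsto_ae atTop
        (f := fun (s : Finset (List (Vale.Agent.P168.MP.Upper.Tree r))) g =>
          ∑ L ∈ s, coefTop r μ L * J μ w (r + 1) L [] (Pr (X u g))) (fun s => ?_)
        (Eventually.of_forall fun g => expand u g))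
        (∑' L, coefTop r μ L * J μ w (r + 1) L [] (Pr fun _ : List Ω => ρ))
        (Eventually.of_forall fun g => ?_)
      · exact Finset.aestronglyMeasurable_fun_sum _ fun L _ => hm' L
      · rw [← (expand u g).tsum_eq]
        exact tsum_of_norm_bounded hsum.hasSum fun L => hb L g
    have hlog : ∫ g, (Real.log c -
        Real.log (nest m w (fac (PD.pot ν c) (fun p => cvec a b u p) g) (r + 1) [])) ∂gauss (ι ⊕ κ) =
          Real.log c - Gint ν c (r + 1) m w a b u := by
      have hi' := (integrable_const (Real.log c)).sub hi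
      simp only [Pi.sub_def, sub_sub_cancel] at hi'
      rw [integral_sub (integrable_const _) hi']
      simp [Gint]
    rw [← hlog]
    refine h.congr_fun fun L => ?_
    simp only [hT]
    rw [integral_const_mul, ((isExp_J (m := μ) hw (r + 1) L []).integral (hint u)).2]
  have hle : ∀ L, T t L ≤ t * T 1 L + (1 - t) * T 0 L := fun L => by
    simp only [hT]
    rw [mul_left_comm t, mul_left_comm (1 - t), ← mul_add]
    refine mul_le_mul_of_nonneg_left ?_ (coefTop_nonneg E L)
    have hX' := isExp_J (m := μ) hw (r + 1) L []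
    rw [← hX'.const_mul, ← hX'.const_mul, ← hX'.add]
    refine hX'.mono fun ps => ?_
    have e : ∀ u g, Pr (X u g) ps = ftProd ν a b u ps g * (1 / c) ^ ps.length := fun u g => by
      induction ps with
      | nil => simp [Pr, ftProd]
      | cons s ps ih =>
        show X u g s * Pr (X u g) ps = ft ν (dot (cvec a b u s) g) * ftProd ν a b u ps g * _
        rw [ih, List.length_cons, pow_succ', hX]; ring
    simp only [e, integral_mul_const]
    have := mul_le_mul_of_nonneg_right (ftProd_convex (ν := ν) (a := a) (b := b) h0 h1 ps)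
      (show (0 : ℝ) ≤ (1 / c) ^ ps.length by positivity)
    linarith
  have := hasSum_le hle (key t) (((key 1).mul_left t).add ((key 0).mul_left (1 - t)))
  linarith

/-- a concave function with continuous derivative lies below its tangent at `0` -/
lemma slope_le {G G' : ℝ → ℝ} (hG : ContinuousOn G (Icc 0 1)) (hG' : ContinuousOn G' (Icc 0 1))
    (hd : ∀ t ∈ Ioo (0 : ℝ) 1, HasDerivAt G (G' t) t)
    (hc : ∀ t ∈ Ioo (0 : ℝ) 1, t * G 1 + (1 - t) * G 0 ≤ G t) : G 1 - G 0 ≤ G' 0 := by
  have h : ∀ t ∈ Ioo (0 : ℝ) 1, ∃ ξ ∈ Ioo 0 t, G 1 - G 0 ≤ G' ξ := by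
    intro t ht
    obtain ⟨ξ, hξ, he⟩ := exists_hasDerivAt_eq_slope G G' ht.1
      (hG.mono (Icc_subset_Icc_right ht.2.le)) fun x hx => hd x ⟨hx.1, hx.2.trans ht.2⟩
    refine ⟨ξ, hξ, ?_⟩
    rw [he, sub_zero, le_div_iff₀ ht.1]
    linarith [hc t ht]
  refine le_of_forall_pos_lt_add fun ε hε => ?_
  obtain ⟨δ, hδ, hδ'⟩ := Metric.continuousWithinAt_iff.1 (hG' 0 (left_mem_Icc.2 zero_le_one)) ε hε
  obtain ⟨ξ, hξ, hle⟩ := h (min δ 1 / 2) ⟨by positivity, by
    linarith [min_le_right δ 1]⟩
  have hξ1 : ξ ≤ 1 := by linarith [hξ.2, min_le_right δ 1]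
  have := hδ' (show ξ ∈ Icc (0 : ℝ) 1 from ⟨hξ.1.le, hξ1⟩)
    (by rw [Real.dist_eq, sub_zero, abs_of_pos hξ.1]; linarith [hξ.2, min_le_left δ 1])
  rw [Real.dist_eq, abs_lt] at this
  linarith

end Vale.Agent.P157.Par
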