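import Vale.Agent.P157.Par.InterpBase

/-! A linear Gaussian field in the weight: the derivative of the nested log functional in the variance. -/

open MeasureTheory ProbabilityTheory Set
open Vale.Agent.P150 (gauss dot l1 l1_nonneg abs_dot_le gauss_ibp integrable_exp_l1)
open Vale.Agent.P168.MP (Ok Valid ET att logZ0 nest Supp)

namespace Vale.Agent.P157.Par

variable {Ω ι : Type} [Fintype Ω] [Nonempty Ω] [Fintype ι] {R : ℕ} {m : ℕ → ℝ} {w : List Ω → ℝ}
  {a : List Ω → ι → ℝ} {A : ℝ}

/-- the weight with a linear field of variance `u` -/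
noncomputable def linW (w : List Ω → ℝ) (a : List Ω → ι → ℝ) (u : ℝ) (g : ι → ℝ) (p : List Ω) : ℝ :=
  w p * Real.exp (√u * dot (a p) g)

/-- mean nested log functional of a linear field of variance `u` -/
noncomputable def linVal (R : ℕ) (m : ℕ → ℝ) (w : List Ω → ℝ) (a : List Ω → ι → ℝ) (u : ℝ) : ℝ :=
  ∫ g, logZ0 R m (linW w a u g) ∂gauss ι

/-- its derivative in the variance -/
noncomputable def linVal' (R : ℕ) (m : ℕ → ℝ) (w : List Ω → ℝ) (a : List Ω → ι → ℝ) (u : ℝ) : ℝ :=
  ((att R m [(0, 0)]).map fun c => c.2 * ∫ g, ET R m (linW w a u g) [c.1, (0, 0)]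
    (fun ps => cv a (ps.getD 0 []) (ps.getD 1 [])) ∂gauss ι).sum / 2

omit [Fintype Ω] [Nonempty Ω] in
lemma linW_pos (hw : ∀ p, 0 < w p) (u : ℝ) (g : ι → ℝ) (p : List Ω) : 0 < linW w a u g p :=
  mul_pos (hw p) (Real.exp_pos _)

omit [Fintype Ω] [Nonempty Ω] in
lemma linW_zero (g : ι → ℝ) : linW w a 0 g = w := by
  funext p; simp [linW]

omit [Fintype Ω] [Nonempty Ω] in
lemma continuous_linW (u : ℝ) (p : List Ω) : Continuous fun g => linW w a u g p := by
  unfold linW dot; fun_prop

omit [Fintype Ω] [Nonempty Ω] in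
lemma continuous_linW_var (g : ι → ℝ) (p : List Ω) : Continuous fun u => linW w a u g p := by
  unfold linW; fun_prop

lemma integral_list_sum {α X : Type} [MeasurableSpace X] {μ : Measure X} (L : List α)
    {F : α → X → ℝ} (hF : ∀ c ∈ L, Integrable (F c) μ) :
    Integrable (fun x => (L.map fun c => F c x).sum) μ ∧
      ∫ x, (L.map fun c => F c x).sum ∂μ = (L.map fun c => ∫ x, F c x ∂μ).sum := by
  induction L with
  | nil => simp
  | cons c L ih =>
    obtain ⟨h1, h2⟩ := ih fun d hd => hF d (List.mem_cons_of_mem _ hd)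
    have hc := hF c List.mem_cons_self
    simp only [List.map_cons, List.sum_cons]
    exact ⟨hc.add h1, by rw [integral_add hc h1, h2]⟩

lemma logZ0_linW_bound (hm : Ok R m w) (hA : ∀ p k, |a p k| ≤ A) (u : ℝ) (g : ι → ℝ) :
    |logZ0 R m (linW w a u g)| ≤ |logZ0 R m w| + √u * A * l1 g := by
  set C := √u * A * l1 g
  have hb : ∀ q : List Ω, Real.exp (-C) ≤ Real.exp (√u * dot (a q) g) ∧
      Real.exp (√u * dot (a q) g) ≤ Real.exp C := fun q => by
    have : |√u * dot (a q) g| ≤ C := by
      rw [abs_mul, abs_of_nonneg (Real.sqrt_nonneg _)]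
      simp only [C, mul_assoc]
      exact mul_le_mul_of_nonneg_left (abs_dot_le (hA q) g) (Real.sqrt_nonneg _)
    exact ⟨Real.exp_le_exp.2 (abs_le.1 this).1, Real.exp_le_exp.2 (abs_le.1 this).2⟩
  have e : logZ0 R m (linW w a u g) = logZ0 R m w +
      Real.log (nest m w (fun p => Real.exp (√u * dot (a p) g)) R []) := by
    rw [← Vale.Agent.P168.MP.logZ0_mul hm.wpos fun p => Real.exp_pos _]
    simp only [add_sub_cancel]
    rfl
  obtain ⟨h1, h2⟩ := Vale.Agent.P168.MP.nest_mem (Y := fun p => Real.exp (√u * dot (a p) g)) hm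
    (Real.exp_pos (-C)) (fun q _ => hb q) R [] (by simp)
  rw [e]
  refine (abs_add_le _ _).trans (add_le_add le_rfl ?_)
  rw [abs_le]
  constructor
  · simpa using Real.log_le_log (Real.exp_pos _) h1
  · simpa using Real.log_le_log ((Real.exp_pos _).trans_le h1) h2

lemma continuousOn_linVal (hm : Ok R m w) (hA : ∀ p k, |a p k| ≤ A) :
    ContinuousOn (linVal R m w a) (Icc 0 1) := by
  intro u hu
  refine continuousWithinAt_of_dominated (bound := fun g => |logZ0 R m w| + |A| * Real.exp (1 * l1 g))
    ?_ ?_ ((integrable_const _).add ((integrable_exp_l1 1).const_mul _)) ?_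
  · exact Filter.Eventually.of_forall fun s => ((continuous_Z (fun p => continuous_linW s p)
      (linW_pos hm.wpos s) R []).log fun g =>
        (Vale.Agent.P168.MP.Z_pos (linW_pos hm.wpos s g) R []).ne').aestronglyMeasurable
  · filter_upwards [self_mem_nhdsWithin] with s hs
    refine Filter.Eventually.of_forall fun g => (logZ0_linW_bound hm hA s g).trans (add_le_add le_rfl ?_)
    calc √s * A * l1 g ≤ 1 * |A| * l1 g := by
          refine mul_le_mul_of_nonneg_right ((mul_le_mul_of_nonneg_left (le_abs_self A)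
            (Real.sqrt_nonneg _)).trans ?_) (l1_nonneg g)
          exact mul_le_mul_of_nonneg_right (Real.sqrt_le_one.2 hs.2) (abs_nonneg _)
      _ ≤ |A| * Real.exp (1 * l1 g) := by
          rw [one_mul, one_mul]
          exact mul_le_mul_of_nonneg_left (by linarith [Real.add_one_le_exp (l1 g)]) (abs_nonneg _)
  · exact Filter.Eventually.of_forall fun g => ((continuous_Z (fun p => continuous_linW_var g p)
      (fun s p => linW_pos hm.wpos s g p) R []).log fun s =>
        (Vale.Agent.P168.MP.Z_pos (linW_pos hm.wpos s g) R []).ne').continuousWithinAt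

/-- Gaussian integration by parts in the exponent -/
theorem hasDerivAt_linVal (hm : Ok R m w) (hA : ∀ p k, |a p k| ≤ A) {u : ℝ} (hu : 0 < u) :
    HasDerivAt (linVal R m w a) (linVal' R m w a u) u := by
  classical
  have hA0 : ∀ (p : List Ω) (k : ι), |a p k| ≤ |A| := fun p k => (hA p k).trans (le_abs_self A)
  have hok : ∀ s g, Ok R m (linW w a s g) := fun s g => ok_reweight hm (linW_pos hm.wpos s g)
  have hT : Valid R [(0, 0)] := ⟨rfl, rfl⟩
  have hcd : ∀ p : List Ω, Continuous fun g : ι → ℝ => dot (a p) g := fun p => by unfold dot; fun_prop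
  set D : ℝ → (ι → ℝ) → ℝ := fun s g =>
    ET R m (linW w a s g) [(0, 0)] fun ps => dot (a (ps.getD 0 [])) g * (1 / (2 * √s))
  have hDb : ∀ s g, |D s g| ≤ |A| * l1 g * (1 / (2 * √s)) := fun s g =>
    Vale.Agent.P168.MP.ET_bound (linW_pos hm.wpos s g) fun ps => by
      rw [abs_mul, abs_of_nonneg (show 0 ≤ 1 / (2 * √s) by positivity)]
      exact mul_le_mul_of_nonneg_right (abs_dot_le (hA0 _) g) (by positivity)
  have hd : ∀ s g, 0 < s → HasDerivAt (fun v => logZ0 R m (linW w a v g)) (D s g) s := fun s g hs => by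
    refine Vale.Agent.P168.MP.hasDerivAt_logZ0 (g := fun p => dot (a p) g * (1 / (2 * √s)))
      (hok s g) fun p => ?_
    exact (((Real.hasDerivAt_sqrt hs.ne').mul_const (dot (a p) g)).exp.const_mul (w p)).congr_deriv
      (by simp only [linW]; ring)
  have hDc : Continuous (D u) := continuous_ET (fun p => continuous_linW u p)
    (fun g p => linW_pos hm.wpos u g p) R _ fun ps => (hcd _).mul continuous_const
  have key := (hasDerivAt_integral_of_dominated_loc_of_deriv_le (μ := gauss ι)
    (F := fun v g => logZ0 R m (linW w a v g)) (F' := D)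
    (bound := fun g => |A| * (1 / (2 * √(u / 2))) * Real.exp (1 * l1 g))
    (Metric.ball_mem_nhds u (half_pos hu))
    (Filter.Eventually.of_forall fun s => ((continuous_Z (fun p => continuous_linW s p)
      (linW_pos hm.wpos s) R []).log fun g =>
        (Vale.Agent.P168.MP.Z_pos (linW_pos hm.wpos s g) R []).ne').aestronglyMeasurable)
    (Vale.Agent.P150.integrable_of_bound (C := |logZ0 R m w| + √u * |A|) (M := 1)
      ((continuous_Z (fun p => continuous_linW u p) (linW_pos hm.wpos u) R []).log fun g =>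
        (Vale.Agent.P168.MP.Z_pos (linW_pos hm.wpos u g) R []).ne') fun g => ?_)
    hDc.aestronglyMeasurable (Filter.Eventually.of_forall fun g s hs => ?_)
    ((integrable_exp_l1 1).const_mul _) (Filter.Eventually.of_forall fun g s hs => hd s g ?_)).2
  rotate_left
  · rw [one_mul]
    refine (logZ0_linW_bound hm hA0 u g).trans ?_
    have h1 : 1 ≤ Real.exp (l1 g) := Real.one_le_exp (l1_nonneg g)
    have h2 : l1 g ≤ Real.exp (l1 g) := by linarith [Real.add_one_le_exp (l1 g)]
    nlinarith [mul_le_mul_of_nonneg_left h1 (abs_nonneg (logZ0 R m w)),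
      mul_le_mul_of_nonneg_left h2 (mul_nonneg (Real.sqrt_nonneg u) (abs_nonneg A))]
  · rw [Metric.mem_ball, Real.dist_eq, abs_lt] at hs
    refine (hDb s g).trans ?_
    rw [one_mul, mul_right_comm]
    have h2 : l1 g ≤ Real.exp (l1 g) := by linarith [Real.add_one_le_exp (l1 g)]
    have h3 : √(u / 2) ≤ √s := Real.sqrt_le_sqrt (by linarith [hs.1])
    have h4 : 0 < √(u / 2) := Real.sqrt_pos.2 (half_pos hu)
    exact mul_le_mul (mul_le_mul_of_nonneg_left (one_div_le_one_div_of_le (by positivity)
      (by linarith)) (abs_nonneg _)) h2 (l1_nonneg g) (by positivity)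
  · rw [Metric.mem_ball, Real.dist_eq, abs_lt] at hs
    linarith [hs.1]
  refine key.congr_deriv ?_
  set F : ι → (ι → ℝ) → ℝ := fun k g => ET R m (linW w a u g) [(0, 0)] fun ps => a (ps.getD 0 []) k
  set E : (ℕ × ℕ) × ℝ → ι → (ι → ℝ) → ℝ := fun c k g =>
    c.2 * ET R m (linW w a u g) [c.1, (0, 0)]
      fun ps => a (ps.getD 0 []) k * (√u * a (ps.getD 1 []) k)
  have hFc : ∀ k, Continuous (F k) := fun k => continuous_ET (fun p => continuous_linW u p)
    (fun g p => linW_pos hm.wpos u g p) R _ fun ps => continuous_const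
  have hFb : ∀ k g, |F k g| ≤ |A| := fun k g =>
    Vale.Agent.P168.MP.ET_bound (linW_pos hm.wpos u g) fun ps => hA0 _ k
  have hEc : ∀ c k, Continuous (E c k) := fun c k => continuous_const.mul
    (continuous_ET (fun p => continuous_linW u p) (fun g p => linW_pos hm.wpos u g p) R _
      fun ps => continuous_const)
  have hEb : ∀ c k g, |E c k g| ≤ |c.2| * (|A| * (√u * |A|)) := fun c k g => by
    simp only [E, abs_mul]
    refine mul_le_mul_of_nonneg_left (Vale.Agent.P168.MP.ET_bound (linW_pos hm.wpos u g) fun ps => ?_)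
      (abs_nonneg _)
    rw [abs_mul, abs_mul, abs_of_nonneg (Real.sqrt_nonneg u)]
    exact mul_le_mul (hA0 _ k) (mul_le_mul_of_nonneg_left (hA0 _ k) (Real.sqrt_nonneg u))
      (by positivity) (abs_nonneg _)
  have hEi : ∀ c k, Integrable (E c k) (gauss ι) := fun c k =>
    Integrable.of_bound (hEc c k).aestronglyMeasurable (|c.2| * (|A| * (√u * |A|)))
      (Filter.Eventually.of_forall fun g => hEb c k g)
  have hcl : ∀ k, Continuous fun g => ((att R m [(0, 0)]).map fun c => E c k g).sum := fun k =>
    continuous_list_sum _ fun c _ => hEc c k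
  have hibp : ∀ k, ∫ g, g k * F k g ∂gauss ι =
      ((att R m [(0, 0)]).map fun c => ∫ g, E c k g ∂gauss ι).sum := fun k => by
    rw [← (integral_list_sum _ fun c _ => hEi c k).2]
    refine gauss_ibp (C := |A| + ((att R m [(0, 0)]).map fun c => |c.2| * (|A| * (√u * |A|))).sum)
      (M := 0) k le_rfl (hFc k) (hcl k) (fun g => ?_) (fun g => ?_) fun z t => ?_
    · simp only [zero_mul, Real.exp_zero, mul_one]
      exact (hFb k g).trans (le_add_of_nonneg_right (List.sum_nonneg fun x hx => by
        obtain ⟨c, -, rfl⟩ := List.mem_map.1 hx; positivity))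
    · simp only [zero_mul, Real.exp_zero, mul_one]
      exact ((abs_list_sum _ _).trans (list_sum_le fun c _ => hEb c k g)).trans
        (le_add_of_nonneg_left (abs_nonneg _))
    · have hp : ∀ p : List Ω, HasDerivAt (fun s => linW w a u (Function.update z k s) p)
          (linW w a u (Function.update z k t) p * (√u * a p k)) t := fun p => by
        have h : HasDerivAt (fun s => dot (a p) (Function.update z k s)) (a p k) t := by
          unfold dot
          refine (HasDerivAt.fun_sum fun i _ => HasDerivAt.const_mul (a p i)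
            ((hasDerivAt_pi.1 (hasDerivAt_update z k t)) i)).congr_deriv ?_
          simp [Pi.single_apply]
        exact ((h.const_mul √u).exp.const_mul (w p)).congr_deriv (by simp only [linW]; ring)
      refine (Vale.Agent.P168.MP.hasDerivAt_ET_const
        (w := fun s => linW w a u (Function.update z k s)) (g := fun p => √u * a p k)
        (hok u (Function.update z k t)) hp hT fun ps => a (ps.getD 0 []) k).congr_deriv ?_
      refine congrArg List.sum (List.map_congr_left fun c hc => congrArg (c.2 * ·) ?_)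
      refine Vale.Agent.P168.MP.ET_congr (Vale.Agent.P168.MP.att_valid hT hc) fun ps hs => ?_
      obtain ⟨P, Q, rfl⟩ : ∃ P Q, ps = [P, Q] := List.length_eq_two.1 hs.1
      rfl
  have hint : ∀ k, Integrable (fun g => g k * F k g) (gauss ι) := fun k =>
    Vale.Agent.P150.integrable_of_bound (C := |A|) (M := 1) ((continuous_apply k).mul (hFc k))
      fun g => by
        rw [one_mul, abs_mul, mul_comm |A|]
        exact mul_le_mul ((Vale.Agent.P150.abs_le_l1 g k).trans
          (by linarith [Real.add_one_le_exp (l1 g)])) (hFb k g) (abs_nonneg _) (Real.exp_pos _).le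
  have e1 : ∀ g, D u g = 1 / (2 * √u) * ∑ k, g k * F k g := fun g => by
    simp only [D, F, dot, Vale.Agent.P168.MP.ET_mul_const, Vale.Agent.P168.MP.ET_sum,
      mul_comm (g _), Vale.Agent.P168.MP.ET_mul_const]
    ring
  simp only [e1]
  rw [integral_const_mul, integral_finsetSum _ fun k _ => hint k]
  simp only [hibp, linVal']
  rw [← Vale.Agent.P168.MP.list_sum_map_finset_sum, ← List.sum_map_mul_left]
  conv_rhs => rw [div_eq_mul_inv, ← List.sum_map_mul_right]
  refine congrArg List.sum (List.map_congr_left fun c _ => ?_)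
  rw [← integral_finsetSum _ fun k _ => hEi c k]
  simp only [E, ← Finset.mul_sum, ← Vale.Agent.P168.MP.ET_sum, integral_const_mul]
  have e2 : ∀ (g : ι → ℝ), (ET R m (linW w a u g) [c.1, (0, 0)] fun ps =>
      ∑ k, a (ps.getD 0 []) k * (√u * a (ps.getD 1 []) k)) =
      √u * ET R m (linW w a u g) [c.1, (0, 0)] (fun ps => cv a (ps.getD 0 []) (ps.getD 1 [])) := by
    intro g
    rw [← Vale.Agent.P168.MP.ET_const_mul]
    congr 1; funext ps
    simp only [cv, dot, Finset.mul_sum]
    exact Finset.sum_congr rfl fun k _ => by ring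
  simp only [e2, integral_const_mul]
  have : √u ≠ 0 := (Real.sqrt_pos.2 hu).ne'
  field_simp

end Vale.Agent.P157.Par
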