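import Vale.Agent.P157.Par.UpperBase
import Vale.Agent.P157.Par.UpperLinear

/-! The site fields of the upper bound: configurations carrying one label per site, collisions of the
labels, the derivative in the variance, and the exact value without patterns. -/

open MeasureTheory ProbabilityTheory Finset
open Vale.Agent.P150 (gauss dot)
open Vale.Agent.P168 (sg)
open Vale.Agent.P168.MP (Ok Valid ET att logZ0 nest avg)

namespace Vale.Agent.P157.Par

/-- at every site a spin and a label -/
abbrev Site (N L : ℕ) : Type := Fin N → Bool × Fin L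

/-- node vectors realizing the profile `s` on label paths -/
structure NodeVec (R : ℕ) {L : ℕ} [NeZero L] {K : Type} [Fintype K] (s : ℕ → ℝ)
    (v : List (Fin L) → K → ℝ) : Prop where
  bd : ∀ x, dot (v x) (v x) ≤ s R
  diag : ∀ x : List (Fin L), x.length = R → dot (v x) (v x) = s R
  split : ∀ l, l < R → ∀ x y : List (Fin L), x.length = R → y.length = R → x.take l = y.take l →
    x.getD l 0 ≠ y.getD l 0 → dot (v x) (v y) = s l

variable {N L R : ℕ} [NeZero L] {K : Type} [Fintype K] {s : ℕ → ℝ} {v : List (Fin L) → K → ℝ}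

/-- the configuration read at the last mark -/
def spins (R : ℕ) (p : List (Site N L)) : Fin N → Bool :=
  fun i => (p.getD (R - 1) (fun _ => (false, 0)) i).1

/-- the labels of site `i` along a path -/
def labs (i : Fin N) (p : List (Site N L)) : List (Fin L) := p.map fun o => (o i).2

/-- coefficients of the site field -/
noncomputable def siteVec (R : ℕ) (v : List (Fin L) → K → ℝ) (p : List (Site N L))
    (ik : Fin N × K) : ℝ :=
  if p.length = R then sg (spins R p ik.1) * v (labs ik.1 p) ik.2 else 0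

/-- exponent increments at level `l` -/
def cf (m : ℕ → ℝ) (l : ℕ) : ℝ := (if l = 0 then 0 else m l) - m (l + 1)

lemma abs_dot_node (hv : NodeVec R s v) (x y : List (Fin L)) : |dot (v x) (v y)| ≤ s R := by
  have h0 : 0 ≤ s R := le_trans (sum_nonneg fun k _ => mul_self_nonneg _) (hv.bd x)
  refine abs_le_of_sq_le_sq ?_ h0
  refine (sum_mul_sq_le_sq_mul_sq univ (v x) (v y)).trans ?_
  have e : ∀ z, ∑ k, v z k ^ 2 = dot (v z) (v z) := fun z =>
    sum_congr rfl fun k _ => by ring
  rw [e, e, sq]
  exact mul_le_mul (hv.bd x) (hv.bd y) (sum_nonneg fun k _ => mul_self_nonneg _) h0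

lemma node_nonneg (hv : NodeVec R s v) : 0 ≤ s R :=
  le_trans (sum_nonneg fun k _ => mul_self_nonneg _) (hv.bd [])

lemma abs_v_le (hv : NodeVec R s v) (x : List (Fin L)) (k : K) : |v x k| ≤ √(s R) := by
  refine Real.abs_le_sqrt (le_trans ?_ (hv.bd x))
  rw [sq]
  exact single_le_sum (f := fun k => v x k * v x k) (fun _ _ => mul_self_nonneg _) (mem_univ k)

lemma abs_sg (b : Bool) : |sg b| = 1 := by cases b <;> simp [sg]

lemma abs_siteVec_le (hv : NodeVec R s v) (p : List (Site N L)) (ik : Fin N × K) :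
    |siteVec R v p ik| ≤ √(s R) := by
  unfold siteVec
  split_ifs
  · rw [abs_mul, abs_sg, one_mul]; exact abs_v_le hv _ _
  · simpa using Real.sqrt_nonneg _

lemma cv_siteVec {p p' : List (Site N L)} (hp : p.length = R) (hp' : p'.length = R) :
    cv (siteVec R v) p p' =
      ∑ i, sg (spins R p i) * sg (spins R p' i) * dot (v (labs i p)) (v (labs i p')) := by
  simp only [cv, dot, siteVec, if_pos hp, if_pos hp', Fintype.sum_prod_type, mul_sum]
  exact sum_congr rfl fun i _ => sum_congr rfl fun k _ => by ring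

lemma sg_mul_self (b : Bool) : sg b * sg b = 1 := by cases b <;> simp [sg]

lemma cv_siteVec_self (hv : NodeVec R s v) {p : List (Site N L)} (hp : p.length = R) :
    cv (siteVec R v) p p = N * s R := by
  rw [cv_siteVec hp hp]
  simp [sg_mul_self, hv.diag _ (show (labs _ p).length = R by simp [labs, hp])]

lemma sum_sg_eq [NeZero N] (σ τ : Fin N → Bool) : ∑ i, sg (σ i) * sg (τ i) = N * ov σ τ := by
  rw [ov, avg, Fintype.card_fin, mul_div_cancel₀]
  exact Nat.cast_ne_zero.2 (NeZero.ne N)

lemma dot_siteVec_self_le (hv : NodeVec R s v) (p : List (Site N L)) :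
    dot (siteVec R v p) (siteVec R v p) ≤ N * s R := by
  by_cases hp : p.length = R
  · exact (cv_siteVec_self hv hp).le
  · simp only [dot, siteVec, if_neg hp, mul_zero, sum_const_zero]
    exact mul_nonneg (Nat.cast_nonneg _) (node_nonneg hv)

/-- indicator that two paths read the same label of site `i` at level `l + 1` -/
noncomputable def coll (i : Fin N) (l : ℕ) (ps : List (List (Site N L))) : ℝ :=
  if (((ps.getD 1 []).getD l fun _ => (false, 0)) i).2 =
    (((ps.getD 0 []).getD l fun _ => (false, 0)) i).2 then 1 else 0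

lemma coll_nonneg (i : Fin N) (l : ℕ) (ps : List (List (Site N L))) : 0 ≤ coll i l ps := by
  unfold coll; split_ifs <;> norm_num

lemma avg_label (i : Fin N) (x : Fin L) :
    avg (fun o : Site N L => if (o i).2 = x then (1 : ℝ) else 0) = 1 / L := by
  have h := Vale.Agent.P168.MP.Upper.avg_pi
    (fun j (a : Bool × Fin L) => if j = i then (if a.2 = x then (1 : ℝ) else 0) else 1)
  have e : ∀ o : Site N L, ∏ j, (if j = i then (if (o j).2 = x then (1 : ℝ) else 0) else 1) =
      if (o i).2 = x then (1 : ℝ) else 0 := fun o => by simp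
  simp only [e] at h
  rw [h, prod_eq_single i (fun j _ hj => ?_) (by simp)]
  · simp only [if_pos]
    have := Vale.Agent.P168.MP.Upper.avg_mul (fun _ : Bool => (1 : ℝ))
      (fun a : Fin L => if a = x then (1 : ℝ) else 0)
    simp only [one_mul, Vale.Agent.P168.MP.avg_const] at this
    rw [this]
    simp [avg]
  · simp only [if_neg hj]
    exact Vale.Agent.P168.MP.avg_const 1

variable {m : ℕ → ℝ}

/-- the collision bound: independent of `L` up to the factor `1 / √L` -/
noncomputable def collK (N R : ℕ) (V C : ℝ) : ℝ :=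
  Real.exp (4 * C) * max 1 (2 ^ (N * R) * (2 * Real.exp ((((2 * N * R : ℕ) : ℝ) * 4) ^ 2 * V / 2)))

lemma ET_coll_le [NeZero N] (hm : ∀ w : List (Site N L) → ℝ, (∀ p, 0 < w p) → Ok R m w)
    (hv : NodeVec R s v) {F : List (Site N L) → ℝ} {C : ℝ}
    (hF : ∀ p, Real.exp (-C) ≤ F p ∧ F p ≤ Real.exp C) {u : ℝ} (hu0 : 0 ≤ u) (hu1 : u ≤ 1)
    (i : Fin N) {l : ℕ} (hl : l < R) :
    ∫ h, ET R m (linW F (siteVec R v) u h) [(0, l), (0, 0)] (coll i l) ∂gauss (Fin N × K) ≤
      collK N R (N * s R) C / √L := by
  set P := Fin R → Site N L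
  set a : P → Fin N × K → ℝ := fun q => siteVec R v (List.ofFn q)
  set n := 2 * N * R
  obtain ⟨hI, hIn⟩ := integral_exp_fmax a (fun q => dot_siteVec_self_le hv _)
    (show (0 : ℝ) ≤ 4 by norm_num) n
  have hX : ∀ (p : List (Site N L)) h, |√u * dot (siteVec R v p) h| ≤ fmax a h := fun p h => by
    have h1 : |dot (siteVec R v p) h| ≤ fmax a h := by
      by_cases hp : p.length = R
      · subst hp
        have := le_fmax a h fun j => p.get j
        simpa [a, List.ofFn_get] using this
      · simp only [dot, siteVec, if_neg hp, zero_mul, sum_const_zero, abs_zero]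
        exact (abs_nonneg _).trans (le_fmax a h fun _ => fun _ => (false, 0))
    rw [abs_mul, abs_of_nonneg (Real.sqrt_nonneg _)]
    exact (mul_le_of_le_one_left (abs_nonneg _) (Real.sqrt_le_one.2 hu1)).trans h1
  have hF0 : ∀ p, 0 < F p := fun p => (Real.exp_pos _).trans_le (hF p).1
  have hle : ∀ h, ET R m (linW F (siteVec R v) u h) [(0, l), (0, 0)] (coll i l) ≤
      Real.exp (4 * C) / L * Real.exp (4 * fmax a h) := fun h => by
    have hb : ∀ p, Real.exp (-(C + fmax a h)) ≤ linW F (siteVec R v) u h p ∧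
        linW F (siteVec R v) u h p ≤ Real.exp (C + fmax a h) := fun p => by
      rw [neg_add, Real.exp_add, Real.exp_add, linW]
      exact ⟨mul_le_mul (hF p).1 (Real.exp_le_exp.2 (abs_le.1 (hX p h)).1) (Real.exp_pos _).le
          (hF0 p).le,
        mul_le_mul (hF p).2 (Real.exp_le_exp.2 (abs_le.1 (hX p h)).2) (Real.exp_pos _).le
          (Real.exp_pos _).le⟩
    have key := ET_tilt_le (hm _ fun _ => one_pos) (Real.exp_pos _) hb hl.le
      (H := coll i l) (coll_nonneg i l)
    simp only [one_mul] at key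
    refine key.trans (le_of_eq ?_)
    have e := ET_one_collision (R := R) (m := m) (fun _ => (false, 0))
      (fun o : Site N L => (o i).2) (δ := 1 / L) (avg_label i) hl
    unfold coll
    rw [e, ← Real.exp_sub, ← Real.exp_nat_mul]
    rw [show ((2 : ℕ) : ℝ) * (C + fmax a h - -(C + fmax a h)) = 4 * C + 4 * fmax a h by
      push_cast; ring, Real.exp_add]
    ring
  refine (integral_mono_of_nonneg (Filter.Eventually.of_forall fun h =>
    Vale.Agent.P168.MP.ET_nonneg (linW_pos hF0 u h) (coll_nonneg i l)) (hI.const_mul _)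
    (Filter.Eventually.of_forall hle)).trans ?_
  rw [integral_const_mul]
  set I := ∫ h, Real.exp (4 * fmax a h) ∂gauss (Fin N × K)
  have hL : (0 : ℝ) < L := Nat.cast_pos.2 (Nat.pos_of_ne_zero (NeZero.ne L))
  have hsL : 0 < √(L : ℝ) := Real.sqrt_pos.2 hL
  have hI0 : 0 ≤ I := integral_nonneg fun h => (Real.exp_pos _).le
  have hcard : (Fintype.card P : ℝ) = 2 ^ (N * R) * √(L : ℝ) ^ n := by
    simp only [P, Site, Fintype.card_fun, Fintype.card_prod, Fintype.card_bool, Fintype.card_fin]
    rw [← pow_mul, show n = 2 * (N * R) by ring, pow_mul (√(L : ℝ)), Real.sq_sqrt hL.le]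
    push_cast; ring
  have hroot : I / √(L : ℝ) ≤
      max 1 (2 ^ (N * R) * (2 * Real.exp ((((n : ℕ) : ℝ) * 4) ^ 2 * (N * s R) / 2))) := by
    rcases le_or_gt (I / √(L : ℝ)) 1 with h1 | h1
    · exact h1.trans (le_max_left _ _)
    have hn : n ≠ 0 := Nat.mul_ne_zero (Nat.mul_ne_zero two_ne_zero (NeZero.ne N)) (by omega)
    refine (le_self_pow₀ h1.le hn).trans (le_trans ?_ (le_max_right _ _))
    rw [div_pow, div_le_iff₀ (pow_pos hsL _)]
    refine hIn.trans (le_of_eq ?_)
    rw [hcard]; ring
  calc Real.exp (4 * C) / L * I = Real.exp (4 * C) * (I / √(L : ℝ)) / √(L : ℝ) := by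
        rw [mul_div_assoc', div_div, Real.mul_self_sqrt hL.le]; ring
    _ ≤ _ := div_le_div_of_nonneg_right (mul_le_mul_of_nonneg_left hroot (Real.exp_pos _).le) hsL.le

/-! ### attachments of one replica -/

lemma att_single_sum (hR : 1 ≤ R) (hm : m R = 1) (hlast : m (R + 1) = 0) (Φ : ℕ × ℕ → ℝ) :
    ((att R m [(0, 0)]).map fun c => c.2 * Φ c.1).sum =
      (∑ l ∈ range R, cf m l * Φ (0, l)) + Φ (0, R) := by
  simp only [att, List.map_append, List.map_map, List.map_cons, List.map_nil, List.sum_append,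
    List.sum_cons, List.sum_nil, Function.comp_def, List.length_nil, Nat.zero_add, Nat.sub_zero,
    add_zero]
  rw [sum_range'_eq, show 1 + R = R + 1 by omega, sum_Ico_succ_top hR, range_eq_Ico,
    sum_eq_sum_Ico_succ_bot (show 0 < R by omega), hm, hlast]
  have e : ∀ l ∈ Ico 1 R, (m l - m (l + 1)) * Φ (0, l) = cf m l * Φ (0, l) := fun l hl => by
    rw [cf, if_neg (by have := (mem_Ico.1 hl).1; omega)]
  rw [sum_congr rfl e, cf, if_pos rfl]
  ring

/-- derivative of the site value: the profile times the overlap, up to collisions -/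
theorem linVal'_site [NeZero N] (hR : 1 ≤ R)
    (hm : ∀ w : List (Site N L) → ℝ, (∀ p, 0 < w p) → Ok R m w) (hv : NodeVec R s v)
    {F : List (Site N L) → ℝ} {C : ℝ} (hF : ∀ p, Real.exp (-C) ≤ F p ∧ F p ≤ Real.exp C)
    {u : ℝ} (hu0 : 0 ≤ u) (hu1 : u ≤ 1) :
    |linVal' R m F (siteVec R v) u - 1 / 2 * (N * s R + ∑ l ∈ range R, cf m l * (N * s l *
      ∫ h, ET R m (linW F (siteVec R v) u h) [(0, l), (0, 0)]
        (fun ps => ov (spins R (ps.getD 0 [])) (spins R (ps.getD 1 []))) ∂gauss (Fin N × K)))| ≤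
      ∑ l ∈ range R, |cf m l| * (|s l| + s R) * (N * (collK N R (N * s R) C / √L)) := by
  have hF0 : ∀ p, 0 < F p := fun p => (Real.exp_pos _).trans_le (hF p).1
  have hok := hm F hF0
  have hW : ∀ h, ∀ p, 0 < linW F (siteVec R v) u h p := fun h => linW_pos hF0 u h
  have hint : ∀ (T : List (ℕ × ℕ)) (H : List (List (Site N L)) → ℝ) (B : ℝ), (∀ ps, |H ps| ≤ B) →
      Integrable (fun h => ET R m (linW F (siteVec R v) u h) T H) (gauss (Fin N × K)) :=
    fun T H B hB => Integrable.of_bound (continuous_ET (fun p => continuous_linW u p) hW R T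
      (F := fun _ => H) fun _ => continuous_const).aestronglyMeasurable B
      (Filter.Eventually.of_forall fun h => Vale.Agent.P168.MP.ET_bound (hW h) hB)
  have hcv : ∀ p p' : List (Site N L),
      |cv (siteVec R v) p p'| ≤ Fintype.card (Fin N × K) * (√(s R) * √(s R)) := fun p p' => by
    refine (abs_sum_le_sum_abs _ _).trans ((sum_le_card_nsmul _ _ _ fun ik _ => ?_).trans
      (by simp [nsmul_eq_mul]; rfl))
    rw [abs_mul]
    exact mul_le_mul (abs_siteVec_le hv _ _) (abs_siteVec_le hv _ _) (abs_nonneg _) (Real.sqrt_nonneg _)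
  rw [linVal', att_single_sum hR hok.top hok.last fun x => ∫ h, ET R m (linW F (siteVec R v) u h)
    [x, (0, 0)] (fun ps => cv (siteVec R v) (ps.getD 0 []) (ps.getD 1 [])) ∂gauss (Fin N × K)]
  have htop : ∫ h, ET R m (linW F (siteVec R v) u h) [(0, R), (0, 0)]
      (fun ps => cv (siteVec R v) (ps.getD 0 []) (ps.getD 1 [])) ∂gauss (Fin N × K) = N * s R := by
    have hT : Valid R [(0, R), (0, 0)] := ⟨Nat.zero_lt_one, le_rfl, rfl, rfl⟩
    have e : ∀ h, ET R m (linW F (siteVec R v) u h) [(0, R), (0, 0)]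
        (fun ps => cv (siteVec R v) (ps.getD 0 []) (ps.getD 1 [])) = N * s R := fun h => by
      refine (Vale.Agent.P168.MP.ET_congr hT (G := fun _ => (N : ℝ) * s R) fun ps hs => ?_).trans
        (Vale.Agent.P168.MP.ET_const (hW h) _ _)
      have h01 := hs.2.2 0 1 (by simp) (by simp)
      simp only [show Vale.Agent.P168.MP.sp R [(0, R), (0, 0)] 0 1 = R by
        simp [Vale.Agent.P168.MP.sp],
        List.take_of_length_le (hs.2.1 0 (by simp)).le, List.take_of_length_le (hs.2.1 1 (by simp)).le] at h01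
      rw [← h01, cv_siteVec_self hv (hs.2.1 0 (by simp))]
    simp only [e, integral_const, probReal_univ, one_smul]
  have hl : ∀ l ∈ range R, |(∫ h, ET R m (linW F (siteVec R v) u h) [(0, l), (0, 0)]
      (fun ps => cv (siteVec R v) (ps.getD 0 []) (ps.getD 1 [])) ∂gauss (Fin N × K)) -
      N * s l * ∫ h, ET R m (linW F (siteVec R v) u h) [(0, l), (0, 0)]
        (fun ps => ov (spins R (ps.getD 0 [])) (spins R (ps.getD 1 []))) ∂gauss (Fin N × K)| ≤
      (|s l| + s R) * (N * (collK N R (N * s R) C / √L)) := fun l hl => by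
    have hlR := mem_range.1 hl
    have hT : Valid R [(0, l), (0, 0)] := ⟨Nat.zero_lt_one, hlR.le, rfl, rfl⟩
    have hov : ∀ ps : List (List (Site N L)),
        |(N : ℝ) * s l * ov (spins R (ps.getD 0 [])) (spins R (ps.getD 1 []))| ≤ N * |s l| := fun ps => by
      rw [show (N : ℝ) * s l * ov (spins R (ps.getD 0 [])) (spins R (ps.getD 1 [])) =
        s l * ∑ i, sg (spins R (ps.getD 0 []) i) * sg (spins R (ps.getD 1 []) i) by
          rw [sum_sg_eq]; ring, abs_mul, mul_comm (N : ℝ)]
      refine mul_le_mul_of_nonneg_left ((abs_sum_le_sum_abs _ _).trans ?_) (abs_nonneg _)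
      simp [abs_mul, abs_sg]
    rw [← integral_const_mul, ← integral_sub (hint _ _ _ fun ps => hcv _ _)
      ((hint _ _ 1 fun ps => ?_).const_mul _)]
    · rw [← Real.norm_eq_abs]
      refine (norm_integral_le_integral_norm _).trans ?_
      have hmaj : Integrable (fun h => ∑ i, (|s l| + s R) *
          ET R m (linW F (siteVec R v) u h) [(0, l), (0, 0)] (coll i l)) (gauss (Fin N × K)) :=
        integrable_finsetSum _ fun i _ => (hint _ _ 1 fun ps => by
          rw [abs_of_nonneg (coll_nonneg _ _ _)]; unfold coll; split_ifs <;> norm_num).const_mul _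
      refine (integral_mono_of_nonneg (Filter.Eventually.of_forall fun h => norm_nonneg _) hmaj
        (Filter.Eventually.of_forall fun h => ?_)).trans ?_
      · simp only [Real.norm_eq_abs, ← Vale.Agent.P168.MP.ET_const_mul,
          ← Vale.Agent.P168.MP.ET_sub, ← Vale.Agent.P168.MP.ET_sum]
        refine (Vale.Agent.P168.MP.ET_abs_le (hW h) _ _).trans
          (Vale.Agent.P168.MP.ET_mono_on (hW h) hT fun ps hs => ?_)
        have e := hs.2.2 0 1 (by simp) (by simp)
        simp only [show Vale.Agent.P168.MP.sp R [(0, l), (0, 0)] 0 1 = l by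
          simp [Vale.Agent.P168.MP.sp, hlR.le]] at e
        have l0 := hs.2.1 0 (show 0 < ([(0, l), (0, 0)] : List (ℕ × ℕ)).length by simp)
        have l1 := hs.2.1 1 (show 1 < ([(0, l), (0, 0)] : List (ℕ × ℕ)).length by simp)
        rw [cv_siteVec l0 l1, show (N : ℝ) * s l * ov (spins R (ps.getD 0 [])) (spins R (ps.getD 1 [])) =
          ∑ i, s l * (sg (spins R (ps.getD 0 []) i) * sg (spins R (ps.getD 1 []) i)) by
            rw [← mul_sum, sum_sg_eq]; ring, ← sum_sub_distrib]
        refine (abs_sum_le_sum_abs _ _).trans (sum_le_sum fun i _ => ?_)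
        rw [mul_comm (s l), ← mul_sub, abs_mul, abs_mul, abs_sg, abs_sg, one_mul, one_mul]
        unfold coll
        split_ifs with hc
        · rw [mul_one]
          refine (abs_sub _ _).trans ?_
          linarith [abs_dot_node hv (labs i (ps.getD 0 [])) (labs i (ps.getD 1 []))]
        · rw [mul_zero, hv.split l hlR (labs i (ps.getD 0 [])) (labs i (ps.getD 1 [])) ((List.length_map ..).trans l0) ((List.length_map ..).trans l1)
            (by simp only [labs, ← List.map_take]; rw [e]) ?_, sub_self, abs_zero]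
          have e0 : ∀ p : List (Site N L), p.length = R →
              (labs i p).getD l 0 = ((p.getD l fun _ => (false, 0)) i).2 := fun p hp => by
            rw [List.getD_eq_getElem _ _ (by simp [labs, hp, hlR]),
              List.getD_eq_getElem _ _ (hp ▸ hlR)]
            simp [labs]
          rw [e0 _ l0, e0 _ l1]
          exact fun h => hc h.symm
      · rw [integral_finsetSum _ fun i _ => ?_]
        · simp only [integral_const_mul]
          refine (sum_le_card_nsmul _ _ _ fun i _ => mul_le_mul_of_nonneg_left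
            (ET_coll_le hm hv hF hu0 hu1 i hlR) (add_nonneg (abs_nonneg _) (node_nonneg hv))).trans
            (le_of_eq ?_)
          simp; ring
        · exact (hint _ _ 1 fun ps => by
            rw [abs_of_nonneg (coll_nonneg _ _ _)]; unfold coll; split_ifs <;> norm_num).const_mul _
    · rw [ov, avg, abs_div, Nat.abs_cast]
      refine div_le_one_of_le₀ ((abs_sum_le_sum_abs _ _).trans (le_of_eq ?_)) (Nat.cast_nonneg _)
      simp [abs_mul, abs_sg]
  rw [htop]
  refine le_trans (le_of_eq (congrArg abs ?_))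
    ((abs_sum_le_sum_abs (fun l => 1 / 2 * (cf m l *
      ((∫ h, ET R m (linW F (siteVec R v) u h) [(0, l), (0, 0)]
        (fun ps => cv (siteVec R v) (ps.getD 0 []) (ps.getD 1 [])) ∂gauss (Fin N × K)) -
      N * s l * ∫ h, ET R m (linW F (siteVec R v) u h) [(0, l), (0, 0)]
        (fun ps => ov (spins R (ps.getD 0 [])) (spins R (ps.getD 1 []))) ∂gauss (Fin N × K)))) (range R)).trans
      (sum_le_sum fun l hl' => ?_))
  · rw [← mul_sum]
    simp only [mul_sub, sum_sub_distrib]
    ring
  · rw [abs_mul, abs_mul, abs_of_pos (show (0 : ℝ) < 1 / 2 by norm_num), mul_assoc |cf m l|]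
    have := hl l hl'
    exact (mul_le_of_le_one_left (mul_nonneg (abs_nonneg _) (abs_nonneg _)) (by norm_num)).trans
      (mul_le_mul_of_nonneg_left this (abs_nonneg _))

end Vale.Agent.P157.Par
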