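import Vale.Agent.P157.Par.Interp
import Vale.Agent.P157.Par.NodeLim
import Vale.Agent.P157.Par.UpperConcave
import Vale.Agent.P157.Par.UpperBase
import Vale.Agent.P157.Par.UpperSite

/-! One pattern against the trial field: the slope inequality and what it gives when the trial field is
the node field of a profile. -/

open MeasureTheory ProbabilityTheory Finset
open Vale.Agent.P150 (gauss dot)
open Vale.Agent.P168.MP (Ok Valid Supp ET att logZ0 nest Z)
open Vale.Agent.P157.Lim (cvec)

namespace Vale.Agent.P157.Par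

/-- The slope inequality of one pattern: the value of the field `a` is below the value of the field `b`
plus the derivative at `b`, up to `δ`, when the two covariances are one on the diagonal. -/
def Slope (f f1 : ℝ → ℝ) (R : ℕ) (m : ℕ → ℝ) (δ : ℝ) : Prop :=
  ∀ {Ω ι κ : Type} [Fintype Ω] [Nonempty Ω] [Fintype ι] [Fintype κ] (w : List Ω → ℝ), Ok R m w →
    ∀ (a : List Ω → ι → ℝ) (b : List Ω → κ → ℝ), (∀ p, p.length = R → cv a p p = 1) →
      (∀ p, p.length = R → cv b p p = 1) →
      (∫ g, Real.log (nest m w (fac f a g) R []) ∂gauss ι) -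
          (∫ g, Real.log (nest m w (fac f b g) R []) ∂gauss κ) ≤
        1 / 2 * (∑ l ∈ range R, cf m l * ∫ g, ET R m (fun p => w p * fac f b g p) [(0, l), (0, 0)]
          (fun ps => dd a b (ps.getD 0 []) (ps.getD 1 []) *
            (f1 (dot (b (ps.getD 0 [])) g) * f1 (dot (b (ps.getD 1 [])) g))) ∂gauss κ) + δ

variable {f f1 f2 f3 : ℝ → ℝ} {B D δ : ℝ} {R : ℕ} {m : ℕ → ℝ}

/-- two replicas attached at the top level coincide -/
lemma top_eq {Ω : Type} {ps : List (List Ω)} (hs : Supp R [(0, R), (0, 0)] ps) :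
    ps.getD 0 [] = ps.getD 1 [] := by
  have e := hs.2.2 0 1 (by simp) (by simp)
  simpa only [show Vale.Agent.P168.MP.sp R [(0, R), (0, 0)] 0 1 = R by simp [Vale.Agent.P168.MP.sp],
    List.take_of_length_le (hs.2.1 0 (by simp)).le, List.take_of_length_le (hs.2.1 1 (by simp)).le] using e

/-- the slope inequality from the tangent inequality at the trial end -/
theorem slope_of_tangent (hS : Sd f f1 f2 f3 D) (hR : 1 ≤ R)
    (h : ∀ {Ω ι κ : Type} [Fintype Ω] [Nonempty Ω] [Fintype ι] [Fintype κ] (w : List Ω → ℝ), Ok R m w →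
      ∀ (a : List Ω → ι → ℝ) (b : List Ω → κ → ℝ), (∀ p, p.length = R → cv a p p = 1) →
        (∀ p, p.length = R → cv b p p = 1) →
        (∫ g, Real.log (nest m w (fac f (fun p => cvec a b 1 p) g) R []) ∂gauss (ι ⊕ κ)) -
            (∫ g, Real.log (nest m w (fac f (fun p => cvec a b 0 p) g) R []) ∂gauss (ι ⊕ κ)) ≤
          1 / 2 * (∫ g, (ET R m (fun p => w p * fac f (fun p => cvec a b 0 p) g p) [(0, 0)]
              (fun ps => dd a b (ps.getD 0 []) (ps.getD 0 []) * f2 (dot (cvec a b 0 (ps.getD 0 [])) g)) +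
            ((att R m [(0, 0)]).map fun c => c.2 * ET R m (fun p => w p * fac f (fun p => cvec a b 0 p) g p)
              [c.1, (0, 0)] fun ps => dd a b (ps.getD 0 []) (ps.getD 1 []) *
                (f1 (dot (cvec a b 0 (ps.getD 0 [])) g) * f1 (dot (cvec a b 0 (ps.getD 1 [])) g))).sum)
            ∂gauss (ι ⊕ κ)) + δ) :
    Slope f f1 R m δ := by
  intro Ω ι κ _ _ _ _ w hw a b ha hb
  have hpos : ∀ g p, 0 < w p * fac f b g p := fun g p => mul_pos (hw.wpos p) (Real.exp_pos _)
  have hwc : ∀ p, Continuous fun g : κ → ℝ => w p * fac f b g p := fun p =>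
    continuous_const.mul (continuous_fac hS.cont0 b p)
  have hnc : ∀ {ν : Type} [Fintype ν] (c : List Ω → ν → ℝ),
      Continuous fun g => Real.log (nest m w (fac f c g) R []) := fun c =>
    (continuous_nest (m := m) (w := fun _ => w) (fun _ => continuous_const) (fun _ p => hw.wpos p)
      (continuous_fac hS.cont0 c) (fun _ _ => Real.exp_pos _) R []).log fun g =>
        (Vale.Agent.P168.MP.nest_pos hw.wpos (fun _ => Real.exp_pos _) R []).ne'
  obtain ⟨e1, e0⟩ := integral_end (hnc a) (hnc b)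
  have f1e : ∀ g, fac f (fun p => cvec a b 1 p) g = fac f a fun k => g (.inl k) := fun g => by
    funext p; simp only [fac, (dot_cvec_one p g).1]
  have f0e : ∀ g, fac f (fun p => cvec a b 0 p) g = fac f b fun k => g (.inr k) := fun g => by
    funext p; simp only [fac, (dot_cvec_one p g).2]
  have key := h w hw a b ha hb
  simp only [f1e, f0e, (dot_cvec_one _ _).2, e1, e0] at key
  refine key.trans (le_of_eq ?_)
  congr 2
  set H : ℕ → (κ → ℝ) → ℝ := fun l g => ET R m (fun p => w p * fac f b g p) [(0, l), (0, 0)]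
    fun ps => dd a b (ps.getD 0 []) (ps.getD 1 []) *
      (f1 (dot (b (ps.getD 0 [])) g) * f1 (dot (b (ps.getD 1 [])) g)) with hH
  have hd0 : ∀ p, p.length = R → dd a b p p = 0 := fun p hp => by rw [dd, ha p hp, hb p hp, sub_self]
  have e : ∀ g : κ → ℝ, ET R m (fun p => w p * fac f b g p) [(0, 0)]
      (fun ps => dd a b (ps.getD 0 []) (ps.getD 0 []) * f2 (dot (b (ps.getD 0 [])) g)) +
        ((att R m [(0, 0)]).map fun c => c.2 * ET R m (fun p => w p * fac f b g p)
          [c.1, (0, 0)] fun ps => dd a b (ps.getD 0 []) (ps.getD 1 []) *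
            (f1 (dot (b (ps.getD 0 [])) g) * f1 (dot (b (ps.getD 1 [])) g))).sum =
      ∑ l ∈ range R, cf m l * H l g := fun g => by
    rw [att_single_sum hR hw.top hw.last fun x => ET R m (fun p => w p * fac f b g p) [x, (0, 0)]
      fun ps => dd a b (ps.getD 0 []) (ps.getD 1 []) *
        (f1 (dot (b (ps.getD 0 [])) g) * f1 (dot (b (ps.getD 1 [])) g))]
    have z1 : ET R m (fun p => w p * fac f b g p) [(0, 0)]
        (fun ps => dd a b (ps.getD 0 []) (ps.getD 0 []) * f2 (dot (b (ps.getD 0 [])) g)) = 0 :=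
      (Vale.Agent.P168.MP.ET_congr (show Valid R [(0, 0)] from ⟨rfl, rfl⟩) (G := fun _ => (0 : ℝ)) fun ps hs => by
        rw [hd0 _ (hs.2.1 0 (by simp)), zero_mul]).trans (Vale.Agent.P168.MP.ET_const (hpos g) _ _)
    have z2 : ET R m (fun p => w p * fac f b g p) [(0, R), (0, 0)]
        (fun ps => dd a b (ps.getD 0 []) (ps.getD 1 []) *
          (f1 (dot (b (ps.getD 0 [])) g) * f1 (dot (b (ps.getD 1 [])) g))) = 0 :=
      (Vale.Agent.P168.MP.ET_congr (show Valid R [(0, R), (0, 0)] from ⟨Nat.zero_lt_one, le_rfl, rfl, rfl⟩) (G := fun _ => (0 : ℝ))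
        fun ps hs => by rw [← top_eq hs, hd0 _ (hs.2.1 0 (by simp)), zero_mul]).trans
          (Vale.Agent.P168.MP.ET_const (hpos g) _ _)
    rw [z1, z2, zero_add, add_zero]
  have hfc : ∀ p : List Ω, Continuous fun g : κ → ℝ => f1 (dot (b p) g) := fun p =>
    hS.cont1.comp (continuous_dot_left _)
  have hHc : ∀ l, Continuous (H l) := fun l => continuous_ET hwc hpos R _ fun ps =>
    continuous_const.mul ((hfc _).mul (hfc _))
  have hHi : ∀ l ∈ range R, Integrable (H l) (gauss κ) := fun l hl => by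
    obtain ⟨C, -, hC⟩ := exists_bound_supp (R := R) [(0, l), (0, 0)]
      fun ps : List (List Ω) => dd a b (ps.getD 0 []) (ps.getD 1 [])
    refine Integrable.of_bound (hHc l).aestronglyMeasurable (C * (D * D))
      (Filter.Eventually.of_forall fun g => ?_)
    rw [Real.norm_eq_abs]
    refine (Vale.Agent.P168.MP.ET_abs_le (hpos g) _ _).trans ((Vale.Agent.P168.MP.ET_mono_on (hpos g)
      (show Valid R [(0, l), (0, 0)] from ⟨Nat.zero_lt_one, (mem_range.1 hl).le, rfl, rfl⟩) fun ps hs => ?_).trans_eq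
        (Vale.Agent.P168.MP.ET_const (hpos g) _ _))
    rw [abs_mul, abs_mul]
    exact mul_le_mul (hC ps hs) (mul_le_mul (hS.b1 _) (hS.b1 _) (abs_nonneg _)
      ((abs_nonneg _).trans (hS.b1 0))) (by positivity) ((abs_nonneg _).trans (hC ps hs))
  simp only [e]
  rw [(integral_end (ι := ι) (F := fun _ => (0 : ℝ)) continuous_const
    (G := fun g : κ → ℝ => ∑ l ∈ range R, cf m l * H l g)
    (continuous_finsetSum _ fun l _ => (hHc l).const_mul _)).2,
    integral_finsetSum _ fun l hl => (hHi l hl).const_mul _]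
  simp only [integral_const_mul, hH]

/-- `e ^ f = c - ft ν` has the slope inequality -/
theorem slope_pot {ν : Measure ℝ} [IsFiniteMeasure ν] {c : ℝ} (hc : ν.real Set.univ < c)
    (hS : Sd (PD.pot ν c) f1 f2 f3 D) (hR : 1 ≤ R) : Slope (PD.pot ν c) f1 R m 0 := by
  refine slope_of_tangent hS hR fun w hw a b _ _ => ?_
  obtain ⟨hG, hG', hd⟩ := hasDerivAt_value hS hR hw a b
  have := slope_le hG hG' hd fun t ht => Gint_concave hc hw hR a b ht.1.le ht.2.le
  simpa using this

/-! ### the trial field of a profile -/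

/-- value of the trial field -/
noncomputable def phiN (f : ℝ → ℝ) (R : ℕ) (m q : ℕ → ℝ) (n : ℕ) : ℝ :=
  ∫ z, Real.log (Z m (nodeW (fun y => Real.exp (f y)) R q z) R ([] : List (Fin (n + 1)))) ∂gauss (Ix R n)

/-- correlation of `h` in the trial field -/
noncomputable def Al (f h : ℝ → ℝ) (R : ℕ) (m q : ℕ → ℝ) (n l : ℕ) : ℝ :=
  ∫ z, ET R m (nodeW (fun y => Real.exp (f y)) R q z) [(0, l), (0, 0)]
    (fun ps : List (List (Fin (n + 1))) =>
      h (dot (node R q (ps.getD 0 [])) z) * h (dot (node R q (ps.getD 1 [])) z)) ∂gauss (Ix R n)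

/-- the same with the covariance of the trial field -/
noncomputable def Bl (f h : ℝ → ℝ) (R : ℕ) (m q : ℕ → ℝ) (n l : ℕ) : ℝ :=
  ∫ z, ET R m (nodeW (fun y => Real.exp (f y)) R q z) [(0, l), (0, 0)]
    (fun ps : List (List (Fin (n + 1))) => cv (node R q) (ps.getD 0 []) (ps.getD 1 []) *
      (h (dot (node R q (ps.getD 0 [])) z) * h (dot (node R q (ps.getD 1 [])) z))) ∂gauss (Ix R n)

variable {q : ℕ → ℝ} {V Bp : ℝ}

lemma abs_cv_node_le (hq : Prof R q V) {n : ℕ} (p p' : List (Fin (n + 1))) :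
    |cv (node R q) p p'| ≤ V := by
  have h : ∀ x y : Ix R n → ℝ, |dot x y| ≤ (dot x x + dot y y) / 2 := fun x y => by
    simp only [dot, ← sum_add_distrib, sum_div]
    refine (abs_sum_le_sum_abs _ _).trans (sum_le_sum fun i _ => ?_)
    rw [abs_mul]; nlinarith [sq_nonneg (|x i| - |y i|), sq_abs (x i), sq_abs (y i)]
  have h1 := cv_node_le hq p
  have h2 := cv_node_le hq p'
  have h3 := h (node R q p) (node R q p')
  unfold cv at h1 h2 ⊢
  linarith

/-- collisions of the trial labels are rare -/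
lemma abs_Bl_sub_le (hS : Sd f f1 f2 f3 D) (hb : ∀ x, |f x| ≤ Bp) (hq : Prof R q V) {n : ℕ}
    {w : List (Fin (n + 1)) → ℝ} (hm : Ok R m w) {l : ℕ} (hl : l ≤ R) :
    |Bl f f1 R m q n l - q l * Al f f1 R m q n l| ≤ D ^ 2 * Real.exp (4 * Bp) * V / (n + 1) := by
  set e := fun y => Real.exp (f y)
  have hpos : ∀ (z : Ix R n → ℝ) (p : List (Fin (n + 1))), 0 < nodeW e R q z p :=
    fun z p => Real.exp_pos _
  have hwc : ∀ p : List (Fin (n + 1)), Continuous fun z : Ix R n → ℝ => nodeW e R q z p := fun p =>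
    Real.continuous_exp.comp (hS.cont0.comp (continuous_dot_left _))
  have hfc : ∀ p : List (Fin (n + 1)), Continuous fun z : Ix R n → ℝ => f1 (dot (node R q p) z) :=
    fun p => hS.cont1.comp (continuous_dot_left _)
  have hff : ∀ (p p' : List (Fin (n + 1))) (z : Ix R n → ℝ),
      |f1 (dot (node R q p) z) * f1 (dot (node R q p') z)| ≤ D ^ 2 := fun p p' z => by
    rw [abs_mul, sq]
    exact mul_le_mul (hS.b1 _) (hS.b1 _) (abs_nonneg _) ((abs_nonneg _).trans (hS.b1 0))
  have hint : ∀ (H : List (List (Fin (n + 1))) → (Ix R n → ℝ) → ℝ) (C : ℝ), (∀ ps, Continuous (H ps)) →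
      (∀ ps z, |H ps z| ≤ C) →
      Integrable (fun z => ET R m (nodeW e R q z) [(0, l), (0, 0)] fun ps => H ps z) (gauss (Ix R n)) :=
    fun H C hc hbd => Integrable.of_bound
      (continuous_ET hwc hpos R _ (F := fun z ps => H ps z) hc).aestronglyMeasurable C
      (Filter.Eventually.of_forall fun z => Vale.Agent.P168.MP.ET_bound (hpos z) fun ps => hbd ps z)
  have hT : Valid R [(0, l), (0, 0)] := ⟨Nat.zero_lt_one, hl, rfl, rfl⟩
  have hbnd : ∀ z, |ET R m (nodeW e R q z) [(0, l), (0, 0)]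
        (fun ps : List (List (Fin (n + 1))) => (cv (node R q) (ps.getD 0 []) (ps.getD 1 []) - q l) *
          (f1 (dot (node R q (ps.getD 0 [])) z) * f1 (dot (node R q (ps.getD 1 [])) z)))| ≤
      D ^ 2 * Real.exp (4 * Bp) * V / (n + 1) := fun z => by
    refine (Vale.Agent.P168.MP.ET_abs_le (hpos z) _ _).trans ((Vale.Agent.P168.MP.ET_mono (hpos z)
      (G := fun ps => D ^ 2 * |cv (node R q) (ps.getD 0 []) (ps.getD 1 []) - q l|) fun ps => ?_).trans ?_)
    · rw [abs_mul, mul_comm]
      exact mul_le_mul_of_nonneg_right (hff _ _ z) (abs_nonneg _)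
    rw [Vale.Agent.P168.MP.ET_const_mul, mul_assoc, mul_div_assoc]
    refine mul_le_mul_of_nonneg_left ?_ (sq_nonneg D)
    have h1 : Ok R m (fun _ : List (Fin (n + 1)) => (1 : ℝ)) := ok_reweight hm fun _ => one_pos
    have ht := ET_tilt_le h1 (Real.exp_pos (-Bp)) (Y := nodeW e R q z) (hi := Real.exp Bp)
      (fun p => ⟨Real.exp_le_exp.2 (abs_le.1 (hb _)).1, Real.exp_le_exp.2 (abs_le.1 (hb _)).2⟩) hl
      (H := fun ps => |cv (node R q) (ps.getD 0 []) (ps.getD 1 []) - q l|) fun ps => abs_nonneg _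
    simp only [one_mul] at ht
    refine ht.trans ?_
    rw [← Real.exp_sub, ← Real.exp_nat_mul, show ((2 : ℕ) : ℝ) * (Bp - -Bp) = 4 * Bp by push_cast; ring,
      mul_div_assoc]
    refine mul_le_mul_of_nonneg_left ?_ (Real.exp_pos _).le
    rw [Vale.Agent.P168.MP.ET_cons]
    refine (Vale.Agent.P168.MP.ET_mono_on (fun _ => one_pos) (T := [(0, 0)]) ⟨rfl, rfl⟩
      (G := fun _ => V / (n + 1)) fun ps hs => ?_).trans_eq (Vale.Agent.P168.MP.ET_const (fun _ => one_pos) _ _)
    obtain ⟨p, rfl⟩ : ∃ p, ps = [p] := List.length_eq_one_iff.1 hs.1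
    exact node_dev m hq hl (hs.2.1 0 (by simp))
  simp only [Bl, Al]
  rw [← integral_const_mul, ← integral_sub
    (hint (fun ps z => cv (node R q) (ps.getD 0 []) (ps.getD 1 []) *
      (f1 (dot (node R q (ps.getD 0 [])) z) * f1 (dot (node R q (ps.getD 1 [])) z))) (V * D ^ 2)
      (fun ps => continuous_const.mul ((hfc _).mul (hfc _))) fun ps z => by
        rw [abs_mul]
        exact mul_le_mul (abs_cv_node_le hq _ _) (hff _ _ z) (abs_nonneg _) ((hq.bd le_rfl).1.trans hq.top))
    ((hint (fun ps z => f1 (dot (node R q (ps.getD 0 [])) z) * f1 (dot (node R q (ps.getD 1 [])) z)) (D ^ 2)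
      (fun ps => (hfc _).mul (hfc _)) fun ps z => hff _ _ z).const_mul _)]
  refine abs_integral_le_integral_abs.trans ((integral_mono_of_nonneg
    (Filter.Eventually.of_forall fun z => abs_nonneg _) (integrable_const _)
    (Filter.Eventually.of_forall fun z => le_of_eq_of_le ?_ (hbnd z))).trans_eq (by simp))
  show |_| = |_|
  rw [← Vale.Agent.P168.MP.ET_const_mul, ← Vale.Agent.P168.MP.ET_sub]
  congr 1
  congr 1
  funext ps; ring

/-- one pattern against the trial field of `q` -/
theorem one_pattern {Ω ι : Type} [Fintype Ω] [Nonempty Ω] [Fintype ι] (hs : Slope f f1 R m δ)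
    (hS : Sd f f1 f2 f3 D) (hb : ∀ x, |f x| ≤ Bp) {F : List Ω → ℝ} (hF : Ok R m F) (hq : Prof R q V)
    {a : List Ω → ι → ℝ} (hqR : q R = 1) (ha : ∀ p, p.length = R → cv a p p = 1) (n : ℕ) :
    (∫ y, Real.log (nest m F (fac f a y) R []) ∂gauss ι) - phiN f R m q n ≤
      1 / 2 * (∑ l ∈ range R, cf m l * (ET R m F [(0, l), (0, 0)]
        (fun ps => cv a (ps.getD 0 []) (ps.getD 1 [])) * Al f f1 R m q n l - Bl f f1 R m q n l)) + δ := by
  set e := fun y => Real.exp (f y) with he
  set w : List (Ω × Fin (n + 1)) → ℝ := fun p => F (p.map Prod.fst) with hw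
  set a' : List (Ω × Fin (n + 1)) → ι → ℝ := fun p => a (p.map Prod.fst)
  set b : List (Ω × Fin (n + 1)) → Ix R n → ℝ := fun p => node R q (p.map Prod.snd)
  have hwok : Ok R m w := ⟨hF.pos, hF.mono, hF.top, hF.last, fun p => hF.wpos _⟩
  have key := hs w hwok a' b (fun p hp => ha (p.map Prod.fst) (by simpa using hp)) fun p hp => by
    show cv (node R q) (p.map Prod.snd) (p.map Prod.snd) = 1
    rw [cv_node_self hq]
    simp [hp, hqR]
  have hY : ∀ (z : Ix R n → ℝ) (p : List (Fin (n + 1))), 0 < nodeW e R q z p := fun z p => Real.exp_pos _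
  have h1 : logZ0 R m (fun _ : List (Fin (n + 1)) => (1 : ℝ)) = 0 := by
    rw [logZ0, Vale.Agent.P168.MP.Z_one, Real.log_one]
  have hw1 : logZ0 R m w = logZ0 R m F := by
    have := logZ0_mul_prod (R := R) (m := m) (F := F) (G := fun _ : List (Fin (n + 1)) => (1 : ℝ)) hF.wpos
      fun _ => one_pos
    simpa [w, h1] using this
  have ea : ∀ y, Real.log (nest m w (fac f a' y) R []) = Real.log (nest m F (fac f a y) R []) := fun y => by
    rw [← Vale.Agent.P168.MP.logZ0_mul (Y := fac f a' y) hwok.wpos fun p => Real.exp_pos _,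
      ← Vale.Agent.P168.MP.logZ0_mul (Y := fac f a y) hF.wpos fun p => Real.exp_pos _, hw1]
    have := logZ0_mul_prod (R := R) (m := m) (F := fun p => F p * fac f a y p)
      (G := fun _ : List (Fin (n + 1)) => (1 : ℝ)) (fun p => mul_pos (hF.wpos p) (Real.exp_pos _))
      fun _ => one_pos
    simp only [mul_one, h1, add_zero] at this
    exact congrArg (· - _) this
  have eb : ∀ z, Real.log (nest m w (fac f b z) R []) =
      Real.log (Z m (nodeW e R q z) R ([] : List (Fin (n + 1)))) := fun z => by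
    rw [← Vale.Agent.P168.MP.logZ0_mul (Y := fac f b z) hwok.wpos fun p => Real.exp_pos _, hw1,
      show (fun p => w p * fac f b z p) = fun p : List (Ω × Fin (n + 1)) =>
        F (p.map Prod.fst) * nodeW e R q z (p.map Prod.snd) from rfl,
      logZ0_mul_prod hF.wpos (hY z), add_sub_cancel_left, logZ0]
  simp only [ea, eb] at key
  refine key.trans (add_le_add (le_of_eq (congrArg _ (sum_congr rfl fun l hl => congrArg _ ?_))) le_rfl)
  have hlR := (mem_range.1 hl).le
  have hfc : ∀ p : List (Fin (n + 1)), Continuous fun z : Ix R n → ℝ => f1 (dot (node R q p) z) :=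
    fun p => hS.cont1.comp (continuous_dot_left _)
  have hwc : ∀ p : List (Fin (n + 1)), Continuous fun z : Ix R n → ℝ => nodeW e R q z p := fun p =>
    Real.continuous_exp.comp (hS.cont0.comp (continuous_dot_left _))
  have hD : ∀ (p p' : List (Fin (n + 1))) (z : Ix R n → ℝ),
      |f1 (dot (node R q p) z) * f1 (dot (node R q p') z)| ≤ D * D := fun p p' z => by
    rw [abs_mul]
    exact mul_le_mul (hS.b1 _) (hS.b1 _) (abs_nonneg _) ((abs_nonneg _).trans (hS.b1 0))
  have hi : ∀ (H : List (List (Fin (n + 1))) → (Ix R n → ℝ) → ℝ) (C : ℝ), (∀ ps, Continuous (H ps)) →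
      (∀ ps z, |H ps z| ≤ C) →
      Integrable (fun z => ET R m (nodeW e R q z) [(0, l), (0, 0)] fun ps => H ps z) (gauss (Ix R n)) :=
    fun H C hc hbd => Integrable.of_bound
      (continuous_ET hwc hY R _ (F := fun z ps => H ps z) hc).aestronglyMeasurable C
      (Filter.Eventually.of_forall fun z => Vale.Agent.P168.MP.ET_bound (hY z) fun ps => hbd ps z)
  have hV : 0 ≤ V := (hq.bd le_rfl).1.trans hq.top
  have i1 := hi (fun ps z => f1 (dot (node R q (ps.getD 0 [])) z) * f1 (dot (node R q (ps.getD 1 [])) z))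
    (D * D) (fun ps => (hfc _).mul (hfc _)) fun ps z => hD _ _ z
  have i2 := hi (fun ps z => cv (node R q) (ps.getD 0 []) (ps.getD 1 []) *
    (f1 (dot (node R q (ps.getD 0 [])) z) * f1 (dot (node R q (ps.getD 1 [])) z))) (V * (D * D))
    (fun ps => continuous_const.mul ((hfc _).mul (hfc _))) fun ps z => by
      rw [abs_mul]
      exact mul_le_mul (abs_cv_node_le hq _ _) (hD _ _ z) (abs_nonneg _) hV
  simp only [Al, Bl]
  rw [← integral_const_mul, ← integral_sub (i1.const_mul _) i2]
  refine integral_congr_ae (Filter.Eventually.of_forall fun z => ?_)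
  set Φ := fun p p' : List Ω => cv a p p'
  set Ψ := fun p p' : List (Fin (n + 1)) => f1 (dot (node R q p) z) * f1 (dot (node R q p') z)
  have pa := ET_mul_pair (R := R) (m := m) hF.wpos (hY z) hlR Φ Ψ
  have pb := ET_mul_pair (R := R) (m := m) hF.wpos (hY z) hlR (fun _ _ : List Ω => (1 : ℝ))
    fun p p' => cv (node R q) p p' * Ψ p p'
  simp only [one_mul, Vale.Agent.P168.MP.ET_const hF.wpos] at pb
  show ET R m (fun p : List (Ω × Fin (n + 1)) => F (p.map Prod.fst) * nodeW e R q z (p.map Prod.snd))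
    _ _ = _
  beta_reduce
  rw [← pa, ← pb, ← Vale.Agent.P168.MP.ET_sub]
  congr 1
  funext ps
  simp only [dd, Φ, Ψ, a', b, cv, sub_mul]

end Vale.Agent.P157.Par
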