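import Vale.Agent.P157.Par.Defs
import Vale.Agent.P157.Parisi.Formula

/-! `Fval` is the Parisi functional: the top level `q R = 1` is the smoothing by `1 - q_r`, and the diagonal
term `Γ_R` cancels against the top step of the spin term. The set of values is nonempty and bounded below. -/

open MeasureTheory ProbabilityTheory Real Finset
open Vale.Agent.P168.MP (lin Ok)

namespace Vale.Agent.P157.Par

namespace Br

/-! ### bounded functions of a Gaussian step -/

/-- measurable and within `[a, b]` -/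
def Box (a b : ℝ) (F : ℝ → ℝ) : Prop := Measurable F ∧ ∀ y, a ≤ F y ∧ F y ≤ b

variable {a b : ℝ} {F G : ℝ → ℝ}

lemma Box.int (h : Box a b F) (v y : ℝ) : Integrable (fun z => F (y + √v * z)) (gaussianReal 0 1) :=
  Integrable.of_bound (h.1.comp (by fun_prop)).aestronglyMeasurable (|a| + |b|)
    (Filter.Eventually.of_forall fun z => by
      rw [Real.norm_eq_abs, abs_le]
      have := h.2 (y + √v * z)
      constructor <;> linarith [neg_abs_le a, abs_nonneg b, le_abs_self b, abs_nonneg a])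

lemma Box.avg (h : Box a b F) (v : ℝ) :
    Box a b fun y => ∫ z, F (y + √v * z) ∂gaussianReal 0 1 := by
  refine ⟨((h.1.comp (show Measurable fun p : ℝ × ℝ => p.1 + √v * p.2 by fun_prop)).stronglyMeasurable
    |>.integral_prod_right').measurable, fun y => ⟨?_, ?_⟩⟩
  · simpa using integral_mono (integrable_const a) (h.int v y) fun z => (h.2 _).1
  · simpa using integral_mono (h.int v y) (integrable_const b) fun z => (h.2 _).2

lemma Box.rpow (h : Box a b F) (ha : 0 ≤ a) {m : ℝ} (hm : 0 ≤ m) : Box (a ^ m) (b ^ m) fun y => F y ^ m :=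
  ⟨h.1.pow_const m, fun y => ⟨Real.rpow_le_rpow ha (h.2 y).1 hm,
    Real.rpow_le_rpow (ha.trans (h.2 y).1) (h.2 y).2 hm⟩⟩

/-- weighted mean over one step, with weights in `[a, b]` -/
lemma wmean_box {W : ℝ → ℝ} (hW : Box a b W) (ha : 0 < a) {c d : ℝ} (hF : Box c d F) (v : ℝ) :
    Box c d fun y => (∫ z, W (y + √v * z) * F (y + √v * z) ∂gaussianReal 0 1) /
      ∫ z, W (y + √v * z) ∂gaussianReal 0 1 := by
  have hWF : Box (-(b * (|c| + |d|))) (b * (|c| + |d|)) fun y => W y * F y := by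
    refine ⟨hW.1.mul hF.1, fun y => abs_le.1 ?_⟩
    rw [abs_mul, abs_of_nonneg (ha.le.trans (hW.2 y).1)]
    refine mul_le_mul (hW.2 y).2 (abs_le.2 ?_) (abs_nonneg _) (ha.le.trans ((hW.2 y).1.trans (hW.2 y).2))
    have := hF.2 y
    constructor <;> linarith [neg_abs_le c, abs_nonneg d, le_abs_self d, abs_nonneg c]
  refine ⟨(hWF.avg v).1.div (hW.avg v).1, fun y => ?_⟩
  have hden : 0 < ∫ z, W (y + √v * z) ∂gaussianReal 0 1 := ha.trans_le ((hW.avg v).2 y).1
  constructor
  · rw [le_div_iff₀ hden, ← integral_const_mul]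
    refine integral_mono ((hW.int v y).const_mul c) (hWF.int v y) fun z => ?_
    rw [mul_comm c]
    exact mul_le_mul_of_nonneg_left (hF.2 _).1 (ha.le.trans (hW.2 _).1)
  · rw [div_le_iff₀ hden, ← integral_const_mul]
    refine integral_mono (hWF.int v y) ((hW.int v y).const_mul d) fun z => ?_
    rw [mul_comm d]
    exact mul_le_mul_of_nonneg_left (hF.2 _).2 (ha.le.trans (hW.2 _).1)

/-! ### the levels -/

variable {e h : ℝ → ℝ} {R : ℕ} {m q : ℕ → ℝ}

lemma Vn_box (he : Box a b e) (ha : 0 < a) (hpos : ∀ l, 1 ≤ l → l ≤ R → 0 < m l) :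
    ∀ k, k ≤ R → Box a b (Vn e R m q k)
  | 0, _ => he
  | k + 1, hk => by
    have hm : 0 < m (R - k) := hpos _ (by omega) (by omega)
    have h1 := (((Vn_box he ha hpos k (by omega)).rpow ha.le hm.le).avg (q (R - k) - q (R - (k + 1)))).rpow
      (Real.rpow_nonneg ha.le _) (one_div_nonneg.2 hm.le)
    have e1 : ∀ c : ℝ, 0 ≤ c → (c ^ m (R - k)) ^ (1 / m (R - k)) = c := fun c hc => by
      rw [one_div, Real.rpow_rpow_inv hc hm.ne']
    have hab : a ≤ b := (he.2 0).1.trans (he.2 0).2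
    rw [e1 a ha.le, e1 b (ha.le.trans hab)] at h1
    exact h1

lemma tl_box (he : Box a b e) (ha : 0 < a) (hpos : ∀ l, 1 ≤ l → l ≤ R → 0 < m l) {c d : ℝ}
    (hF : Box c d F) {k : ℕ} (hk : k < R) : Box c d (tl e R m q k F) :=
  wmean_box ((Vn_box he ha hpos k hk.le).rpow ha.le (hpos _ (by omega) (by omega)).le)
    (Real.rpow_pos_of_pos ha _) hF _

lemma tlN_box (he : Box a b e) (ha : 0 < a) (hpos : ∀ l, 1 ≤ l → l ≤ R → 0 < m l) {c d : ℝ}
    (hF : Box c d F) : ∀ (j k : ℕ), k + j ≤ R → Box c d (tlN e R m q k j F)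
  | 0, k, _ => hF
  | j + 1, k, h => tl_box he ha hpos (tlN_box he ha hpos hF j k (by omega)) (by omega)

lemma tlN_mono (he : Box a b e) (ha : 0 < a) (hpos : ∀ l, 1 ≤ l → l ≤ R → 0 < m l) {c d : ℝ}
    (hF : Box c d F) (hG : Box c d G) (hle : ∀ y, F y ≤ G y) :
    ∀ (j k : ℕ), k + j ≤ R → ∀ y, tlN e R m q k j F y ≤ tlN e R m q k j G y
  | 0, _, _, y => hle y
  | j + 1, k, hj, y => by
    have hk : k + j < R := by omega
    set v := q (R - (k + j)) - q (R - (k + j + 1))
    have hW := (Vn_box (q := q) he ha hpos (k + j) hk.le).rpow ha.le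
      (hpos (R - (k + j)) (by omega) (by omega)).le
    have hi : ∀ {F : ℝ → ℝ}, Box c d F → Integrable (fun z => Vn e R m q (k + j) (y + √v * z) ^ m (R - (k + j)) *
        F (y + √v * z)) (gaussianReal 0 1) := fun {F} hF => by
      refine (hF.int v y).bdd_mul (c := |b ^ m (R - (k + j))|) (hW.1.comp (by fun_prop)).aestronglyMeasurable
        (Filter.Eventually.of_forall fun z => ?_)
      rw [Real.norm_eq_abs, abs_of_nonneg ((Real.rpow_nonneg ha.le _).trans (hW.2 _).1)]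
      exact (hW.2 _).2.trans (le_abs_self _)
    refine div_le_div_of_nonneg_right (integral_mono (hi (tlN_box he ha hpos hF j k (by omega)))
      (hi (tlN_box he ha hpos hG j k (by omega))) fun z => ?_)
      ((Real.rpow_nonneg ha.le _).trans ((hW.avg v).2 y).1)
    exact mul_le_mul_of_nonneg_left (tlN_mono he ha hpos hF hG hle j k (by omega) _)
      ((Real.rpow_nonneg ha.le _).trans (hW.2 _).1)

lemma tlN_shift (k : ℕ) (F : ℝ → ℝ) :
    ∀ j, tlN e R m q k (j + 1) F = tlN e R m q (k + 1) j (tl e R m q k F)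
  | 0 => rfl
  | j + 1 => by
    rw [tlN, tlN_shift k F j, tlN, show k + (j + 1) = k + 1 + j by omega]

/-- Cauchy-Schwarz for one tilted step -/
lemma tl_sq_le (he : Box a b e) (ha : 0 < a) (hpos : ∀ l, 1 ≤ l → l ≤ R → 0 < m l) {c : ℝ}
    (hh : Box (-c) c h) {k : ℕ} (hk : k < R) (y : ℝ) :
    tl e R m q k h y ^ 2 ≤ tl e R m q k (fun y => h y ^ 2) y := by
  set v := q (R - k) - q (R - (k + 1))
  set W := fun y => Vn e R m q k y ^ m (R - k)
  have hW : Box (a ^ m (R - k)) (b ^ m (R - k)) W :=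
    (Vn_box he ha hpos k hk.le).rpow ha.le (hpos _ (by omega) (by omega)).le
  have ha' : 0 < a ^ m (R - k) := Real.rpow_pos_of_pos ha _
  have hc : 0 ≤ c := (abs_nonneg _).trans (abs_le.2 (hh.2 0))
  have hh2 : Box 0 (c ^ 2) fun y => h y ^ 2 :=
    ⟨hh.1.pow_const 2, fun y => ⟨sq_nonneg _, sq_le_sq' (hh.2 y).1 (hh.2 y).2⟩⟩
  set T := tl e R m q k h y
  have hi : ∀ {c d : ℝ} {F : ℝ → ℝ}, Box c d F →
      Integrable (fun z => W (y + √v * z) * F (y + √v * z)) (gaussianReal 0 1) := fun {c d F} hF => by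
    refine (hF.int v y).bdd_mul (c := |b ^ m (R - k)|) (hW.1.comp (by fun_prop)).aestronglyMeasurable
      (Filter.Eventually.of_forall fun z => ?_)
    rw [Real.norm_eq_abs, abs_of_nonneg (ha'.le.trans (hW.2 _).1)]
    exact (hW.2 _).2.trans (le_abs_self _)
  have hden : 0 < ∫ z, W (y + √v * z) ∂gaussianReal 0 1 := ha'.trans_le ((hW.avg v).2 y).1
  have h0 : 0 ≤ ∫ z, W (y + √v * z) * (h (y + √v * z) - T) ^ 2 ∂gaussianReal 0 1 :=
    integral_nonneg fun z => mul_nonneg (ha'.le.trans (hW.2 _).1) (sq_nonneg _)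
  have e1 : (fun z => W (y + √v * z) * (h (y + √v * z) - T) ^ 2) = fun z =>
      W (y + √v * z) * h (y + √v * z) ^ 2 - 2 * T * (W (y + √v * z) * h (y + √v * z)) +
        T ^ 2 * W (y + √v * z) := by funext z; ring
  rw [e1] at h0
  have i1 := hi hh2
  have i2 := (hi hh).const_mul (2 * T)
  have i3 := (hW.int v y).const_mul (T ^ 2)
  have i12 : Integrable (fun z => W (y + √v * z) * h (y + √v * z) ^ 2 -
      2 * T * (W (y + √v * z) * h (y + √v * z))) (gaussianReal 0 1) := i1.sub i2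
  rw [integral_add i12 i3, integral_sub i1 i2, integral_const_mul, integral_const_mul] at h0
  have eT : ∫ z, W (y + √v * z) * h (y + √v * z) ∂gaussianReal 0 1 =
      T * ∫ z, W (y + √v * z) ∂gaussianReal 0 1 :=
    (div_mul_cancel₀ _ hden.ne').symm
  rw [eT] at h0
  change T ^ 2 ≤ (∫ z, W (y + √v * z) * h (y + √v * z) ^ 2 ∂gaussianReal 0 1) /
    ∫ z, W (y + √v * z) ∂gaussianReal 0 1
  rw [le_div_iff₀ hden]
  nlinarith

/-! ### reindexing -/

/-- exponents above level `R - k` -/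
def mExp (R : ℕ) (m : ℕ → ℝ) (k : ℕ) (p : Fin k) : ℝ := m (R - k + p)

/-- increments above level `R - k` -/
def dInc (R : ℕ) (q : ℕ → ℝ) (k : ℕ) (p : Fin k) : ℝ := q (R - k + p) - q (R - k + p - 1)

lemma tail_mk {k : ℕ} (hk : k + 1 ≤ R) : Fin.tail (mExp R m (k + 1)) = mExp R m k := by
  funext p
  simp only [Fin.tail, mExp, Fin.val_succ]
  congr 1
  omega

lemma tail_dk {k : ℕ} (hk : k + 1 ≤ R) : Fin.tail (dInc R q (k + 1)) = dInc R q k := by
  funext p
  simp only [Fin.tail, dInc, Fin.val_succ]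
  rw [show R - (k + 1) + ((p : ℕ) + 1) = R - k + p by omega]

lemma mExp_pos (hpos : ∀ l, 1 ≤ l → l ≤ R → 0 < m l) {k : ℕ} (hk : k < R) (p : Fin k) :
    0 < mExp R m k p := hpos _ (by omega) (by have := p.isLt; omega)

lemma zero_mk {k : ℕ} : mExp R m (k + 1) 0 = m (R - (k + 1)) := by simp [mExp]

lemma zero_dk {k : ℕ} (_hk : k + 2 ≤ R) : dInc R q (k + 1) 0 = q (R - (k + 1)) - q (R - (k + 2)) := by
  simp [dInc, Nat.sub_sub]

lemma nest_eq (htop : m R = 1) (hqR : q R = 1) : ∀ k, k + 1 ≤ R →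
    Parisi.nestG k (mExp R m k) (dInc R q k) (fun y => ∫ z, e (y + √(1 - q (R - 1)) * z) ∂gaussianReal 0 1) =
      Vn e R m q (k + 1)
  | 0, _ => by
    funext y
    simp [Parisi.nestG, Vn, htop, hqR]
  | k + 1, hk => by
    funext y
    simp only [Parisi.nestG, tail_mk (m := m) (show k + 1 ≤ R by omega),
      tail_dk (q := q) (show k + 1 ≤ R by omega), nest_eq htop hqR k (by omega), zero_mk, zero_dk hk]
    rw [Vn]

lemma tilt_eq (htop : m R = 1) (hqR : q R = 1) (h : ℝ → ℝ) : ∀ k, k + 1 ≤ R →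
    Parisi.tiltG k (mExp R m k) (dInc R q k) (fun y => ∫ z, e (y + √(1 - q (R - 1)) * z) ∂gaussianReal 0 1)
      (fun y => (∫ z, e (y + √(1 - q (R - 1)) * z) * h (y + √(1 - q (R - 1)) * z) ∂gaussianReal 0 1) /
        ∫ z, e (y + √(1 - q (R - 1)) * z) ∂gaussianReal 0 1) =
      tlN e R m q 0 (k + 1) h
  | 0, _ => by
    funext y
    simp [Parisi.tiltG, tlN, tl, Vn, htop, hqR]
  | k + 1, hk => by
    funext y
    simp only [Parisi.tiltG, tail_mk (m := m) (show k + 1 ≤ R by omega),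
      tail_dk (q := q) (show k + 1 ≤ R by omega), nest_eq htop hqR k (by omega),
      tilt_eq htop hqR h k (by omega), zero_mk, zero_dk hk]
    conv_rhs => rw [tlN]
    simp only [tl, Nat.zero_add]

lemma sq_eq (htop : m R = 1) (hqR : q R = 1) (h : ℝ → ℝ) : ∀ k, k + 1 ≤ R → ∀ l : Fin (k + 1),
    Parisi.sqG k (mExp R m k) (dInc R q k) (fun y => ∫ z, e (y + √(1 - q (R - 1)) * z) ∂gaussianReal 0 1)
      (fun y => (∫ z, e (y + √(1 - q (R - 1)) * z) * h (y + √(1 - q (R - 1)) * z) ∂gaussianReal 0 1) /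
        ∫ z, e (y + √(1 - q (R - 1)) * z) ∂gaussianReal 0 1) l =
      tlN e R m q (k + 1 - l) l (fun y => tlN e R m q 0 (k + 1 - l) h y ^ 2)
  | 0, hk, l => by
    funext y
    obtain rfl : l = 0 := Fin.ext (by have := l.isLt; simp only [Fin.val_zero]; omega)
    have := congrFun (tilt_eq (e := e) htop hqR h 0 hk) y
    simp only [Parisi.tiltG] at this
    simp [Parisi.sqG, tlN, this]
  | k + 1, hk, l => by
    funext y
    induction l using Fin.cases with
    | zero =>
      simp only [Parisi.sqG, Fin.cases_zero, Fin.val_zero, Nat.sub_zero, tlN,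
        tilt_eq htop hqR h (k + 1) hk]
    | succ l =>
      simp only [Parisi.sqG, Fin.cases_succ, Fin.val_succ, tail_mk (m := m) (show k + 1 ≤ R by omega),
        tail_dk (q := q) (show k + 1 ≤ R by omega), nest_eq htop hqR k (by omega),
        sq_eq htop hqR h k (by omega) l, zero_mk, zero_dk hk]
      rw [show k + 1 + 1 - ((l : ℕ) + 1) = k + 1 - l by omega, tlN,
        show k + 1 - (l : ℕ) + l = k + 1 by have := l.isLt; omega]
      rfl

/-! ### the spin term -/

lemma nestG_nonneg : ∀ (r : ℕ) (m d : Fin r → ℝ) {Y : ℝ → ℝ}, (∀ y, 0 ≤ Y y) → ∀ y, 0 ≤ Parisi.nestG r m d Y y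
  | 0, _, _, _, hY, y => hY y
  | r + 1, _, _, _, hY, _ =>
    Real.rpow_nonneg (integral_nonneg fun _ => Real.rpow_nonneg (nestG_nonneg r _ _ hY _) _) _

lemma nestG_smul : ∀ (r : ℕ) (m d : Fin r → ℝ) {Y : ℝ → ℝ}, (∀ y, 0 ≤ Y y) → (∀ p, 0 < m p) →
    ∀ {c : ℝ}, 0 ≤ c → ∀ y, Parisi.nestG r m d (fun y => c * Y y) y = c * Parisi.nestG r m d Y y
  | 0, _, _, _, _, _, _, _, _ => rfl
  | r + 1, m, d, Y, hY, hm, c, hc, y => by
    simp only [Parisi.nestG, nestG_smul r (Fin.tail m) (Fin.tail d) hY (fun p => hm _) hc,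
      fun z => Real.mul_rpow (z := m 0) hc (nestG_nonneg r (Fin.tail m) (Fin.tail d) hY z),
      integral_const_mul]
    rw [Real.mul_rpow (Real.rpow_nonneg hc _) (integral_nonneg fun z => Real.rpow_nonneg
      (nestG_nonneg r _ _ hY _) _), one_div, Real.rpow_rpow_inv hc (hm 0).ne']

/-- measurable, at least one, of exponential growth -/
def Gr (Y : ℝ → ℝ) : Prop := Measurable Y ∧ ∃ C, ∀ y, 1 ≤ Y y ∧ Y y ≤ C * exp |y|

lemma integrable_exp_abs (c : ℝ) : Integrable (fun z => exp (c * |z|)) (gaussianReal 0 1) := by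
  refine ((integrable_exp_mul_gaussianReal c).add (integrable_exp_mul_gaussianReal (-c))).mono'
    (Continuous.aestronglyMeasurable (by fun_prop)) (Filter.Eventually.of_forall fun z => ?_)
  simp only [Pi.add_apply, Real.norm_eq_abs, abs_exp]
  rcases abs_choice z with hz | hz <;> rw [hz]
  · linarith [exp_pos (-c * z)]
  · rw [mul_neg, ← neg_mul]; linarith [exp_pos (c * z)]

lemma Gr.nest : ∀ (r : ℕ) (m d : Fin r → ℝ) {Y : ℝ → ℝ}, Gr Y → (∀ p, 0 < m p) → Gr (Parisi.nestG r m d Y)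
  | 0, _, _, _, hY, _ => hY
  | r + 1, m, d, Y, hY, hm => by
    obtain ⟨hX, C, hb⟩ := Gr.nest r (Fin.tail m) (Fin.tail d) hY fun p => hm _
    set X := Parisi.nestG r (Fin.tail m) (Fin.tail d) Y
    have hC : 0 ≤ C := nonneg_of_mul_nonneg_left (zero_le_one.trans ((hb 0).1.trans (hb 0).2)) (exp_pos _)
    set E := ∫ z, exp (m 0 * √(d 0) * |z|) ∂gaussianReal 0 1
    have hmeas : Measurable fun p : ℝ × ℝ => X (p.1 + √(d 0) * p.2) ^ m 0 :=
      (hX.comp (by fun_prop)).pow_const _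
    have hp : ∀ y z, 1 ≤ X (y + √(d 0) * z) ^ m 0 ∧
        X (y + √(d 0) * z) ^ m 0 ≤ C ^ m 0 * exp (m 0 * |y|) * exp (m 0 * √(d 0) * |z|) := fun y z => by
      refine ⟨Real.one_le_rpow (hb _).1 (hm 0).le, (Real.rpow_le_rpow (zero_le_one.trans (hb _).1)
        ((hb _).2.trans (mul_le_mul_of_nonneg_left (exp_le_exp.2 (abs_add_le _ _)) hC)) (hm 0).le).trans
          (le_of_eq ?_)⟩
      rw [Real.mul_rpow hC (exp_pos _).le, ← exp_mul, mul_assoc, ← exp_add, abs_mul,
        abs_of_nonneg (Real.sqrt_nonneg _)]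
      ring_nf
    have hi : ∀ y, Integrable (fun z => X (y + √(d 0) * z) ^ m 0) (gaussianReal 0 1) := fun y =>
      ((integrable_exp_abs (m 0 * √(d 0))).const_mul (C ^ m 0 * exp (m 0 * |y|))).mono'
        (hmeas.comp (measurable_const.prodMk measurable_id)).aestronglyMeasurable
        (Filter.Eventually.of_forall fun z => by
          rw [Real.norm_eq_abs, abs_of_nonneg (zero_le_one.trans (hp y z).1)]; exact (hp y z).2)
    refine ⟨(hmeas.stronglyMeasurable.integral_prod_right').measurable.pow_const _,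
      (C ^ m 0 * E) ^ (1 / m 0), fun y => ⟨?_, ?_⟩⟩
    · refine Real.one_le_rpow ?_ (one_div_nonneg.2 (hm 0).le)
      simpa using integral_mono (integrable_const (1:ℝ)) (hi y) fun z => (hp y z).1
    · have h2 : ∫ z, X (y + √(d 0) * z) ^ m 0 ∂gaussianReal 0 1 ≤ C ^ m 0 * E * exp (m 0 * |y|) := by
        refine (integral_mono (hi y) ((integrable_exp_abs _).const_mul _) fun z => (hp y z).2).trans
          (le_of_eq ?_)
        rw [integral_const_mul]; ring
      refine (Real.rpow_le_rpow (integral_nonneg fun z => zero_le_one.trans (hp y z).1) h2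
        (one_div_nonneg.2 (hm 0).le)).trans (le_of_eq ?_)
      rw [Real.mul_rpow (mul_nonneg (Real.rpow_nonneg hC _) (integral_nonneg fun z => (exp_pos _).le))
        (exp_pos _).le, ← exp_mul, show m 0 * |y| * (1 / m 0) = |y| by field_simp [(hm 0).ne']]

lemma Gr.integrable_log {Y : ℝ → ℝ} (hY : Gr Y) (s : ℝ) :
    Integrable (fun z => log (Y (s * z))) (gaussianReal 0 1) := by
  obtain ⟨hm, C, hb⟩ := hY
  have hC : 0 < C := pos_of_mul_pos_left (zero_lt_one.trans_le ((hb 0).1.trans (hb 0).2)) (exp_pos _).le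
  have hi : Integrable (fun z : ℝ => log C + |s| * |z|) (gaussianReal 0 1) :=
    (integrable_const _).add ((memLp_one_iff_integrable.1 (memLp_id_gaussianReal 1)).abs.const_mul _)
  refine hi.mono' ((hm.comp (by fun_prop)).log).aestronglyMeasurable (Filter.Eventually.of_forall fun z => ?_)
  rw [Real.norm_eq_abs, abs_of_nonneg (log_nonneg (hb _).1), ← abs_mul]
  refine (log_le_log (zero_lt_one.trans_le (hb _).1) (hb _).2).trans (le_of_eq ?_)
  rw [log_mul hC.ne' (exp_pos _).ne', log_exp]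

lemma gr_cosh : Gr Real.cosh := ⟨continuous_cosh.measurable, 1, fun y => ⟨one_le_cosh y, by
  rw [one_mul, cosh_eq]
  have h1 := exp_le_exp.2 (le_abs_self y)
  have h2 := exp_le_exp.2 (neg_le_abs y)
  linarith⟩⟩

lemma smooth_cosh {v : ℝ} (hv : 0 ≤ v) (y : ℝ) :
    ∫ z, cosh (y + √v * z) ∂gaussianReal 0 1 = exp (v / 2) * cosh y := by
  have hmgf : ∀ t : ℝ, ∫ z, exp (t * z) ∂gaussianReal 0 1 = exp (t ^ 2 / 2) := fun t => by
    have h := congrFun (mgf_id_gaussianReal (μ := 0) (v := 1)) t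
    simpa [mgf] using h
  have e : (fun z => cosh (y + √v * z)) =
      fun z => exp y / 2 * exp (√v * z) + exp (-y) / 2 * exp (-√v * z) := by
    funext z
    rw [cosh_eq, neg_add, exp_add, exp_add, neg_mul]
    ring
  rw [e, integral_add ((integrable_exp_mul_gaussianReal _).const_mul _)
    ((integrable_exp_mul_gaussianReal _).const_mul _), integral_const_mul, integral_const_mul, hmgf, hmgf,
    neg_sq, Real.sq_sqrt hv, cosh_eq]
  ring

lemma phi_cosh {r : ℕ} {s : ℕ → ℝ} (hv : s r ≤ s (r + 1)) (hpos : ∀ l, 1 ≤ l → l ≤ r + 1 → 0 < m l)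
    (htop : m (r + 1) = 1) :
    Phi Real.cosh (r + 1) m s = (s (r + 1) - s r) / 2 +
      Parisi.spinTerm (fun p : Fin r => m (p + 1)) (fun l : Fin (r + 1) => s l) := by
  set c := exp ((s (r + 1) - s r) / 2)
  have hV : ∀ k, k ≤ r → Vn Real.cosh (r + 1) m s (k + 1) =
      fun y => c * Parisi.nestG k (mExp (r + 1) m k) (dInc (r + 1) s k) Real.cosh y := by
    intro k
    induction k with
    | zero =>
      intro _
      funext y
      simp [Vn, htop, Parisi.nestG, c, smooth_cosh (sub_nonneg.2 hv)]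
    | succ k ih =>
      intro hk
      funext y
      rw [← nestG_smul (k + 1) (mExp (r + 1) m (k + 1)) (dInc (r + 1) s (k + 1)) (fun y => (cosh_pos y).le)
        (mExp_pos hpos (show k + 1 < r + 1 by omega)) (exp_pos _).le, Vn, ih (by omega)]
      simp only [Parisi.nestG, tail_mk (m := m) (show k + 1 ≤ r + 1 by omega),
        tail_dk (q := s) (show k + 1 ≤ r + 1 by omega), zero_mk, zero_dk (show k + 2 ≤ r + 1 by omega)]
      simp only [nestG_smul k (mExp (r + 1) m k) (dInc (r + 1) s k) (fun y => (cosh_pos y).le)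
        (mExp_pos hpos (show k < r + 1 by omega)) (exp_pos _).le, c]
  have hm1 : mExp (r + 1) m r = fun p : Fin r => m (p + 1) := by
    funext p; simp [mExp, Nat.add_comm]
  have hd1 : dInc (r + 1) s r = Parisi.incr (fun l : Fin (r + 1) => s l) := by
    funext p; simp [dInc, Parisi.incr, Nat.add_comm]
  have hg : Gr (Parisi.nestG r (fun p : Fin r => m (p + 1)) (Parisi.incr fun l : Fin (r + 1) => s l) Real.cosh) :=
    Gr.nest r _ _ gr_cosh fun p => hpos _ (by omega) (by have := p.isLt; omega)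
  simp only [Phi, hV r le_rfl, hm1, hd1, Parisi.spinTerm, Fin.val_zero]
  have e : ∀ y, log (c * Parisi.nestG r (fun p : Fin r => m (p + 1))
      (Parisi.incr fun l : Fin (r + 1) => s l) Real.cosh y) = (s (r + 1) - s r) / 2 +
      log (Parisi.nestG r (fun p : Fin r => m (p + 1)) (Parisi.incr fun l : Fin (r + 1) => s l) Real.cosh y) := by
    intro y
    obtain ⟨-, C, hb⟩ := hg
    rw [log_mul (exp_pos _).ne' (zero_lt_one.trans_le (hb y).1).ne', log_exp]
  simp only [e]
  rw [integral_add (integrable_const _) (hg.integrable_log _)]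
  simp

end Br

open Br

variable {f f1 f2 f3 : ℝ → ℝ} {B D : ℝ}

lemma Br.box_exp (hS : Sm f f1 f2 f3 B D) (hB : ∀ x, f x ≤ B) :
    Box (exp (-B)) (exp B) (fun y => exp (f y)) ∧ Box (-D) D f1 :=
  ⟨⟨(continuous_exp.comp (continuous_iff_continuousAt.2 fun x => (hS.d0 x).continuousAt)).measurable,
    fun y => ⟨exp_le_exp.2 (hS.lb y), exp_le_exp.2 (hB y)⟩⟩,
  ⟨(continuous_iff_continuousAt.2 fun x => (hS.d1 x).continuousAt).measurable, fun y => abs_le.1 (hS.b1 y)⟩⟩

/-- the two functionals agree -/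
theorem fval_eq (hS : Sm f f1 f2 f3 B D) (hB : ∀ x, f x ≤ B) {α : ℝ} (hα : 0 ≤ α) {r : ℕ} {m q : ℕ → ℝ}
    (hpos : ∀ l, 1 ≤ l → l ≤ r + 1 → 0 < m l) (htop : m (r + 1) = 1) (hqR : q (r + 1) = 1) :
    Fval α f (r + 1) m q =
      Parisi.parisiValue (fun y => exp (f y)) α r (fun p => m (p + 1)) (fun l => q l) := by
  obtain ⟨hU, hf1⟩ := box_exp hS hB
  set U := fun y => exp (f y)
  have hd : deriv f = f1 := funext fun x => (hS.d0 x).deriv
  have hdU : deriv U = fun y => U y * f1 y := funext fun x => ((hS.d0 x).exp).deriv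
  have hm : (fun p : Fin r => m (p + 1)) = mExp (r + 1) m r := by
    funext p; simp [mExp, Nat.add_comm]
  have hq : Parisi.incr (fun l : Fin (r + 1) => q l) = dInc (r + 1) q r := by
    funext p; simp [dInc, Parisi.incr, Nat.add_comm]
  set Γ := fun l => Gamma U f1 (r + 1) m q l
  have hgam : ∀ l : Fin (r + 1), Parisi.gam U (fun p => m (p + 1)) (fun l => q l) l = Γ l := fun l => by
    simp only [Parisi.gam, Γ, Gamma, hq, hm, Fin.val_last, Fin.val_zero, hdU]
    refine integral_congr_ae (Filter.Eventually.of_forall fun z => ?_)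
    have h := congrFun (sq_eq (e := U) htop hqR f1 r le_rfl l) (√(q 0) * z)
    simp only [Nat.add_sub_cancel] at h
    exact h
  have hpat : Parisi.patternTerm U (fun p : Fin r => m (p + 1)) (fun l : Fin (r + 1) => q l) =
      Phi U (r + 1) m q := by
    simp only [Parisi.patternTerm, Phi, hq, hm, Fin.val_last, Fin.val_zero]
    refine integral_congr_ae (Filter.Eventually.of_forall fun z => ?_)
    have h := congrFun (nest_eq (e := U) htop hqR r le_rfl) (√(q 0) * z)
    simp only [Nat.add_sub_cancel] at h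
    exact congrArg log h
  have hv : α * Γ r ≤ α * Γ (r + 1) := by
    refine mul_le_mul_of_nonneg_left ?_ hα
    have e1 : ∀ y, tlN U (r + 1) m q 0 (r + 1) (fun y => f1 y ^ 2) y =
        tlN U (r + 1) m q 1 r (tl U (r + 1) m q 0 fun y => f1 y ^ 2) y := fun y => by
      rw [tlN_shift]
    have hsq : Box 0 (D ^ 2) fun y => f1 y ^ 2 :=
      ⟨hf1.1.pow_const 2, fun y => ⟨sq_nonneg _, sq_le_sq' (hf1.2 y).1 (hf1.2 y).2⟩⟩
    have hb1 := tl_box (q := q) hU (exp_pos _) hpos hsq (show 0 < r + 1 by omega)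
    have hb0' := tl_box (q := q) hU (exp_pos _) hpos hf1 (show 0 < r + 1 by omega)
    have hb0 : Box 0 (D ^ 2) fun y => tl U (r + 1) m q 0 f1 y ^ 2 :=
      ⟨hb0'.1.pow_const 2, fun y => ⟨sq_nonneg _, sq_le_sq' (hb0'.2 y).1 (hb0'.2 y).2⟩⟩
    simp only [Γ, Gamma, Nat.add_sub_cancel_left, Nat.sub_self, tlN, Nat.add_zero]
    have hle := tlN_mono (q := q) hU (exp_pos _) hpos hb0 hb1
      (fun y => tl_sq_le hU (exp_pos _) hpos hf1 (show 0 < r + 1 by omega) y) r 1 (by omega)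
    refine integral_mono ?_ ?_ fun z => (hle _).trans_eq (e1 _).symm
    · simpa using (tlN_box (q := q) hU (exp_pos _) hpos hb0 r 1 (by omega)).int (q 0) 0
    · simpa [tlN] using (tlN_box (q := q) hU (exp_pos _) hpos hsq (r + 1) 0 (by omega)).int (q 0) 0
  have hsp := phi_cosh (s := fun l => α * Γ l) hv hpos htop
  have hsum : ∑ l ∈ range (r + 1), ((if l = 0 then 0 else m l) - m (l + 1)) * (Γ l * q l) =
      ∑ l : Fin (r + 1), (Parisi.mext (fun p : Fin r => m (p + 1)) l -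
        Parisi.mext (fun p : Fin r => m (p + 1)) (l + 1)) * (Γ l * q l) := by
    rw [← Fin.sum_univ_eq_sum_range]
    refine Finset.sum_congr rfl fun l _ => ?_
    have e : ∀ j : ℕ, 1 ≤ j → j ≤ r + 1 → Parisi.mext (fun p : Fin r => m (p + 1)) j = m j := by
      intro j hj hj'
      unfold Parisi.mext
      rw [if_neg (by omega)]
      split_ifs with h
      · change m (j - 1 + 1) = m j
        rw [Nat.sub_add_cancel hj]
      · rw [show j = r + 1 by omega, htop]
    rw [e ((l : ℕ) + 1) (by omega) (by have := l.isLt; omega)]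
    by_cases h : (l : ℕ) = 0
    · simp [h, Parisi.mext]
    · rw [if_neg h, e l (by omega) (by have := l.isLt; omega)]
  simp only [Fval, hd, Parisi.parisiValue, hpat, hgam, Fin.val_last]
  rw [hsp, hsum]
  ring

lemma Br.value_ge (hS : Sm f f1 f2 f3 B D) (hB : ∀ x, f x ≤ B) {α : ℝ} (hα : 0 ≤ α) {r : ℕ} {m q : ℕ → ℝ}
    (hpos : ∀ l, 1 ≤ l → l ≤ r + 1 → 0 < m l) (hmono : ∀ l, 1 ≤ l → l ≤ r → m l ≤ m (l + 1))
    (htop : m (r + 1) = 1) (hqR : q (r + 1) = 1) (hq0 : ∀ l, l ≤ r → 0 ≤ q l) :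
    -(α * B) - α / 2 * D ^ 2 ≤ Fval α f (r + 1) m q := by
  obtain ⟨hU, hf1⟩ := box_exp hS hB
  rw [fval_eq hS hB hα hpos htop hqR]
  have hd : deriv f = f1 := funext fun x => (hS.d0 x).deriv
  have hΓ : ∀ l : ℕ, l ≤ r + 1 → 0 ≤ Gamma (fun y => exp (f y)) f1 (r + 1) m q l ∧
      Gamma (fun y => exp (f y)) f1 (r + 1) m q l ≤ D ^ 2 := fun l hl => by
    have h1 := tlN_box (q := q) hU (exp_pos _) hpos hf1 (r + 1 - l) 0 (by omega)
    have h2 : Box 0 (D ^ 2) fun y => tlN (fun y => exp (f y)) (r + 1) m q 0 (r + 1 - l) f1 y ^ 2 :=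
      ⟨h1.1.pow_const 2, fun y => ⟨sq_nonneg _, sq_le_sq' (h1.2 y).1 (h1.2 y).2⟩⟩
    have h3 := ((tlN_box (q := q) hU (exp_pos _) hpos h2 l (r + 1 - l) (by omega)).avg (q 0)).2 0
    simpa [Gamma] using h3
  have hp : -B ≤ Phi (fun y => exp (f y)) (r + 1) m q := by
    have hb := Vn_box (q := q) hU (exp_pos _) hpos (r + 1) le_rfl
    have hl : Box (-B) B fun y => log (Vn (fun y => exp (f y)) (r + 1) m q (r + 1) y) :=
      ⟨hb.1.log, fun y => ⟨(le_log_iff_exp_le ((exp_pos _).trans_le (hb.2 y).1)).2 (hb.2 y).1,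
        (log_le_iff_le_exp ((exp_pos _).trans_le (hb.2 y).1)).2 (hb.2 y).2⟩⟩
    simpa [Phi] using ((hl.avg (q 0)).2 0).1
  have hs : ∀ s : Fin (r + 1) → ℝ, 0 ≤ Parisi.spinTerm (fun p : Fin r => m (p + 1)) s := fun s => by
    obtain ⟨-, C, hb⟩ := Gr.nest r (fun p : Fin r => m (p + 1)) (Parisi.incr s) gr_cosh
      fun p => hpos _ (by omega) (by have := p.isLt; omega)
    exact integral_nonneg fun z => log_nonneg (hb _).1
  rw [← fval_eq hS hB hα hpos htop hqR]
  have hFv : Fval α f (r + 1) m q = α * Phi (fun y => exp (f y)) (r + 1) m q +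
      Phi Real.cosh (r + 1) m (fun l => α * Gamma (fun y => exp (f y)) f1 (r + 1) m q l) -
      α / 2 * (Gamma (fun y => exp (f y)) f1 (r + 1) m q (r + 1) + ∑ l ∈ range (r + 1),
        ((if l = 0 then 0 else m l) - m (l + 1)) * (Gamma (fun y => exp (f y)) f1 (r + 1) m q l * q l)) := by
    rw [Fval, hd]
  have hc : 0 ≤ Phi Real.cosh (r + 1) m (fun l => α * Gamma (fun y => exp (f y)) f1 (r + 1) m q l) := by
    refine integral_nonneg fun z => log_nonneg ?_
    suffices h : ∀ k, k ≤ r + 1 → Gr (Vn Real.cosh (r + 1) m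
        (fun l => α * Gamma (fun y => exp (f y)) f1 (r + 1) m q l) k) by
      obtain ⟨-, C, hb⟩ := h (r + 1) le_rfl
      exact (hb _).1
    intro k
    induction k with
    | zero => exact fun _ => gr_cosh
    | succ k ih =>
      intro hk
      exact Gr.nest 1 (fun _ => m (r + 1 - k)) (fun _ => α * Gamma (fun y => exp (f y)) f1 (r + 1) m q (r + 1 - k) -
        α * Gamma (fun y => exp (f y)) f1 (r + 1) m q (r + 1 - (k + 1))) (ih (by omega))
        fun _ => hpos _ (by omega) (by omega)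
  have hsum : ∑ l ∈ range (r + 1),
      ((if l = 0 then 0 else m l) - m (l + 1)) * (Gamma (fun y => exp (f y)) f1 (r + 1) m q l * q l) ≤ 0 := by
    refine Finset.sum_nonpos fun l hl => ?_
    rw [mem_range] at hl
    refine mul_nonpos_of_nonpos_of_nonneg ?_ (mul_nonneg (hΓ l hl.le).1 (hq0 l (by omega)))
    split_ifs with h
    · linarith [hpos (l + 1) (by omega) (by omega)]
    · linarith [hmono l (by omega) (by omega)]
  rw [hFv]
  nlinarith [mul_le_mul_of_nonneg_left hp hα, mul_le_mul_of_nonneg_left (hΓ (r + 1) le_rfl).2 hα,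
    mul_le_mul_of_nonneg_left hsum hα]

theorem fval_mem (hS : Sm f f1 f2 f3 B D) (hB : ∀ x, f x ≤ B) {α : ℝ} (hα : 0 ≤ α) {R : ℕ} (hR : 1 ≤ R)
    {q : ℕ → ℝ} (hq : Prof R q 1) (hqR : q R = 1) :
    Fval α f R (lin R) q ∈ Parisi.parisiValues (fun y => exp (f y)) α := by
  obtain ⟨r, rfl⟩ : ∃ r, R = r + 1 := ⟨R - 1, by omega⟩
  have hlin : ∀ l, l ≤ r + 1 → lin (r + 1) l = (l : ℝ) / ((r:ℝ) + 1) := fun l hl => by
    simp [lin, hl]
  have hmono : ∀ i j, i ≤ j → j ≤ r + 1 → q i ≤ q j := by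
    intro i j hij
    induction hij with
    | refl => exact fun _ => le_rfl
    | @step n _ ih => exact fun hn => (ih (by omega)).trans (hq.mono n (by omega))
  refine ⟨r, fun p => lin (r + 1) (p + 1), fun l => q l, fun p p' hp => ?_, fun p => ?_,
    fun p p' hp => hmono _ _ hp (by have := p'.isLt; omega),
    fun l => ⟨hq.zero.trans (hmono 0 l (Nat.zero_le _) (by have := l.isLt; omega)),
      (hmono l (r + 1) (by have := l.isLt; omega) le_rfl).trans hq.top⟩,
    fval_eq hS hB hα (fun l h1 h2 => ?_) ?_ hqR⟩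
  · simp only [hlin _ (show (p:ℕ) + 1 ≤ r + 1 by have := p.isLt; omega),
      hlin _ (show (p':ℕ) + 1 ≤ r + 1 by have := p'.isLt; omega)]
    push_cast
    gcongr
    exact_mod_cast hp
  · simp only [hlin _ (show (p:ℕ) + 1 ≤ r + 1 by have := p.isLt; omega)]
    refine ⟨by positivity, (div_lt_one (by positivity)).2 ?_⟩
    have := p.isLt
    push_cast
    exact_mod_cast (show (p:ℕ) + 1 < r + 1 by omega)
  · rw [hlin l h2]
    have : (0:ℝ) < l := by exact_mod_cast h1
    positivity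
  · rw [hlin _ le_rfl]; push_cast; exact div_self (by positivity)

theorem exists_fval (hS : Sm f f1 f2 f3 B D) (hB : ∀ x, f x ≤ B) {α : ℝ} (hα : 0 ≤ α) {v : ℝ}
    (hv : v ∈ Parisi.parisiValues (fun y => exp (f y)) α) :
    ∃ (R : ℕ) (m q : ℕ → ℝ), 1 ≤ R ∧
      (∀ {Ω : Type} (w : List Ω → ℝ), (∀ p, 0 < w p) → Ok R m w) ∧
      Monotone q ∧ 0 ≤ q 0 ∧ q R = 1 ∧ v = Fval α f R m q := by
  obtain ⟨r, m', q', hm', hm01, hq', hq01, rfl⟩ := hv
  set m : ℕ → ℝ := fun l => if l ≤ r + 1 then Parisi.mext m' l else 0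
  set q : ℕ → ℝ := fun l => if h : l < r + 1 then q' ⟨l, h⟩ else 1
  have htop : m (r + 1) = 1 := by simp [m, Parisi.mext]
  have hqR : q (r + 1) = 1 := by simp [q]
  have hin : ∀ p : Fin r, m (p + 1) = m' p := fun p => by
    simp [m, Parisi.mext, show (p:ℕ) + 1 ≤ r + 1 by have := p.isLt; omega]
  have hcases : ∀ l, 1 ≤ l → l ≤ r + 1 → (∃ p : Fin r, l = p + 1) ∨ l = r + 1 := fun l h1 h2 => by
    rcases Nat.lt_or_ge l (r + 1) with h | h
    · exact Or.inl ⟨⟨l - 1, by omega⟩, by simp only; omega⟩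
    · exact Or.inr (by omega)
  have hpos : ∀ l, 1 ≤ l → l ≤ r + 1 → 0 < m l := fun l h1 h2 => by
    rcases hcases l h1 h2 with ⟨p, rfl⟩ | rfl
    · rw [hin p]; exact (hm01 p).1
    · rw [htop]; exact one_pos
  refine ⟨r + 1, m, q, by omega, fun {Ω} w hw => ⟨hpos, fun l h1 h2 => ?_, htop, by simp [m], hw⟩,
    fun i j hij => ?_, ?_, hqR, ?_⟩
  · obtain ⟨p, rfl⟩ : ∃ p : Fin r, l = p + 1 := ⟨⟨l - 1, by omega⟩, by simp only; omega⟩
    rcases hcases ((p:ℕ) + 1 + 1) (by omega) (by omega) with ⟨p', hp'⟩ | hp'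
    · rw [hp', hin p, hin p']
      exact hm'.monotone (show (p:ℕ) ≤ p' by omega)
    · rw [hp', htop, hin p]; exact (hm01 p).2.le
  · simp only [q]
    split_ifs with h1 h2 h2
    · exact hq' hij
    · exact (hq01 _).2
    · omega
    · exact le_rfl
  · simp [q, (hq01 0).1]
  · rw [fval_eq hS hB hα hpos htop hqR, show (fun p : Fin r => m (p + 1)) = m' from funext hin,
      show (fun l : Fin (r + 1) => q l) = q' from funext fun l => by simp only [q]; rw [dif_pos l.isLt]]

theorem values_nonempty (U : ℝ → ℝ) (α : ℝ) : (Parisi.parisiValues U α).Nonempty :=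
  ⟨_, 0, Fin.elim0, fun _ => 0, fun i => i.elim0, fun i => i.elim0, monotone_const,
    fun _ => ⟨le_rfl, zero_le_one⟩, rfl⟩

theorem values_bddBelow (hS : Sm f f1 f2 f3 B D) (hB : ∀ x, f x ≤ B) {α : ℝ} (hα : 0 ≤ α) :
    BddBelow (Parisi.parisiValues (fun y => exp (f y)) α) := by
  refine ⟨-(α * B) - α / 2 * D ^ 2, fun v hv => ?_⟩
  obtain ⟨R, m, q, hR, hok, hq, hq0, hqR, rfl⟩ := exists_fval hS hB hα hv
  obtain ⟨r, rfl⟩ : ∃ r, R = r + 1 := ⟨R - 1, by omega⟩
  have ok := hok (Ω := Unit) (fun _ => 1) fun _ => one_pos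
  exact value_ge hS hB hα ok.pos (fun l h1 h2 => ok.mono l h1 (by omega)) ok.top hqR
    fun l _ => hq0.trans (hq (Nat.zero_le l))

end Vale.Agent.P157.Par
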