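import Vale.Agent.P157.Par.Defs
import Vale.Agent.P168.MP.Pert

/-! The perturbed log partition function of the perceptron and its interpolation in the number of
patterns. -/

open MeasureTheory Real
open Vale.Agent.P168.MP (lin logZ0 pw Batch)

namespace Vale.Agent.P157.Par

variable {ι : Type} [Fintype ι] [DecidableEq ι]

/-- mean perturbed log partition function with `M` patterns in dimension `N` -/
noncomputable def pertF (f : ℝ → ℝ) (R S : ℕ) (β : ι → Batch) (h u : ι → ℝ) (N M : ℕ) [NeZero N] : ℝ :=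
  ∫ g, logZ0 R (lin R) (pw (N := N) (S := S) (β := β) R (ham f g) h u) ∂pats N M

/-- linear interpolation of `pertF` at a real number `x ≥ 0` of patterns -/
noncomputable def pertI (f : ℝ → ℝ) (R S : ℕ) (β : ι → Batch) (h u : ι → ℝ) (N : ℕ) [NeZero N]
    (x : ℝ) : ℝ :=
  pertF f R S β h u N ⌊x⌋₊ +
    (x - ⌊x⌋₊) * (pertF f R S β h u N (⌊x⌋₊ + 1) - pertF f R S β h u N ⌊x⌋₊)

end Vale.Agent.P157.Par
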