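import Vale.Agent.P157.Par.QConc
import Vale.Agent.P157.Par.Lip
import Vale.Agent.P157.Par.Pert
import Vale.Agent.P157.Lim.Main
import Vale.Agent.P168.MP.Cavity

/-! Pattern steps at fixed dimension: the increment of the perturbed log partition function, stability
of the level values, interpolation in the number of patterns and comparison with the pressure. -/

open MeasureTheory ProbabilityTheory Finset Real
open Vale.Agent.P150 (gauss dot)
open Vale.Agent.P168.MP (lin ET nest logZ0 Ok pw spinAt Batch Mark gain1 gainCap ok_lin)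
open Vale.Agent.P157.Lim (xv wt)

namespace Vale.Agent.P157.Par

set_option linter.unusedSectionVars false

/-- what `value_close` provides for unit diagonal -/
def ValueClose (f : ℝ → ℝ) (K : ℝ) : Prop :=
  ∀ {Ω κ : Type} [Fintype Ω] [Nonempty Ω] [Fintype κ] {R : ℕ} (_ : 1 ≤ R)
    {w : List Ω → ℝ} (_ : ∀ p, 0 < w p) {a : List Ω → κ → ℝ} (_ : ∀ p, cv a p p ≤ 1)
    {q : ℕ → ℝ} (_ : Prof R q 1),
    |∫ g, log (nest (lin R) w (fac f a g) R []) ∂gauss κ - Phi (fun y => exp (f y)) R (lin R) q| ≤
      K * adev R w (cv a) q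

/-- what `Phi_lip` provides for the nested functional -/
def PhiLip (f : ℝ → ℝ) (K : ℝ) : Prop :=
  ∀ (R : ℕ) (q q' : ℕ → ℝ), 1 ≤ R → Prof R q 1 → Prof R q' 1 →
    |Phi (fun y => exp (f y)) R (lin R) q - Phi (fun y => exp (f y)) R (lin R) q'| ≤ K * dist1 R q q'

/-- the nested log functional of a factor in `[e^-b, e^b]` -/
lemma abs_log_nest_le {Ω : Type} [Fintype Ω] [Nonempty Ω] {R : ℕ} {m : ℕ → ℝ} {w Y : List Ω → ℝ}
    (hm : Ok R m w) {b : ℝ} (hY : ∀ p, exp (-b) ≤ Y p ∧ Y p ≤ exp b) :
    |log (nest m w Y R [])| ≤ b := by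
  obtain ⟨ha, hb⟩ := Vale.Agent.P168.MP.nest_mem hm (exp_pos (-b)) (b := exp b)
    (fun q _ => hY q) R [] (by simp)
  rw [abs_le]
  constructor
  · rw [← log_exp (-b)]; exact log_le_log (exp_pos _) ha
  · rw [← log_exp b]; exact log_le_log ((exp_pos _).trans_le ha) hb

/-- linear interpolation increases at least by the smallest increment used -/
lemma interp_lower {G : ℕ → ℝ} {c x x' : ℝ} (hx : 0 ≤ x) (hxx : x ≤ x')
    (h : ∀ k, ⌊x⌋₊ ≤ k → k ≤ ⌊x'⌋₊ → c ≤ G (k + 1) - G k) :
    (x' - x) * c ≤ (G ⌊x'⌋₊ + (x' - ⌊x'⌋₊) * (G (⌊x'⌋₊ + 1) - G ⌊x'⌋₊)) -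
      (G ⌊x⌋₊ + (x - ⌊x⌋₊) * (G (⌊x⌋₊ + 1) - G ⌊x⌋₊)) := by
  set n := ⌊x⌋₊
  set n' := ⌊x'⌋₊
  have hnn : n ≤ n' := Nat.floor_le_floor hxx
  have a1 : (n:ℝ) ≤ x := Nat.floor_le hx
  have a2 : x < n + 1 := Nat.lt_floor_add_one _
  have b1 : (n':ℝ) ≤ x' := Nat.floor_le (hx.trans hxx)
  rcases hnn.eq_or_lt with e | e
  · rw [← e]
    have := mul_le_mul_of_nonneg_left (h n le_rfl hnn) (sub_nonneg.2 hxx)
    linarith
  · have tele : ∀ j, n + 1 + j ≤ n' → (j:ℝ) * c ≤ G (n + 1 + j) - G (n + 1) := by
      intro j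
      induction j with
      | zero => simp
      | succ j ih =>
        intro hj
        have h1 := h (n + 1 + j) (by omega) (by omega)
        have h2 := ih (by omega)
        push_cast [← add_assoc]
        linarith
    obtain ⟨j, hj⟩ := Nat.exists_eq_add_of_le (show n + 1 ≤ n' from e)
    have h1 := tele j hj.ge
    rw [← hj] at h1
    have h2 := mul_le_mul_of_nonneg_left (h n le_rfl hnn) (show 0 ≤ (n:ℝ) + 1 - x by linarith)
    have h3 := mul_le_mul_of_nonneg_left (h n' hnn le_rfl) (sub_nonneg.2 b1)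
    have hj' : (n':ℝ) = n + 1 + j := by rw [hj]; push_cast; ring
    rw [hj'] at h3 ⊢
    linarith

variable {ι : Type} [Fintype ι] [DecidableEq ι] {N : ℕ} [NeZero N] {f f1 f2 f3 : ℝ → ℝ} {B D : ℝ}

/-- level values of the perturbed weight with patterns `g` -/
noncomputable def qP (f : ℝ → ℝ) (R S : ℕ) (β : ι → Batch) (h u : ι → ℝ) {M : ℕ}
    (g : Fin M → Fin N → ℝ) : ℕ → ℝ :=
  qlev R (pw (N := N) (S := S) (β := β) R (ham f g) h u) (spinAt R)

/-- deviation of the overlap from the level values, at fixed patterns -/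
noncomputable def adP (f : ℝ → ℝ) (R S : ℕ) (β : ι → Batch) (h u : ι → ℝ) {M : ℕ}
    (g : Fin M → Fin N → ℝ) : ℝ :=
  adev R (pw (N := N) (S := S) (β := β) R (ham f g) h u) (ovK (spinAt R)) (qP f R S β h u g)

/-- mean deviation of the overlap from the level values -/
noncomputable def AD (f : ℝ → ℝ) (R S : ℕ) (β : ι → Batch) (h u : ι → ℝ) (N M : ℕ) [NeZero N] : ℝ :=
  ∫ g, adP (N := N) f R S β h u g ∂pats N M

variable {R S : ℕ} {β : ι → Batch} {h u : ι → ℝ} {M : ℕ}

lemma pw_ham_pos (g : Fin M → Fin N → ℝ) (p : List (Mark N S β)) :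
    0 < pw R (ham f g) h u p :=
  mul_pos (ham_pos f g _) (exp_pos _)

lemma continuous_pw_ham (hf : Continuous f) (p : List (Mark N S β)) :
    Continuous fun g : Fin M → Fin N → ℝ => pw R (ham f g) h u p :=
  (continuous_ham hf _).mul continuous_const

lemma pw_ins (f : ℝ → ℝ) (g : Fin M → Fin N → ℝ) (y : Fin N → ℝ) :
    pw (N := N) (S := S) (β := β) R (ham f (ins 0 y g)) h u =
      fun p => pw R (ham f g) h u p * fac f (fun p => xv N (spinAt R p)) y p := by
  funext p
  simp only [pw, fac, ham_ins]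
  ring

lemma fac_mem (hS : Sm f f1 f2 f3 B D) (hB : ∀ x, f x ≤ B) {Ω κ : Type} [Fintype κ]
    (a : List Ω → κ → ℝ) (y : κ → ℝ) (p : List Ω) :
    exp (-B) ≤ fac f a y p ∧ fac f a y p ≤ exp B :=
  ⟨exp_le_exp.2 (hS.lb _), exp_le_exp.2 (hB _)⟩

lemma continuous_ins (g : Fin M → Fin N → ℝ) : Continuous fun y : Fin N → ℝ => ins 0 y g :=
  Continuous.finInsertNth (A := fun _ : Fin (M + 1) => Fin N → ℝ) 0 continuous_id continuous_const

lemma qP_prof (g : Fin M → Fin N → ℝ) : Prof R (qP f R S β h u g) 1 :=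
  (qlev_prof (pw_ham_pos g)).1

lemma continuous_qP (hf : Continuous f) (l : ℕ) :
    Continuous fun g : Fin M → Fin N → ℝ => qP f R S β h u g l :=
  continuous_ET (continuous_pw_ham hf) pw_ham_pos R _ fun _ => continuous_const

lemma adP_nonneg (g : Fin M → Fin N → ℝ) : 0 ≤ adP f R S β h u g :=
  adev_nonneg (pw_ham_pos g) _ _

lemma AD_nonneg : 0 ≤ AD f R S β h u N M := integral_nonneg adP_nonneg

lemma integrable_adP (hf : Continuous f) (hR : 1 ≤ R) :
    Integrable (adP (N := N) (M := M) f R S β h u) (pats N M) := by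
  have hd : ∀ j, Continuous fun g : Fin M → Fin N → ℝ =>
      devOf R (pw (N := N) (S := S) (β := β) R (ham f g) h u) (ovK (spinAt R)) (qP f R S β h u g) j :=
    fun j => continuous_ET (continuous_pw_ham hf) pw_ham_pos R _ fun _ =>
      (continuous_const.sub (continuous_qP hf j)).abs
  have hc : Continuous (adP (N := N) (M := M) f R S β h u) := by
    unfold adP adev
    exact ((continuous_finsetSum _ fun j _ => hd j).div_const _).add (hd R)
  refine Integrable.of_bound hc.aestronglyMeasurable 4 (Filter.Eventually.of_forall fun g => ?_)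
  have hb : ∀ j ≤ R,
      devOf R (pw (N := N) (S := S) (β := β) R (ham f g) h u) (ovK (spinAt R)) (qP f R S β h u g) j ≤ 2 := by
    intro j hj
    refine (devOf_le (pw_ham_pos g) hj (V := 1) (W := 1) (fun p p' => abs_ov_le _ _) ?_).trans (by norm_num)
    obtain ⟨a, b⟩ := (qP_prof (f := f) (h := h) (u := u) (β := β) (S := S) (R := R) g).upper hj
    rw [abs_of_nonneg a]; exact b
  rw [Real.norm_eq_abs, abs_of_nonneg (adP_nonneg g), adP, adev]
  have hR0 : (0:ℝ) < R := by exact_mod_cast hR
  have h1 := Finset.sum_le_sum (s := range R) fun j hj => hb j (mem_range.1 hj).le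
  have h2 : (∑ j ∈ range R,
      devOf R (pw (N := N) (S := S) (β := β) R (ham f g) h u) (ovK (spinAt R)) (qP f R S β h u g) j) / R ≤ 2 := by
    rw [div_le_iff₀ hR0]; refine h1.trans_eq ?_; simp [mul_comm]
  linarith [hb R le_rfl]

lemma abs_ham_mem (hS : Sm f f1 f2 f3 B D) (hB : ∀ x, f x ≤ B) (g : Fin M → Fin N → ℝ)
    (σ : Fin N → Bool) : exp (-(M * B)) ≤ ham f g σ ∧ ham f g σ ≤ exp (M * B) := by
  have hb : ∀ x, |f x| ≤ B := fun x => abs_le.2 ⟨hS.lb x, hB x⟩
  have := (abs_sum_le_sum_abs (fun a => f (dot (xv N σ) (g a))) univ).trans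
    (sum_le_sum fun a _ => hb _)
  rw [sum_const, card_univ, Fintype.card_fin, nsmul_eq_mul] at this
  exact ⟨exp_le_exp.2 (abs_le.1 this).1, exp_le_exp.2 (abs_le.1 this).2⟩

lemma integrable_logZ0_pw (hS : Sm f f1 f2 f3 B D) (hB : ∀ x, f x ≤ B) (hR : 1 ≤ R) :
    Integrable (fun g : Fin M → Fin N → ℝ =>
      logZ0 R (lin R) (pw (N := N) (S := S) (β := β) R (ham f g) h u)) (pats N M) := by
  have hf : Continuous f := continuous_iff_continuousAt.2 fun x => (hS.d0 x).continuousAt
  set w₀ : List (Mark N S β) → ℝ := fun p => exp (∑ i : ι × Fin S, gain1 R h u p i)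
  refine Integrable.of_bound
    (continuous_logZ0 (continuous_pw_ham hf) pw_ham_pos R).aestronglyMeasurable
    (|logZ0 R (lin R) w₀| + M * B) (Filter.Eventually.of_forall fun g => ?_)
  have hw₀ : ∀ p, 0 < w₀ p := fun p => exp_pos _
  have h1 := Vale.Agent.P168.MP.logZ0_mul (R := R) (m := lin R) hw₀
    (Y := fun p => ham f g (spinAt R p)) fun p => ham_pos f g _
  have e : pw (N := N) (S := S) (β := β) R (ham f g) h u = fun p => w₀ p * ham f g (spinAt R p) := by
    funext p; simp only [pw, w₀]; ring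
  rw [e, Real.norm_eq_abs]
  have h2 := abs_le.1 (abs_log_nest_le (ok_lin hR hw₀) (Y := fun p => ham f g (spinAt R p))
    (b := M * B) fun p => abs_ham_mem hS hB g _)
  rw [abs_le]
  constructor <;> linarith [le_abs_self (logZ0 R (lin R) w₀), neg_abs_le (logZ0 R (lin R) w₀)]

lemma integrable_ins {H : (Fin (M + 1) → Fin N → ℝ) → ℝ} (hH : Integrable H (pats N (M + 1))) :
    Integrable (fun g => ∫ y, H (ins 0 y g) ∂gauss (Fin N)) (pats N M) :=
  ((measurePreserving_ins 0).integrable_comp_of_integrable hH).integral_prod_right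

/-- **One pattern**: the increment is the nested functional at the level values, up to the deviation -/
theorem pattern_step (hS : Sm f f1 f2 f3 B D) (hB : ∀ x, f x ≤ B) {KV KL : ℝ} (hKL : 0 ≤ KL)
    (hV : ValueClose f KV) (hL : PhiLip f KL) (hR : 1 ≤ R) (M : ℕ) :
    ∫ g, Phi (fun y => exp (f y)) R (lin R) (qP f R S β h u g) ∂pats N M - KV * AD f R S β h u N M ≤
      pertF f R S β h u N (M + 1) - pertF f R S β h u N M := by
  have hf : Continuous f := continuous_iff_continuousAt.2 fun x => (hS.d0 x).continuousAt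
  obtain ⟨hPc, hPb⟩ := cont_functional (F := Phi (fun y => exp (f y)) R (lin R)) hR hKL
    (fun q q' hq hq' => hL R q q' hR hq hq') (q := fun g : Fin M → Fin N → ℝ => qP f R S β h u g)
    qP_prof fun l => continuous_qP hf l
  have iP : Integrable (fun g => Phi (fun y => exp (f y)) R (lin R) (qP (N := N) f R S β h u g))
      (pats N M) :=
    Integrable.of_bound hPc.aestronglyMeasurable _ (Filter.Eventually.of_forall hPb)
  have iA := (integrable_adP (N := N) (M := M) (S := S) (β := β) (h := h) (u := u) hf hR).const_mul KV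
  have iL := integrable_logZ0_pw (N := N) (M := M) (S := S) (β := β) (h := h) (u := u) hS hB hR
  have iH := integrable_logZ0_pw (N := N) (M := M + 1) (S := S) (β := β) (h := h) (u := u) hS hB hR
  rw [pertF, pertF, AD, integral_pats_succ 0 iH, ← integral_const_mul, ← integral_sub iP iA,
    ← integral_sub (integrable_ins iH) iL]
  refine integral_mono (iP.sub iA) ((integrable_ins iH).sub iL) fun g => ?_
  set w := pw (N := N) (S := S) (β := β) R (ham f g) h u
  set a : List (Mark N S β) → Fin N → ℝ := fun p => xv N (spinAt R p)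
  have hw : ∀ p, 0 < w p := pw_ham_pos g
  have hcv : cv a = ovK (spinAt R) := funext fun p => funext fun p' => ov_eq _ _
  have hv := hV hR hw (a := a) (fun p => by rw [hcv]; exact (ov_self _).le)
    (q := qP f R S β h u g) (qP_prof g)
  rw [hcv] at hv
  have e : ∀ y, logZ0 R (lin R) (pw (N := N) (S := S) (β := β) R (ham f (ins 0 y g)) h u) =
      logZ0 R (lin R) w + log (nest (lin R) w (fac f a y) R []) := fun y => by
    have := Vale.Agent.P168.MP.logZ0_mul (R := R) (m := lin R) hw (Y := fac f a y) fun p => exp_pos _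
    rw [pw_ins]
    show logZ0 R (lin R) (fun p => w p * fac f a y p) = _
    linarith
  have hc : Continuous fun y : Fin N → ℝ => log (nest (lin R) w (fac f a y) R []) :=
    (continuous_nest (X := Fin N → ℝ) (w := fun _ => w) (Y := fun y => fac f a y)
      (fun _ => continuous_const) (fun _ => hw)
      (fun p => continuous_exp.comp (hf.comp (continuous_dot_left (a p)))) (fun _ _ => exp_pos _) R []).log
        fun y => (Vale.Agent.P168.MP.nest_pos hw (fun _ => exp_pos _) R []).ne'
  have hi : Integrable (fun y => log (nest (lin R) w (fac f a y) R [])) (gauss (Fin N)) :=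
    Integrable.of_bound hc.aestronglyMeasurable B
      (Filter.Eventually.of_forall fun y => abs_log_nest_le (ok_lin hR hw) fun p => fac_mem hS hB a y p)
  simp only [e]
  rw [integral_add (integrable_const _) hi, integral_const, probReal_univ, one_smul]
  have := (abs_le.1 hv).1
  simp only [adP]
  linarith

/-- **Stability**: adding patterns moves a Lipschitz functional of the level values by the deviation -/
theorem shift (hS : Sm f f1 f2 f3 B D) (hB : ∀ x, f x ≤ B) {K : ℝ} (hK : 0 ≤ K) {F : (ℕ → ℝ) → ℝ}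
    (hR : 1 ≤ R) (hF : ∀ q q', Prof R q 1 → Prof R q' 1 → |F q - F q'| ≤ K * dist1 R q q') (M : ℕ) :
    ∀ j : ℕ, |∫ g, F (qP f R S β h u g) ∂pats N (M + j) - ∫ g, F (qP f R S β h u g) ∂pats N M| ≤
      K * exp (4 * B) * ∑ i ∈ range j, AD f R S β h u N (M + i) := by
  have hf : Continuous f := continuous_iff_continuousAt.2 fun x => (hS.d0 x).continuousAt
  have hi : ∀ M : ℕ, Integrable (fun g => F (qP (N := N) f R S β h u g)) (pats N M) := fun M => by
    obtain ⟨hc, hb⟩ := cont_functional hR hK hF (q := fun g : Fin M → Fin N → ℝ => qP f R S β h u g)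
      qP_prof fun l => continuous_qP hf l
    exact Integrable.of_bound hc.aestronglyMeasurable _ (Filter.Eventually.of_forall hb)
  have step : ∀ M : ℕ, |∫ g, F (qP f R S β h u g) ∂pats N (M + 1) - ∫ g, F (qP f R S β h u g) ∂pats N M| ≤
      K * exp (4 * B) * AD f R S β h u N M := by
    intro M
    rw [integral_pats_succ 0 (hi _), ← integral_sub (integrable_ins (hi _)) (hi M), AD,
      ← integral_const_mul]
    refine abs_integral_le_integral_abs.trans ?_
    refine integral_mono ((integrable_ins (hi _)).sub (hi M)).abs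
      ((integrable_adP hf hR).const_mul _) fun g => ?_
    set w := pw (N := N) (S := S) (β := β) R (ham f g) h u
    set a : List (Mark N S β) → Fin N → ℝ := fun p => xv N (spinAt R p)
    have hw : ∀ p, 0 < w p := pw_ham_pos g
    have key : ∀ y, |F (qP f R S β h u (ins 0 y g)) - F (qP f R S β h u g)| ≤
        K * exp (4 * B) * adP f R S β h u g := fun y => by
      refine (hF _ _ (qP_prof _) (qP_prof g)).trans ?_
      rw [mul_assoc]
      refine mul_le_mul_of_nonneg_left ?_ hK
      have hl : ∀ l ≤ R, |qP f R S β h u (ins 0 y g) l - qP f R S β h u g l| ≤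
          exp (4 * B) * devOf R w (ovK (spinAt R)) (qP f R S β h u g) l := fun l hl => by
        simp only [qP, pw_ins]
        exact (rep_tilt hR hw (fac_mem hS hB a y) (spinAt R) (ovK (spinAt R)) (qlev R w (spinAt R)) hl).2
      rw [dist1, adP, adev, mul_add, ← mul_div_assoc, Finset.mul_sum]
      exact add_le_add (div_le_div_of_nonneg_right
        (Finset.sum_le_sum fun l h => hl l (mem_range.1 h).le) (Nat.cast_nonneg _)) (hl R le_rfl)
    have hy : Integrable (fun y => F (qP (N := N) f R S β h u (ins 0 y g))) (gauss (Fin N)) := by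
      obtain ⟨hc, hb⟩ := cont_functional hR hK hF (q := fun y : Fin N → ℝ => qP f R S β h u (ins 0 y g))
        (fun y => qP_prof _) fun l => (continuous_qP hf l).comp
          (continuous_ins g)
      exact Integrable.of_bound hc.aestronglyMeasurable _ (Filter.Eventually.of_forall hb)
    have := norm_integral_le_of_norm_le_const (μ := gauss (Fin N))
      (f := fun y => F (qP f R S β h u (ins 0 y g)) - F (qP f R S β h u g))
      (Filter.Eventually.of_forall key)
    rw [integral_sub hy (integrable_const _), integral_const, probReal_univ, one_smul, mul_one] at this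
    exact this
  intro j
  induction j with
  | zero => simp
  | succ j ih =>
    rw [sum_range_succ, mul_add, ← add_assoc]
    have := step (M + j)
    calc _ ≤ _ := abs_sub_le _ (∫ g, F (qP f R S β h u g) ∂pats N (M + j)) _
      _ ≤ _ := by linarith

/-- **Interpolated increment** -/
theorem pattI (hS : Sm f f1 f2 f3 B D) (hB : ∀ x, f x ≤ B) {KV KL : ℝ} (hKV : 0 ≤ KV) (hKL : 0 ≤ KL)
    (hV : ValueClose f KV) (hL : PhiLip f KL) (hR : 1 ≤ R) {A x x' : ℝ} (hx : 0 ≤ x) (hxx : x ≤ x')
    (hA : x' - x ≤ A) :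
    (x' - x) * ∫ g, Phi (fun y => exp (f y)) R (lin R) (qP f R S β h u g) ∂pats N ⌊x⌋₊ -
        A * (KV + KL * exp (4 * B)) * ∑ i ∈ range (⌈A⌉₊ + 2), AD f R S β h u N (⌊x⌋₊ + i) ≤
      pertI f R S β h u N x' - pertI f R S β h u N x := by
  set n := ⌊x⌋₊
  set P := ∫ g, Phi (fun y => exp (f y)) R (lin R) (qP (N := N) f R S β h u g) ∂pats N n
  set Sm' := ∑ i ∈ range (⌈A⌉₊ + 2), AD f R S β h u N (n + i)
  set C := KV + KL * exp (4 * B)
  have hs0 : ∀ i, 0 ≤ AD f R S β h u N (n + i) := fun i => AD_nonneg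
  have hstep : ∀ k, n ≤ k → k ≤ ⌊x'⌋₊ →
      P - C * Sm' ≤ pertF f R S β h u N (k + 1) - pertF f R S β h u N k := by
    intro k hk hk'
    obtain ⟨j, rfl⟩ := Nat.exists_eq_add_of_le hk
    have hj : j < ⌈A⌉₊ + 2 := by
      have h1 : ((n + j : ℕ) : ℝ) ≤ x' := (Nat.cast_le.2 hk').trans (Nat.floor_le (hx.trans hxx))
      have h2 : x < (n:ℝ) + 1 := Nat.lt_floor_add_one _
      have h3 := Nat.le_ceil A
      push_cast at h1
      have : (j:ℝ) < ((⌈A⌉₊ + 2 : ℕ) : ℝ) := by push_cast; linarith
      exact_mod_cast this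
    have h1 := (abs_le.1 (shift (N := N) (S := S) (β := β) (h := h) (u := u) hS hB hKL hR
      (fun q q' hq hq' => hL R q q' hR hq hq') n j)).1
    have h2 := pattern_step (N := N) (S := S) (β := β) (h := h) (u := u) hS hB hKL hV hL hR (n + j)
    have h3 : ∑ i ∈ range j, AD f R S β h u N (n + i) ≤ Sm' :=
      sum_le_sum_of_subset_of_nonneg (range_mono hj.le) fun i _ _ => hs0 i
    have h4 : AD f R S β h u N (n + j) ≤ Sm' :=
      single_le_sum (f := fun i => AD f R S β h u N (n + i)) (fun i _ => hs0 i) (mem_range.2 hj)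
    have h5 := mul_le_mul_of_nonneg_left h4 hKV
    have h6 := mul_le_mul_of_nonneg_left h3 (mul_nonneg hKL (exp_pos (4 * B)).le)
    simp only [C, P]
    linarith
  have := interp_lower (G := fun k => pertF f R S β h u N k) hx hxx hstep
  have hC : 0 ≤ C * Sm' := mul_nonneg (add_nonneg hKV (mul_nonneg hKL (exp_pos _).le))
    (sum_nonneg fun i _ => hs0 i)
  have h7 := mul_le_mul_of_nonneg_right hA hC
  simp only [pertI]
  linarith

/-- **Comparison with the pressure** -/
theorem abs_pertF_sub (hS : Sm f f1 f2 f3 B D) (hB : ∀ x, f x ≤ B) (hR : 1 ≤ R)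
    (hh : ∀ j, |h j| ≤ 1) (hu : ∀ j, |u j| ≤ 1) (M : ℕ) :
    |pertF f R S β h u N M - N * pressure (isingUniform N) f M| ≤ gainCap S β := by
  have hf : Continuous f := continuous_iff_continuousAt.2 fun x => (hS.d0 x).continuousAt
  have hb : ∀ x, |f x| ≤ B := fun x => abs_le.2 ⟨hS.lb x, hB x⟩
  have hN : (N:ℝ) ≠ 0 := Nat.cast_ne_zero.2 (NeZero.ne N)
  set L := fun g : Fin M → Fin N → ℝ => log (Vale.Agent.P168.MP.avg (ham f g))
  have hfree : N * pressure (isingUniform N) f M = ∫ g, L g ∂pats N M := by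
    rw [Lim.pressure_eq_free hf hb, mul_div_cancel₀ _ hN, Lim.free,
      Lim.iterate_eq_integral hf hb (fun _ => by unfold wt; positivity)]
    refine integral_congr_ae (Filter.Eventually.of_forall fun g => ?_)
    simp only [L, Lim.lse, Vale.Agent.P168.MP.avg, Finset.sum_apply, Lim.inc, zero_add, ham, wt,
      Fintype.card_fun, Fintype.card_bool, Fintype.card_fin]
    rw [Finset.sum_div]
    refine congrArg log (sum_congr rfl fun σ _ => ?_)
    push_cast
    rw [div_pow, one_pow]
    ring
  have hbd : ∀ g, |logZ0 R (lin R) (pw (N := N) (S := S) (β := β) R (ham f g) h u) - L g| ≤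
      gainCap S β := fun g => Vale.Agent.P168.MP.abs_logZ0_pw_sub_le hR (ham_pos f g) hh hu
  have hLi : Integrable L (pats N M) := by
    refine Integrable.of_bound ?_ ((M:ℝ) * B) (Filter.Eventually.of_forall fun g => ?_)
    · refine (Continuous.log ?_ fun g => (Vale.Agent.P168.MP.avg_pos (ham_pos f g)).ne').aestronglyMeasurable
      simp only [Vale.Agent.P168.MP.avg]
      exact (continuous_finsetSum _ fun σ _ => continuous_ham hf σ).div_const _
    · have hp := Vale.Agent.P168.MP.avg_pos (ham_pos f g)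
      have h1 : exp (-(M * B)) ≤ Vale.Agent.P168.MP.avg (ham f g) ∧
          Vale.Agent.P168.MP.avg (ham f g) ≤ exp (M * B) := by
        have hc : (0:ℝ) < Fintype.card (Fin N → Bool) := Nat.cast_pos.2 Fintype.card_pos
        rw [Vale.Agent.P168.MP.avg, le_div_iff₀ hc, div_le_iff₀ hc]
        constructor
        · simpa [mul_comm] using sum_le_sum (s := univ) fun σ _ => (abs_ham_mem hS hB g σ).1
        · simpa [mul_comm] using sum_le_sum (s := univ) fun σ _ => (abs_ham_mem hS hB g σ).2
      rw [Real.norm_eq_abs, abs_le]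
      exact ⟨by rw [← log_exp (-(M * B))]; exact log_le_log (exp_pos _) h1.1,
        by rw [← log_exp (M * B)]; exact log_le_log hp h1.2⟩
  rw [hfree, pertF, ← integral_sub (integrable_logZ0_pw hS hB hR) hLi]
  simpa using norm_integral_le_of_norm_le_const (μ := pats N M)
    (f := fun g => logZ0 R (lin R) (pw (N := N) (S := S) (β := β) R (ham f g) h u) - L g)
    (Filter.Eventually.of_forall hbd)

/-- the pressure is Lipschitz in the number of patterns -/
theorem abs_pressure_sub (hf : Continuous f) (hb : ∀ x, |f x| ≤ B) (M M' : ℕ) :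
    |pressure (isingUniform N) f M - pressure (isingUniform N) f M'| ≤ B * |(M:ℝ) - M'| / N := by
  rw [Lim.pressure_eq_free hf hb, Lim.pressure_eq_free hf hb, ← sub_div, abs_div, Nat.abs_cast]
  exact div_le_div_of_nonneg_right (Lim.abs_iterate_sub hf hb
    (Lim.good_lse fun _ => by unfold wt; positivity) (xv N) 0 M M') (Nat.cast_nonneg _)

end Vale.Agent.P157.Par
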