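import Vale.Agent.P157.Par.Defs
import Vale.Agent.P168.MP.Ident
import Vale.Agent.P168.MP.Restrict
import Vale.Agent.P168.MP.Deriv

/-! The overlap of two replicas is determined by their splitting level, on average over the levels.
Only three identities of order one are used. -/

open Finset Real
open Vale.Agent.P168 (sg)
open Vale.Agent.P168.MP hiding avg
open Vale.Agent.P168.MP (avg)

namespace Vale.Agent.P157.Par

set_option linter.unusedSectionVars false

section basic
variable {N : ℕ}

lemma abs_ov_le [NeZero N] (σ τ : Fin N → Bool) : |ov σ τ| ≤ 1 := by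
  have hN : (0:ℝ) < N := by exact_mod_cast NeZero.pos N
  rw [ov, avg, Fintype.card_fin, abs_div, Nat.abs_cast, div_le_one hN]
  exact (abs_sum_le_sum_abs _ _).trans
    ((sum_le_sum fun v _ => (by cases σ v <;> cases τ v <;> simp [sg] : |sg (σ v) * sg (τ v)| ≤ 1)).trans
      (by simp))

lemma ov_self [NeZero N] (σ : Fin N → Bool) : ov σ σ = 1 := by
  have : Nonempty (Fin N) := ⟨0⟩
  rw [ov, ← avg_const (Ω := Fin N) (1:ℝ)]
  congr 1; funext v; cases σ v <;> simp [sg]

lemma ov_comm (σ τ : Fin N → Bool) : ov σ τ = ov τ σ := by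
  simp only [ov, mul_comm]

end basic

variable {Ω : Type} [Fintype Ω] [Nonempty Ω] {R N : ℕ} [NeZero N] {m : ℕ → ℝ}
  {w : List Ω → ℝ} {rd : List Ω → Fin N → Bool}

/-- split an extension from the root at level `l` -/
lemma tower (l : ℕ) (hl : l ≤ R) (G : List Ω → ℝ) :
    ext m w R [] G = ext m (Z m w (R - l)) l [] fun pre => ext m w (R - l) pre G := by
  conv_lhs => rw [show R = l + (R - l) by omega]
  exact ext_tower l (R - l) [] G

/-- split an extension from level `l` at level `L` -/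
lemma tower' {l L : ℕ} (hl : l ≤ L) (hL : L ≤ R) (pre : List Ω) (G : List Ω → ℝ) :
    ext m w (R - l) pre G =
      ext m (Z m w (R - L)) (L - l) pre fun q => ext m w (R - L) q G := by
  conv_lhs => rw [show R - l = (L - l) + (R - L) by omega]
  exact ext_tower _ _ pre G

/-- agreement on the lists of the relevant length is enough -/
lemma ext_congr_len {k : ℕ} {u : List Ω → ℝ} {F G : List Ω → ℝ}
    (h : ∀ pre : List Ω, pre.length = k → F pre = G pre) : ext m u k [] F = ext m u k [] G :=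
  ext_congr fun suf hs => h _ (by simpa using hs)

/-- a function of the first marks, averaged below -/
lemma ext_prefix {l L : ℕ} (hw : ∀ p, 0 < w p) (hl : l ≤ L) (hL : L ≤ R) {pre : List Ω}
    (hpre : pre.length = l) (Φ : List Ω → ℝ) :
    ext m w (R - l) pre (fun q => Φ (q.take L)) = ext m (Z m w (R - L)) (L - l) pre Φ := by
  rw [tower' hl hL]
  refine ext_congr fun suf hs => ?_
  refine Eq.trans (ext_congr fun suf' _ => ?_) (ext_const hw _ _ _)
  rw [List.take_left' (by simp [hs, hpre]; omega)]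

/-- the overlap with an independent copy below the node `pre` -/
noncomputable def half (R : ℕ) (m : ℕ → ℝ) (w : List Ω → ℝ) (rd : List Ω → Fin N → Bool) (l : ℕ)
    (pre p : List Ω) : ℝ :=
  ext m w (R - l) pre fun q => ov (rd p) (rd q)

/-- the mean overlap of two independent copies below the node `pre` -/
noncomputable def mid (R : ℕ) (m : ℕ → ℝ) (w : List Ω → ℝ) (rd : List Ω → Fin N → Bool) (l : ℕ)
    (pre : List Ω) : ℝ :=
  ext m w (R - l) pre fun p => half R m w rd l pre p

lemma mid_eq_avg (l : ℕ) (pre : List Ω) :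
    mid R m w rd l pre = avg fun v => (ext m w (R - l) pre fun p => sg (rd p v)) ^ 2 := by
  simp only [mid, half, ov, avg, div_eq_mul_inv _ (Fintype.card (Fin N) : ℝ),
    ext_mul_const, ext_sum, ext_const_mul, sq]

lemma mid_nonneg (l : ℕ) (pre : List Ω) : 0 ≤ mid R m w rd l pre := by
  rw [mid_eq_avg, avg]
  exact div_nonneg (sum_nonneg fun v _ => sq_nonneg _) (Nat.cast_nonneg _)

lemma abs_half_le (hw : ∀ p, 0 < w p) (l : ℕ) (pre p : List Ω) : |half R m w rd l pre p| ≤ 1 :=
  ext_bound hw fun _ => abs_ov_le _ _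

lemma abs_mid_le (hw : ∀ p, 0 < w p) (l : ℕ) (pre : List Ω) : |mid R m w rd l pre| ≤ 1 :=
  ext_bound hw fun _ => abs_half_le hw _ _ _

/-- mean of `mid` over the children of a node -/
noncomputable def next (R : ℕ) (m : ℕ → ℝ) (w : List Ω → ℝ) (rd : List Ω → Fin N → Bool) (l : ℕ)
    (pre : List Ω) : ℝ :=
  ext m (Z m w (R - (l + 1))) 1 pre fun q => mid R m w rd (l + 1) q

lemma mid_le_next (hw : ∀ p, 0 < w p) {l : ℕ} (hl : l < R) (pre : List Ω) :
    mid R m w rd l pre ≤ next R m w rd l pre := by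
  have hZ : ∀ q, 0 < Z m w (R - (l + 1)) q := fun q => Z_pos hw _ q
  simp only [next, mid_eq_avg, avg, div_eq_mul_inv _ (Fintype.card (Fin N) : ℝ),
    ext_mul_const, ext_sum]
  refine mul_le_mul_of_nonneg_right (sum_le_sum fun v _ => ?_) (by positivity)
  rw [tower' (Nat.le_succ l) hl, show l + 1 - l = 1 by omega]
  exact ext_sq_le hZ 1 pre _

/-! ### expectations over stars -/

lemma star2 {l : ℕ} (hl : l ≤ R) (F : List (List Ω) → ℝ) :
    ET R m w [(0, l), (0, 0)] F =
      ext m (Z m w (R - l)) l [] fun pre =>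
        ext m w (R - l) pre fun a => ext m w (R - l) pre fun b => F [a, b] := by
  rw [ET_cons, ET_single, tower l hl]
  refine ext_congr_len fun pre hpre => ext_congr fun suf _ => ?_
  simp only [List.getD_cons_zero, List.take_left' hpre, List.cons_append, List.nil_append]

lemma star3 {l : ℕ} (hl : l ≤ R) (F : List (List Ω) → ℝ) :
    ET R m w [(0, l), (0, l), (0, 0)] F =
      ext m (Z m w (R - l)) l [] fun pre => ext m w (R - l) pre fun a =>
        ext m w (R - l) pre fun b => ext m w (R - l) pre fun c => F [a, b, c] := by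
  rw [ET_cons, star2 hl]
  refine ext_congr_len fun pre hpre => ext_congr fun suf _ => ?_
  simp only [List.getD_cons_zero, List.take_left' hpre, List.cons_append, List.nil_append]

lemma qlev_eq {l : ℕ} (hl : l ≤ R) :
    qlev R w rd l = ext (lin R) (Z (lin R) w (R - l)) l [] fun pre => mid R (lin R) w rd l pre := by
  rw [qlev, star2 hl]
  rfl

lemma qlev_succ {l : ℕ} (hl : l < R) :
    qlev R w rd (l + 1) = ext (lin R) (Z (lin R) w (R - l)) l [] fun pre => next R (lin R) w rd l pre := by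
  rw [qlev_eq (show l + 1 ≤ R by omega), ext_tower l 1]
  have : (fun q : List Ω => Z (lin R) (Z (lin R) w (R - (l + 1))) 1 q) = Z (lin R) w (R - l) := by
    funext q; rw [Z_Z, show 1 + (R - (l + 1)) = R - l by omega]
  rw [this]
  rfl

theorem qlev_nonneg (hw : ∀ p, 0 < w p) {l : ℕ} (hl : l ≤ R) : 0 ≤ qlev R w rd l := by
  rw [qlev_eq hl]
  exact ext_nonneg (fun q => Z_pos hw _ q) fun pre => mid_nonneg _ _

theorem abs_qlev_le (hw : ∀ p, 0 < w p) (l : ℕ) : |qlev R w rd l| ≤ 1 :=
  ET_bound hw fun _ => abs_ov_le _ _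

theorem qlev_mono (hw : ∀ p, 0 < w p) {l : ℕ} (hl : l < R) :
    qlev R w rd l ≤ qlev R w rd (l + 1) := by
  rw [qlev_eq hl.le, qlev_succ hl]
  exact ext_mono (fun q => Z_pos hw _ q) fun pre => mid_le_next hw hl pre

theorem qlev_top (hw : ∀ p, 0 < w p) : qlev R w rd R = 1 := by
  rw [qlev, star2 le_rfl]
  simp only [Nat.sub_self, ext_zero, List.getD_cons_zero, List.getD_cons_succ, ovK, ov_self]
  exact ext_const (fun q => Z_pos hw _ q) _ _ _

/-- **Profile**: the mean overlaps form an admissible profile -/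
theorem qlev_prof (hw : ∀ p, 0 < w p) :
    Prof R (qlev R w rd) 1 ∧ qlev R w rd R = 1 :=
  ⟨⟨qlev_nonneg hw (Nat.zero_le _), fun _ hl => qlev_mono hw hl, (qlev_top hw).le⟩, qlev_top hw⟩

/-! ### the identities -/

/-- the batch of one pair of replicas, both reading a spin, splitting at level `l` -/
def bt (l : ℕ) : Batch := ⟨1, fun _ _ => l, fun _ => true⟩

lemma kappa_bt (T : List (ℕ × ℕ)) (pos : Fin 2 → ℕ) (σs : List (Fin N → Bool)) (l : ℕ) :
    kappa (bt l) R T pos σs = ov (σs.getD (pos 0) default) (σs.getD (pos 1) default) *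
      if sp R T (pos 0) (pos 1) = l then 1 else 0 := by
  have e : (univ : Finset (Pair 1)) = {⟨(0, 1), Fin.zero_lt_one⟩} := by decide
  show avg (fun v : Fin N => ∏ a : Fin 2, if true = true then sg ((σs.getD (pos a) default) v) else 1) *
    (∏ q : Pair 1, if sp R T (pos q.1.1) (pos q.1.2) = l then (1:ℝ) else 0) = _
  rw [e, prod_singleton]
  simp [ov, Fin.prod_univ_two]

lemma att_flatMap {α : Type*} (L : List α) (g : α → List (ℕ × ℕ) × ℝ) :
    (L.flatMap fun c => [g c]) = L.map g := by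
  induction L <;> simp [*]

/-- the order-one term of a pair kernel -/
lemma Dk_bt (l : ℕ) {T : List (ℕ × ℕ)} (hT : Valid R T) (hne : T ≠ [])
    (F : List (Fin N → Bool) → ℝ) :
    Dk (bt l) R m w rd T F = ((att R m T).map fun c => c.2 *
      (if sp R (c.1 :: T) 0 T.length = l then (1:ℝ) else 0) * ET R m w (c.1 :: T) fun ps =>
        F ((ps.take T.length).map rd) * ov (rd (ps.getD 0 [])) (rd (ps.getD T.length []))).sum := by
  have hk : (bt l).k = 1 := rfl
  have hseq : attSeq R m 1 T = (att R m T).map fun c => (c.1 :: T, c.2 * 1) := by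
    simp only [attSeq, List.map_cons, List.map_nil, att_flatMap]
  rw [Dk, show attSeq R m (bt l).k T = attSeq R m 1 T from rfl, hseq, List.map_map]
  refine congrArg List.sum (List.map_congr_left fun c hc => ?_)
  simp only [Function.comp, mul_one]
  rw [mul_assoc]
  refine congrArg (c.2 * ·) ?_
  rw [← ET_const_mul]
  rw [show (univ : Finset (Equiv.Perm (Fin (bt l).k))) = {1} from
    eq_singleton_iff_unique_mem.2 ⟨mem_univ _, fun e _ => Subsingleton.elim (α := Equiv.Perm (Fin 1)) e 1⟩,
    sum_singleton]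
  refine ET_congr (att_valid hT hc) fun ps hs => ?_
  have hn : 0 < T.length := List.length_pos_iff.2 hne
  have hl : ps.length = T.length + 1 := by simpa using hs.1
  erw [kappa_bt]
  have p0 : posOf T.length (k := 1) 1 0 = 0 := rfl
  have p1 : posOf T.length (k := 1) 1 1 = T.length := rfl
  erw [p0, p1]
  have g : ∀ i, i < ps.length → (ps.map rd).getD i default = rd (ps.getD i []) := fun i hi => by
    simp [List.getD_eq_getElem?_getD, hi]
  rw [g 0 (by omega), g _ (by omega)]
  ring

/-- the function of two replicas used in the identities -/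
noncomputable def ovF (i j : ℕ) (σs : List (Fin N → Bool)) : ℝ :=
  ov (σs.getD i default) (σs.getD j default)

lemma ovF_map {i j n : ℕ} {ps : List (List Ω)} (hi : i < n) (hj : j < n) (hn : n ≤ ps.length) :
    ovF i j ((ps.take n).map rd) = ov (rd (ps.getD i [])) (rd (ps.getD j [])) := by
  have g : ∀ k, k < n → ((ps.take n).map rd).getD k default = rd (ps.getD k []) := fun k hk => by
    simp [List.getD_eq_getElem?_getD, hk, show k < ps.length by omega]
  rw [ovF, g i hi, g j hj]

lemma ovF_map' {i j : ℕ} {ps : List (List Ω)} (hi : i < ps.length) (hj : j < ps.length) :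
    ovF i j (ps.map rd) = ov (rd (ps.getD i [])) (rd (ps.getD j [])) := by
  simpa using ovF_map (rd := rd) hi hj le_rfl

lemma sum_range' (g : ℕ → ℝ) : ∀ (k a : ℕ),
    ((List.range' a k).map g).sum = ∑ i ∈ Finset.Ico a (a + k), g i
  | 0, a => by simp
  | k + 1, a => by
    rw [List.range'_succ, List.map_cons, List.sum_cons, sum_range' g k (a + 1),
      Finset.sum_eq_sum_Ico_succ_bot (show a < a + (k + 1) by omega),
      show a + 1 + k = a + (k + 1) by omega]

lemma lin_sub {l : ℕ} (hl : l < R) : lin R l - lin R (l + 1) = -(1 / (R:ℝ)) := by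
  simp only [lin, hl.le, show l + 1 ≤ R by omega, if_true]; push_cast; ring

lemma lin_sub_top (hR : 1 ≤ R) : lin R R - lin R (R + 1) = 1 := by
  have : (R:ℝ) ≠ 0 := by positivity
  simp [lin, this]

lemma valid2 {l : ℕ} (hl : l ≤ R) : Valid R [(0, l), (0, 0)] :=
  valid_cons_of valid_single (by simp) hl

/-- the weights of a branch of replicas hanging below a node -/
lemma branch_ge (hR : 1 ≤ R) {l : ℕ} (hl : l < R) {A : ℕ → ℝ} {P : ℝ}
    (hA : ∀ i, l < i → i < R → A i ≤ P) :
    A R - ((R:ℝ) - l - 1) / R * P ≤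
      ∑ i ∈ Finset.Ico (l + 1) (R + 1), (lin R i - lin R (i + 1)) * A i := by
  rw [Finset.sum_Ico_succ_top (show l + 1 ≤ R by omega), lin_sub_top hR, one_mul]
  have h : ∑ i ∈ Finset.Ico (l + 1) R, (-(1 / (R:ℝ)) * P) ≤
      ∑ i ∈ Finset.Ico (l + 1) R, (lin R i - lin R (i + 1)) * A i := sum_le_sum fun i hi => by
    obtain ⟨h1, h2⟩ := Finset.mem_Ico.1 hi
    rw [lin_sub h2, neg_mul, neg_mul, neg_le_neg_iff]
    exact mul_le_mul_of_nonneg_left (hA i h1 h2) (by positivity)
  rw [sum_const, Nat.card_Ico, nsmul_eq_mul, Nat.cast_sub (show l + 1 ≤ R by omega)] at h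
  push_cast at h
  have : ((R:ℝ) - (l + 1)) * (-(1 / R) * P) = -(((R:ℝ) - l - 1) / R * P) := by ring
  linarith

/-- the first order term at the single replica -/
lemma Dk_single (hR : 1 ≤ R) {l : ℕ} (h1 : 1 ≤ l) (hl : l < R) :
    Dk (bt l) R (lin R) w rd [(0, 0)] (fun _ => 1) = -(1 / (R:ℝ)) * qlev R w rd l := by
  rw [Dk_bt l valid_single (by simp)]
  simp only [att, List.length_nil, List.length_singleton, List.map_append, List.map_map,
    List.map_cons, List.map_nil, List.sum_append, List.sum_cons, List.sum_nil, Function.comp_def,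
    sum_range', one_mul]
  have hsp : ∀ v, v ≤ R → sp R [(0, v), (0, 0)] 0 1 = v := fun v hv => by
    simp [sp, hv]
  simp only [hsp 0 (Nat.zero_le _), if_neg (by omega : ¬ (0 = l)), mul_zero, zero_mul, add_zero]
  rw [Finset.sum_eq_single l (fun i hi hne => by
      simp only [hsp i (by obtain ⟨_, h⟩ := Finset.mem_Ico.1 hi; omega), if_neg hne, mul_zero, zero_mul])
    (fun hn => absurd (Finset.mem_Ico.2 ⟨by omega, by omega⟩) hn)]
  simp only [hsp l hl.le, if_true, mul_one, lin_sub hl]
  rfl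

/-- the identity at a list of replicas -/
lemma ident_bt (hR : 1 ≤ R) {E : ℝ} (hI : Ident R (lin R) w rd 2 E) {l : ℕ} (h1 : 1 ≤ l) (hl : l < R)
    {T : List (ℕ × ℕ)} (hT : Valid R T) (hne : T ≠ []) (hn : T.length ≤ 3) (i j : ℕ) :
    |Dk (bt l) R (lin R) w rd T (ovF i j) -
      ET R (lin R) w T (fun ps => ovF i j (ps.map rd)) * (-(1 / (R:ℝ)) * qlev R w rd l)| ≤ E := by
  rw [← Dk_single hR h1 hl]
  exact hI (bt l) (by show 1 ≤ 2; omega) (fun q => ⟨h1, hl⟩) T hT hne hn _ fun σs => abs_ov_le _ _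

/-! ### the three identities evaluated -/

/-- the value of an attachment -/
noncomputable def attVal (R : ℕ) (w : List Ω → ℝ) (rd : List Ω → Fin N → Bool) (T : List (ℕ × ℕ))
    (i j : ℕ) (c : ℕ × ℕ) : ℝ :=
  ET R (lin R) w (c :: T) fun ps =>
    ov (rd (ps.getD i [])) (rd (ps.getD j [])) * ov (rd (ps.getD 0 [])) (rd (ps.getD T.length []))

lemma Dk_ovF (l : ℕ) {T : List (ℕ × ℕ)} (hT : Valid R T) {i j : ℕ} (hi : i < T.length)
    (hj : j < T.length) :
    Dk (bt l) R (lin R) w rd T (ovF i j) = ((att R (lin R) T).map fun c => c.2 *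
      (if sp R (c.1 :: T) 0 T.length = l then (1:ℝ) else 0) * attVal R w rd T i j c.1).sum := by
  rw [Dk_bt l hT (List.length_pos_iff.1 (by omega))]
  refine congrArg List.sum (List.map_congr_left fun c hc => ?_)
  refine congrArg (c.2 * _ * ·) (ET_congr (att_valid hT hc) fun ps hs => ?_)
  rw [ovF_map hi hj (by rw [hs.1]; simp)]

/-- second moment of the overlap at level `l` -/
noncomputable def sq2 (R : ℕ) (w : List Ω → ℝ) (rd : List Ω → Fin N → Bool) (l : ℕ) : ℝ :=
  ET R (lin R) w [(0, l), (0, 0)] fun ps => ovK rd (ps.getD 0 []) (ps.getD 1 []) ^ 2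

/-- mean square of the overlap averaged over one of its replicas -/
noncomputable def sqH (R : ℕ) (w : List Ω → ℝ) (rd : List Ω → Fin N → Bool) (l : ℕ) : ℝ :=
  ext (lin R) (Z (lin R) w (R - l)) l [] fun pre =>
    ext (lin R) w (R - l) pre fun p => half R (lin R) w rd l pre p ^ 2

/-- mean square of the node overlap -/
noncomputable def sqX (R : ℕ) (w : List Ω → ℝ) (rd : List Ω → Fin N → Bool) (l : ℕ) : ℝ :=
  ext (lin R) (Z (lin R) w (R - l)) l [] fun pre => mid R (lin R) w rd l pre ^ 2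

/-- mean square of the node overlap of the children -/
noncomputable def sqU (R : ℕ) (w : List Ω → ℝ) (rd : List Ω → Fin N → Bool) (l : ℕ) : ℝ :=
  ext (lin R) (Z (lin R) w (R - l)) l [] fun pre => next R (lin R) w rd l pre ^ 2

lemma abs_sqH_le (hw : ∀ p, 0 < w p) (l : ℕ) : |sqH R w rd l| ≤ 1 :=
  ext_bound (fun q => Z_pos hw _ q) fun pre => ext_bound hw fun p => by
    rw [abs_pow]; exact pow_le_one₀ (abs_nonneg _) (abs_half_le hw _ _ _)

lemma abs_sqX_le (hw : ∀ p, 0 < w p) (l : ℕ) : |sqX R w rd l| ≤ 1 :=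
  ext_bound (fun q => Z_pos hw _ q) fun pre => by
    rw [abs_pow]; exact pow_le_one₀ (abs_nonneg _) (abs_mid_le hw _ _)

lemma sum_ind_eq {a b : ℕ} (g : ℕ → ℝ) {l : ℕ} (ha : a ≤ l) (hb : l < b) (s : ℕ → ℕ)
    (hs : ∀ i, a ≤ i → i < b → s i = i) (c : ℕ → ℝ) :
    ∑ i ∈ Finset.Ico a b, c i * (if s i = l then (1:ℝ) else 0) * g i = c l * g l := by
  rw [Finset.sum_eq_single l (fun i hi hne => by
      obtain ⟨h1, h2⟩ := Finset.mem_Ico.1 hi
      simp only [hs i h1 h2, if_neg hne, mul_zero, zero_mul])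
    (fun hn => absurd (Finset.mem_Ico.2 ⟨ha, hb⟩) hn)]
  simp [hs l ha hb]

lemma sum_ind_one {a b : ℕ} (s : ℕ → ℕ) {l : ℕ} (hs : ∀ i, a ≤ i → i < b → s i = l)
    (c g : ℕ → ℝ) :
    ∑ i ∈ Finset.Ico a b, c i * (if s i = l then (1:ℝ) else 0) * g i =
      ∑ i ∈ Finset.Ico a b, c i * g i :=
  Finset.sum_congr rfl fun i hi => by
    simp [hs i (Finset.mem_Ico.1 hi).1 (Finset.mem_Ico.1 hi).2]

lemma sum_ind_zero {a b : ℕ} (s : ℕ → ℕ) {l : ℕ} (hs : ∀ i, a ≤ i → i < b → s i ≠ l)
    (c g : ℕ → ℝ) :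
    ∑ i ∈ Finset.Ico a b, c i * (if s i = l then (1:ℝ) else 0) * g i = 0 :=
  Finset.sum_eq_zero fun i hi => by
    simp [hs i (Finset.mem_Ico.1 hi).1 (Finset.mem_Ico.1 hi).2]

/-- the value of an attachment to the pair -/
lemma att2_self {l : ℕ} (hl : l ≤ R) :
    (ET R (lin R) w [(0, l), (0, l), (0, 0)] fun ps =>
      ov (rd (ps.getD 0 [])) (rd (ps.getD 1 [])) * ov (rd (ps.getD 0 [])) (rd (ps.getD 2 []))) =
      sqH R w rd l := by
  rw [star3 hl]
  refine ext_congr_len fun pre _ => ext_congr fun suf _ => ?_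
  simp only [List.getD_cons_zero, List.getD_cons_succ, half, sq, ext_mul_const, ext_const_mul]

lemma att2_le (hw : ∀ p, 0 < w p) {l i : ℕ} (hl : l ≤ R) (hli : l ≤ i) (hi : i ≤ R) :
    (ET R (lin R) w [(1, i), (0, l), (0, 0)] fun ps =>
      ov (rd (ps.getD 0 [])) (rd (ps.getD 1 [])) * ov (rd (ps.getD 0 [])) (rd (ps.getD 2 []))) ≤
      sq2 R w rd l := by
  have hT : Valid R [(1, i), (0, l), (0, 0)] := valid_cons_of (valid2 hl) (by simp) hi
  have e : ∀ j : ℕ, j < 3 → 0 < j → sp R [(1, i), (0, l), (0, 0)] 0 j = sp R [(0, l), (0, 0)] 0 (min j 1) →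
      (ET R (lin R) w [(1, i), (0, l), (0, 0)] fun ps => ov (rd (ps.getD 0 [])) (rd (ps.getD j [])) ^ 2) =
      sq2 R w rd l := by
    intro j hj hj0 h
    refine ET_restrict (trans_sum hw) hT (valid2 hl) (ι := Fin 2) ![0, j] ![0, min j 1]
      (fun k => by fin_cases k <;> simp <;> omega) (fun k => by fin_cases k <;> simp) ?_
      (fun P => ov (rd (P 0)) (rd (P 1)) ^ 2) |>.trans ?_
    · intro a b
      fin_cases a <;> fin_cases b <;> simp [sp_self, h, sp_comm R _ j 0, sp_comm R _ (min j 1) 0]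
    · obtain rfl | rfl | rfl : j = 0 ∨ j = 1 ∨ j = 2 := by omega
      all_goals simp [sq2, ovK] at *
  have h1 := e 1 (by norm_num) one_pos (by simp [sp, hl])
  have h2 := e 2 (by norm_num) two_pos (by simp [sp, hl, hli])
  have : (ET R (lin R) w [(1, i), (0, l), (0, 0)] fun ps =>
      ov (rd (ps.getD 0 [])) (rd (ps.getD 1 [])) * ov (rd (ps.getD 0 [])) (rd (ps.getD 2 []))) ≤
      ET R (lin R) w [(1, i), (0, l), (0, 0)] fun ps =>
        (ov (rd (ps.getD 0 [])) (rd (ps.getD 1 [])) ^ 2 + ov (rd (ps.getD 0 [])) (rd (ps.getD 2 [])) ^ 2) * (1 / 2) :=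
    ET_mono hw fun ps => by
      nlinarith [sq_nonneg (ov (rd (ps.getD 0 [])) (rd (ps.getD 1 [])) - ov (rd (ps.getD 0 [])) (rd (ps.getD 2 [])))]
  rw [ET_mul_const, ET_add, h1, h2] at this
  linarith

lemma att2_top {l : ℕ} (hl : l ≤ R) :
    (ET R (lin R) w [(1, R), (0, l), (0, 0)] fun ps =>
      ov (rd (ps.getD 0 [])) (rd (ps.getD 1 [])) * ov (rd (ps.getD 0 [])) (rd (ps.getD 2 []))) =
      sq2 R w rd l := by
  rw [ET_cons, sq2]
  refine ET_congr (valid2 hl) fun ps hs => ?_
  have hl2 : ps.length = 2 := hs.1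
  obtain ⟨a, b, rfl⟩ := List.length_eq_two.1 hl2
  have hb : b.length = R := by simpa using hs.2.1 1 (by simp)
  simp [ovK, sq, List.take_of_length_le hb.le]

/-- first identity: the overlap against one of its replicas -/
lemma first (hw : ∀ p, 0 < w p) {E : ℝ} (hI : Ident R (lin R) w rd 2 E) {l : ℕ} (h1 : 1 ≤ l)
    (hl : l < R) :
    ((l:ℝ) + 1) * (sq2 R w rd l - sqH R w rd l) ≤ sqH R w rd l - qlev R w rd l ^ 2 + R * E := by
  have hR : 1 ≤ R := by omega
  have hR0 : (0:ℝ) < R := by exact_mod_cast hR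
  have hi := ident_bt hR hI h1 hl (valid2 hl.le) (by simp) (by simp) 0 1
  have eE : (ET R (lin R) w [(0, l), (0, 0)] fun ps => ovF 0 1 (ps.map rd)) = qlev R w rd l :=
    ET_congr (valid2 hl.le) fun ps hs => by
      have : ps.length = 2 := hs.1
      rw [ovF_map' (by omega) (by omega)]; rfl
  rw [eE, Dk_ovF l (valid2 hl.le) (by simp) (by simp)] at hi
  simp only [att, List.length_nil, List.length_cons, List.map_append,
    List.map_map, List.map_cons, List.map_nil, List.sum_append, List.sum_cons, List.sum_nil,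
    Function.comp_def, sum_range', show (0:ℕ) + 1 + 1 = 2 from rfl, show (0:ℕ) + 1 = 1 from rfl,
    Nat.sub_zero] at hi
  have s1 : ∀ v, l ≤ v → sp R [(1, v), (0, l), (0, 0)] 0 2 = l := fun v hv => by
    simp [sp, hl.le, hv]
  have s0 : ∀ v, v ≤ R → sp R [(0, v), (0, l), (0, 0)] 0 2 = v := fun v hv => by
    simp [sp, hv]
  rw [sum_ind_eq (fun i => attVal R w rd [(0, l), (0, 0)] 0 1 (0, i)) (a := 1) (b := 1 + R) h1 (by omega)
    (fun i => sp R [(0, i), (0, l), (0, 0)] 0 2) (fun i h1 h2 => s0 i (by omega))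
    (fun i => lin R i - lin R (i + 1))] at hi
  rw [Finset.sum_congr rfl (g := fun i => (lin R i - lin R (i + 1)) *
    attVal R w rd [(0, l), (0, 0)] 0 1 (1, i)) fun i hi => by
      simp only [s1 i (by obtain ⟨h, _⟩ := Finset.mem_Ico.1 hi; omega), if_true, mul_one]] at hi
  simp only [s0 l hl.le, s0 0 (Nat.zero_le _), if_true, if_neg (by omega : ¬ (0 = l)), mul_one,
    mul_zero, zero_mul, add_zero, attVal, List.length_cons, List.length_nil,
    show (0:ℕ) + 1 + 1 = 2 from rfl, att2_self hl.le] at hi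
  rw [show l + 1 + (R - l) = R + 1 by omega] at hi
  have hb := branch_ge hR hl (A := fun i => ET R (lin R) w [(1, i), (0, l), (0, 0)] fun ps =>
    ov (rd (ps.getD 0 [])) (rd (ps.getD 1 [])) * ov (rd (ps.getD 0 [])) (rd (ps.getD 2 [])))
    fun i h2 h3 => att2_le hw hl.le h2.le h3.le
  simp only [att2_top hl.le] at hb
  have hm : lin R (l + 1) = ((l:ℝ) + 1) / R := by simp [lin, show l + 1 ≤ R by omega]
  rw [lin_sub hl] at hi
  rw [hm] at hi
  have h2 := (abs_le.1 hi).2
  have key : (((l:ℝ) + 1) * (sq2 R w rd l - sqH R w rd l) - sqH R w rd l + qlev R w rd l ^ 2) / R ≤ E := by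
    have : sq2 R w rd l - ((R:ℝ) - l - 1) / R * sq2 R w rd l = ((l:ℝ) + 1) / R * sq2 R w rd l := by
      field_simp; ring
    have e : (((l:ℝ) + 1) * (sq2 R w rd l - sqH R w rd l) - sqH R w rd l + qlev R w rd l ^ 2) / R =
        ((l:ℝ) + 1) / R * sq2 R w rd l + -(((l:ℝ) + 1) / R) * sqH R w rd l + -(1 / R) * sqH R w rd l -
          qlev R w rd l * (-(1 / R) * qlev R w rd l) := by ring
    linarith
  rw [div_le_iff₀ hR0] at key
  linarith

lemma valid3 {l : ℕ} (hl : l ≤ R) : Valid R [(0, l), (0, l), (0, 0)] :=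
  valid_cons_of (valid2 hl) (by simp) hl

lemma att3_self {l : ℕ} (hl : l ≤ R) :
    attVal R w rd [(0, l), (0, l), (0, 0)] 1 2 (0, l) = sqX R w rd l := by
  rw [attVal, ET_cons, star3 hl]
  refine ext_congr_len fun pre hpre => ?_
  rw [show mid R (lin R) w rd l pre ^ 2 = ext (lin R) w (R - l) pre (fun a =>
      ext (lin R) w (R - l) pre fun b => ext (lin R) w (R - l) pre fun c =>
        ov (rd b) (rd c) * half R (lin R) w rd l pre a) by
    simp only [mid, half, sq, ext_mul_const, ext_const_mul]]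
  refine ext_congr fun sa _ => ext_congr fun sb _ => ext_congr fun sc _ => ?_
  simp only [List.getD_cons_zero, List.getD_cons_succ, List.length_cons, List.length_nil, half,
    List.take_left' hpre, List.cons_append, List.nil_append, ext_const_mul]

/-- mixed and squared means of `half` along a branch -/
lemma half_branch (hw : ∀ p, 0 < w p) {l i : ℕ} (hli : l ≤ i) (hi : i ≤ R) {pre : List Ω}
    (hpre : pre.length = l) :
    ext (lin R) w (R - l) pre (fun b => half R (lin R) w rd l pre b *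
        ext (lin R) w (R - i) (b.take i) (fun n => half R (lin R) w rd l pre n)) ≤
      ext (lin R) w (R - l) pre fun b => half R (lin R) w rd l pre b ^ 2 := by
  set H := fun b => half R (lin R) w rd l pre b
  have e : ext (lin R) w (R - l) pre (fun b => ext (lin R) w (R - i) (b.take i) fun n => H n ^ 2) =
      ext (lin R) w (R - l) pre fun b => H b ^ 2 := by
    rw [ext_prefix hw hli hi hpre (fun q => ext (lin R) w (R - i) q fun n => H n ^ 2), ← tower' hli hi]
  have h : ext (lin R) w (R - l) pre (fun b => H b * ext (lin R) w (R - i) (b.take i) H) ≤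
      ext (lin R) w (R - l) pre (fun b =>
        (H b ^ 2 + ext (lin R) w (R - i) (b.take i) fun n => H n ^ 2) * (1 / 2)) :=
    ext_mono hw fun b => by
      nlinarith [sq_nonneg (H b - ext (lin R) w (R - i) (b.take i) H),
        ext_sq_le (m := lin R) hw (R - i) (b.take i) H]
  rw [ext_mul_const, ext_add, e] at h
  linarith

lemma att3_fst {l i : ℕ} (hl : l ≤ R) :
    attVal R w rd [(0, l), (0, l), (0, 0)] 1 2 (1, i) =
      ext (lin R) (Z (lin R) w (R - l)) l [] fun pre => ext (lin R) w (R - l) pre fun b =>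
        half R (lin R) w rd l pre b *
          ext (lin R) w (R - i) (b.take i) fun n => half R (lin R) w rd l pre n := by
  rw [attVal, ET_cons, star3 hl]
  refine ext_congr_len fun pre _ => ?_
  simp only [List.getD_cons_zero, List.getD_cons_succ, List.length_cons, List.length_nil,
    List.cons_append, List.nil_append, ext_const_mul]
  rw [ext_comm]
  refine ext_congr fun sb _ => ?_
  simp only [ext_mul_const, ext_const_mul]
  rw [ext_comm]
  simp only [half, ov_comm]

lemma att3_snd {l i : ℕ} (hl : l ≤ R) :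
    attVal R w rd [(0, l), (0, l), (0, 0)] 1 2 (2, i) =
      ext (lin R) (Z (lin R) w (R - l)) l [] fun pre => ext (lin R) w (R - l) pre fun b =>
        half R (lin R) w rd l pre b *
          ext (lin R) w (R - i) (b.take i) fun n => half R (lin R) w rd l pre n := by
  rw [attVal, ET_cons, star3 hl]
  refine ext_congr_len fun pre _ => ?_
  simp only [List.getD_cons_zero, List.getD_cons_succ, List.length_cons, List.length_nil,
    List.cons_append, List.nil_append, ext_const_mul]
  refine (ext_congr (G := fun a => ext (lin R) w (R - l) pre fun c => ext (lin R) w (R - l) pre fun b =>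
      ov (rd b) (rd c) * ext (lin R) w (R - i) (c.take i) fun q => ov (rd a) (rd q))
    fun sa _ => ext_comm (R - l) (R - l) pre pre fun b c =>
      ov (rd b) (rd c) * ext (lin R) w (R - i) (c.take i) fun q => ov (rd (pre ++ sa)) (rd q)).trans ?_
  rw [ext_comm]
  refine ext_congr fun sc _ => ?_
  simp only [ext_mul_const, ext_const_mul]
  rw [ext_comm]
  simp only [half, ov_comm]

/-- second identity: the averaged overlap against the node overlap -/
lemma second (hw : ∀ p, 0 < w p) {E : ℝ} (hI : Ident R (lin R) w rd 2 E) {l : ℕ} (h1 : 1 ≤ l)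
    (hl : l < R) :
    2 * ((l:ℝ) + 1) * (sqH R w rd l - sqX R w rd l) ≤ sqX R w rd l - qlev R w rd l ^ 2 + R * E := by
  have hR : 1 ≤ R := by omega
  have hR0 : (0:ℝ) < R := by exact_mod_cast hR
  have hi := ident_bt hR hI h1 hl (valid3 hl.le) (by simp) (by simp) 1 2
  have eE : (ET R (lin R) w [(0, l), (0, l), (0, 0)] fun ps => ovF 1 2 (ps.map rd)) = qlev R w rd l := by
    rw [qlev_eq hl.le, star3 hl.le]
    refine ext_congr_len fun pre _ => ?_
    simp only [ovF, List.map_cons, List.map_nil, List.getD_cons_succ, List.getD_cons_zero,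
      ext_const hw]
    rfl
  rw [eE, Dk_ovF l (valid3 hl.le) (by simp) (by simp)] at hi
  simp only [att, List.length_nil, List.length_cons, List.map_append,
    List.map_map, List.map_cons, List.map_nil, List.sum_append, List.sum_cons, List.sum_nil,
    Function.comp_def, sum_range', show (0:ℕ) + 1 + 1 + 1 = 3 from rfl,
    show (0:ℕ) + 1 + 1 = 2 from rfl, show (0:ℕ) + 1 = 1 from rfl, Nat.sub_zero] at hi
  set T := [(0, l), (0, l), (0, 0)]
  have s2 : ∀ v, l ≤ v → sp R ((2, v) :: T) 0 3 = l := fun v hv => by simp [T, sp, hl.le, hv]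
  have s1 : ∀ v, l ≤ v → sp R ((1, v) :: T) 0 3 = l := fun v hv => by simp [T, sp, hl.le, hv]
  have s0 : ∀ v, v ≤ R → sp R ((0, v) :: T) 0 3 = v := fun v hv => by simp [T, sp, hv]
  rw [sum_ind_eq (fun i => attVal R w rd T 1 2 (0, i)) (a := 1) (b := 1 + R) h1 (by omega)
    (fun i => sp R ((0, i) :: T) 0 3) (fun i h1 h2 => s0 i (by omega))
    (fun i => lin R i - lin R (i + 1))] at hi
  rw [sum_ind_one (fun i => sp R ((2, i) :: T) 0 3) (fun i h _ => s2 i (by omega))
      (fun i => lin R i - lin R (i + 1)) (fun i => attVal R w rd T 1 2 (2, i)),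
    sum_ind_one (fun i => sp R ((1, i) :: T) 0 3) (fun i h _ => s1 i (by omega))
      (fun i => lin R i - lin R (i + 1)) (fun i => attVal R w rd T 1 2 (1, i))] at hi
  simp only [s0 l hl.le, s0 0 (Nat.zero_le _), if_true, if_neg (by omega : ¬ (0 = l)), mul_one,
    mul_zero, zero_mul, add_zero, T, att3_self hl.le, att3_fst hl.le, att3_snd hl.le] at hi
  rw [show l + 1 + (R - l) = R + 1 by omega, lin_sub hl,
    show lin R (l + 1) = ((l:ℝ) + 1) / R by simp [lin, show l + 1 ≤ R by omega]] at hi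
  have hb := branch_ge hR hl (A := fun i => ext (lin R) (Z (lin R) w (R - l)) l [] fun pre =>
    ext (lin R) w (R - l) pre fun b => half R (lin R) w rd l pre b *
      ext (lin R) w (R - i) (b.take i) fun n => half R (lin R) w rd l pre n) (P := sqH R w rd l)
    fun i h2 h3 => ext_mono_on (fun q => Z_pos hw _ q) fun suf hs =>
      half_branch hw h2.le h3.le (by simpa using hs)
  have htop : (ext (lin R) (Z (lin R) w (R - l)) l [] fun pre =>
    ext (lin R) w (R - l) pre fun b => half R (lin R) w rd l pre b *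
      ext (lin R) w (R - R) (b.take R) fun n => half R (lin R) w rd l pre n) = sqH R w rd l :=
    ext_congr_len fun pre hpre => ext_congr fun suf hs => by
      rw [Nat.sub_self, ext_zero, List.take_of_length_le (by simp [hpre, hs]; omega), sq]
  simp only [htop] at hb
  have h2 := (abs_le.1 hi).2
  have key : (2 * ((l:ℝ) + 1) * (sqH R w rd l - sqX R w rd l) - sqX R w rd l + qlev R w rd l ^ 2) / R ≤ E := by
    have : sqH R w rd l - ((R:ℝ) - l - 1) / R * sqH R w rd l = ((l:ℝ) + 1) / R * sqH R w rd l := by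
      field_simp; ring
    have e : (2 * ((l:ℝ) + 1) * (sqH R w rd l - sqX R w rd l) - sqX R w rd l + qlev R w rd l ^ 2) / R =
        2 * (((l:ℝ) + 1) / R * sqH R w rd l) + -(((l:ℝ) + 1) / R) * sqX R w rd l +
          -(((l:ℝ) + 1) / R) * sqX R w rd l + -(1 / R) * sqX R w rd l -
          qlev R w rd l * (-(1 / R) * qlev R w rd l) := by ring
    linarith
  rw [div_le_iff₀ hR0] at key
  linarith

lemma valid_split2 {l : ℕ} (hl : l < R) : Valid R [(1, l + 1), (0, l), (0, 0)] :=
  valid_cons_of (valid2 hl.le) (by simp) hl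

lemma next_eq {l : ℕ} (hl : l < R) {pre : List Ω} (hpre : pre.length = l) :
    (ext (lin R) w (R - l) pre fun b =>
      ext (lin R) w (R - (l + 1)) (b.take (l + 1)) fun c => ov (rd b) (rd c)) =
      next R (lin R) w rd l pre := by
  rw [next, tower' (Nat.le_succ l) hl, show l + 1 - l = 1 by omega]
  refine ext_congr fun suf hs => ext_congr fun suf' _ => ?_
  simp only [half, List.take_left' (show (pre ++ suf).length = l + 1 by simp [hpre, hs])]

/-- third identity: the node overlap of the children is deterministic -/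
lemma third (hw : ∀ p, 0 < w p) {E : ℝ} (hI : Ident R (lin R) w rd 2 E) {l : ℕ} (hl : l + 1 < R) :
    sqU R w rd l - qlev R w rd (l + 1) ^ 2 ≤ R * E := by
  have hl' : l < R := by omega
  have hR : 1 ≤ R := by omega
  have hR0 : (0:ℝ) < R := by exact_mod_cast hR
  have hi := ident_bt hR hI (Nat.le_add_left 1 l) hl (valid_split2 hl') (by simp) (by simp) 1 2
  have eE : (ET R (lin R) w [(1, l + 1), (0, l), (0, 0)] fun ps => ovF 1 2 (ps.map rd)) =
      qlev R w rd (l + 1) := by
    rw [qlev_succ hl', ET_cons, star2 hl'.le]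
    refine ext_congr_len fun pre hpre => ?_
    simp only [ovF, List.map_cons, List.map_nil, List.getD_cons_succ, List.getD_cons_zero,
      List.cons_append, List.nil_append, ext_const hw]
    exact next_eq hl' hpre
  rw [eE, Dk_ovF (l + 1) (valid_split2 hl') (by simp) (by simp)] at hi
  simp only [att, List.length_nil, List.length_cons, List.map_append,
    List.map_map, List.map_cons, List.map_nil, List.sum_append, List.sum_cons, List.sum_nil,
    Function.comp_def, sum_range', show (0:ℕ) + 1 + 1 + 1 = 3 from rfl,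
    show (0:ℕ) + 1 + 1 = 2 from rfl, show (0:ℕ) + 1 = 1 from rfl, Nat.sub_zero] at hi
  set T := [(1, l + 1), (0, l), (0, 0)]
  have s2 : ∀ v, l + 1 ≤ v → sp R ((2, v) :: T) 0 3 = l := fun v hv => by
    simp [T, sp, hl'.le, show l ≤ v by omega]
  have s1 : ∀ v, l ≤ v → sp R ((1, v) :: T) 0 3 = l := fun v hv => by simp [T, sp, hl'.le, hv]
  have s0 : ∀ v, v ≤ R → sp R ((0, v) :: T) 0 3 = v := fun v hv => by simp [T, sp, hv]
  rw [sum_ind_eq (fun i => attVal R w rd T 1 2 (0, i)) (a := 1) (b := 1 + R) (Nat.le_add_left 1 l)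
    (by omega) (fun i => sp R ((0, i) :: T) 0 3) (fun i h1 h2 => s0 i (by omega))
    (fun i => lin R i - lin R (i + 1))] at hi
  rw [sum_ind_zero (fun i => sp R ((2, i) :: T) 0 3) (fun i h _ => (s2 i (by omega)).trans_ne (by omega))
      (fun i => lin R i - lin R (i + 1)) (fun i => attVal R w rd T 1 2 (2, i)),
    sum_ind_zero (fun i => sp R ((1, i) :: T) 0 3) (fun i h _ => (s1 i (by omega)).trans_ne (by omega))
      (fun i => lin R i - lin R (i + 1)) (fun i => attVal R w rd T 1 2 (1, i))] at hi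
  have eU : attVal R w rd T 1 2 (0, l + 1) = sqU R w rd l := by
    rw [attVal, ET_cons, ET_cons, star2 hl'.le]
    refine ext_congr_len fun pre hpre => ?_
    simp only [T, List.getD_cons_zero, List.getD_cons_succ, List.length_cons, List.length_nil,
      List.cons_append, List.nil_append, ext_const_mul, ext_mul_const, next_eq hl' hpre, sq]
  simp only [s1 (l + 1) (by omega), s0 l hl'.le, s0 0 (Nat.zero_le _),
    if_neg (by omega : ¬ (l = l + 1)), if_neg (by omega : ¬ (0 = l + 1)),
    mul_zero, zero_mul, add_zero, zero_add, eU] at hi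
  rw [lin_sub hl] at hi
  have h2 := (abs_le.1 hi).1
  have key : (sqU R w rd l - qlev R w rd (l + 1) ^ 2) / R ≤ E := by
    have e : (sqU R w rd l - qlev R w rd (l + 1) ^ 2) / R =
        -(-(1 / (R:ℝ)) * sqU R w rd l - qlev R w rd (l + 1) * (-(1 / R) * qlev R w rd (l + 1))) := by ring
    linarith
  rw [div_le_iff₀ hR0] at key
  linarith

/-! ### assembly -/

lemma abs_le_sq {x t : ℝ} (ht : 0 < t) : |x| ≤ t + x ^ 2 / (4 * t) := by
  rw [← sub_le_iff_le_add', le_div_iff₀ (by positivity)]
  nlinarith [sq_nonneg (|x| - 2 * t), sq_abs x]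

/-- the variance of the overlap at one level -/
lemma var_le (hw : ∀ p, 0 < w p) {E : ℝ} (hE : 0 ≤ E) (hI : Ident R (lin R) w rd 2 E) {l : ℕ}
    (h1 : 1 ≤ l) (hl : l + 1 < R) {t : ℝ} (ht : 0 < t) :
    sq2 R w rd l - qlev R w rd l ^ 2 ≤
      2 * (1 + R * E) / ((l:ℝ) + 1) + 4 * (qlev R w rd (l + 1) - qlev R w rd l) + 2 * t +
        R * E / (2 * t) := by
  have hl' : l < R := by omega
  have hl0 : (0:ℝ) < (l:ℝ) + 1 := by positivity
  have hRE : 0 ≤ (R:ℝ) * E := by positivity
  have f1 := first hw hI h1 hl'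
  have f2 := second hw hI h1 hl'
  have f3 := third hw hI hl
  have bH := abs_le.1 (abs_sqH_le (rd := rd) hw (R := R) l)
  have bX := abs_le.1 (abs_sqX_le (rd := rd) hw (R := R) l)
  have bq := sq_nonneg (qlev R w rd l)
  have a1 : sq2 R w rd l - sqH R w rd l ≤ (1 + R * E) / ((l:ℝ) + 1) := by
    rw [le_div_iff₀ hl0]; linarith
  have a2 : sqH R w rd l - sqX R w rd l ≤ (1 + R * E) / ((l:ℝ) + 1) := by
    rcases le_total 0 (sqH R w rd l - sqX R w rd l) with h | h
    · rw [le_div_iff₀ hl0]; nlinarith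
    · exact h.trans (by positivity)
  -- the node overlap
  have hZ : ∀ q, 0 < Z (lin R) w (R - l) q := fun q => Z_pos hw _ q
  set q := qlev R w rd l
  set q' := qlev R w rd (l + 1)
  have hq := qlev_mono (rd := rd) hw hl'
  have hX : ∀ pre, mid R (lin R) w rd l pre ^ 2 - q ^ 2 ≤
      2 * ((next R (lin R) w rd l pre - mid R (lin R) w rd l pre) +
        (t + (next R (lin R) w rd l pre - q') ^ 2 / (4 * t)) + (q' - q)) := by
    intro pre
    have b1 := abs_le.1 (abs_mid_le (rd := rd) (R := R) (m := lin R) hw l pre)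
    have b2 := abs_le.1 (abs_qlev_le (rd := rd) (R := R) hw l)
    have b3 := mid_nonneg (R := R) (m := lin R) (w := w) (rd := rd) l pre
    have b4 := mid_le_next (rd := rd) (m := lin R) hw hl' pre
    have b5 := abs_le.1 (abs_le_sq (x := next R (lin R) w rd l pre - q') ht)
    have b6 := qlev_nonneg (rd := rd) hw hl'.le
    have b7 : mid R (lin R) w rd l pre + q ≤ 2 := by linarith
    rw [sq_sub_sq, mul_comm (mid R (lin R) w rd l pre + q)]
    rcases le_total (mid R (lin R) w rd l pre) q with h | h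
    · exact (mul_nonpos_of_nonpos_of_nonneg (by linarith) (by linarith)).trans (by linarith)
    · exact (mul_le_mul_of_nonneg_left b7 (by linarith)).trans (by linarith)
  have h := ext_mono (m := lin R) (k := l) (pre := []) hZ hX
  have eX : ext (lin R) (Z (lin R) w (R - l)) l [] (fun pre => mid R (lin R) w rd l pre) = q :=
    (qlev_eq hl'.le).symm
  have eN : ext (lin R) (Z (lin R) w (R - l)) l [] (fun pre => next R (lin R) w rd l pre) = q' :=
    (qlev_succ hl').symm
  simp only [sub_sq, ext_const_mul, ext_add, ext_sub, ext_mul_const, div_eq_mul_inv, ext_const hZ,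
    mul_assoc, eX, eN] at h
  rw [show ext (lin R) (Z (lin R) w (R - l)) l [] (fun pre => mid R (lin R) w rd l pre ^ 2) = sqX R w rd l from rfl,
    show ext (lin R) (Z (lin R) w (R - l)) l [] (fun pre => next R (lin R) w rd l pre ^ 2) = sqU R w rd l from rfl] at h
  have a3 : (sqU R w rd l - q' ^ 2) * (4 * t)⁻¹ ≤ R * E * (4 * t)⁻¹ :=
    mul_le_mul_of_nonneg_right f3 (by positivity)
  have e1 : R * E / (2 * t) = 2 * (R * E * (4 * t)⁻¹) := by field_simp; ring
  have e2 : 2 * (1 + R * E) / ((l:ℝ) + 1) = 2 * ((1 + R * E) / ((l:ℝ) + 1)) := by ring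
  nlinarith

lemma sum_inv_le : ∀ n : ℕ, ∑ l ∈ Finset.range n, 1 / ((l:ℝ) + 1) ≤ 2 * √n
  | 0 => by simp
  | n + 1 => by
    rw [sum_range_succ]
    have h := sum_inv_le n
    have hn : (0:ℝ) ≤ n := Nat.cast_nonneg n
    have a := Real.mul_self_sqrt hn
    have b := Real.mul_self_sqrt (show (0:ℝ) ≤ n + 1 by linarith)
    push_cast
    have key : 1 / ((n:ℝ) + 1) ≤ 2 * (√((n:ℝ) + 1) - √n) := by
      rw [div_le_iff₀ (by positivity)]
      have hb : 1 ≤ √((n:ℝ) + 1) := Real.one_le_sqrt.2 (by linarith)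
      have ha := Real.sqrt_nonneg (n:ℝ)
      have hab := Real.sqrt_le_sqrt (show (n:ℝ) ≤ n + 1 by linarith)
      nlinarith [mul_nonneg (sub_nonneg.2 hab) (sub_nonneg.2 hb),
        mul_nonneg (sub_nonneg.2 hab) (mul_nonneg ha (le_trans zero_le_one hb))]
    linarith

/-- **Representation**: the mean deviation of the overlap from its level value is small -/
theorem rep_small {ε : ℝ} (hε : 0 < ε) : ∃ R₀ : ℕ, ∀ R, R₀ ≤ R → ∃ C : ℝ,
    ∀ {Ω : Type} [Fintype Ω] [Nonempty Ω] {N : ℕ} [NeZero N] (w : List Ω → ℝ) (_ : ∀ p, 0 < w p)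
      (rd : List Ω → Fin N → Bool) (E : ℝ), 0 ≤ E → Ident R (lin R) w rd 2 E →
      adev R w (ovK rd) (qlev R w rd) ≤ ε + C * E := by
  set s := ε / 2
  have hs : 0 < s := by positivity
  set t := ε * s / 4
  have ht : 0 < t := by positivity
  obtain ⟨k, hk⟩ := exists_nat_gt (10 / (ε * s))
  refine ⟨max 1 (k ^ 2), fun R hR => ⟨(4 * R + R / (2 * t)) / (4 * s), ?_⟩⟩
  intro Ω _ _ N _ w hw rd E hE hI
  have hR1 : 1 ≤ R := le_of_max_le_left hR
  have hR0 : (0:ℝ) < R := by exact_mod_cast hR1
  set q := qlev R w rd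
  have hdev : ∀ l, devOf R w (ovK rd) q l ≤ s + (sq2 R w rd l - q l ^ 2) / (4 * s) := by
    intro l
    refine (ET_mono hw fun ps => abs_le_sq hs).trans (le_of_eq ?_)
    simp only [sub_sq, div_eq_mul_inv, ET_add, ET_mul_const, ET_sub, ET_const hw, mul_assoc,
      ET_const_mul]
    show s + (sq2 R w rd l - 2 * (q l * q l) + q l ^ 2) * _ = _
    ring
  have htop : devOf R w (ovK rd) q R = 0 := by
    have := qlev_top (rd := rd) (R := R) hw
    simp only [q, devOf, this]
    rw [star2 le_rfl]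
    simp [ovK, ov_self, ext_const fun p => Z_pos (m := lin R) hw 0 p]
  have hsq : ∀ l, sq2 R w rd l ≤ 1 := fun l =>
    (le_abs_self _).trans (ET_bound hw fun ps => by
      rw [abs_pow]; exact pow_le_one₀ (abs_nonneg _) (abs_ov_le _ _))
  have hv : ∀ l ∈ Finset.range R, sq2 R w rd l - q l ^ 2 ≤ 2 * (1 + R * E) * (1 / ((l:ℝ) + 1)) +
      4 * (q (l + 1) - q l) + (2 * t + R * E / (2 * t)) + if l = R - 1 then 1 else 0 := by
    intro l hl
    have hl' := Finset.mem_range.1 hl
    have d0 := sub_nonneg.2 (qlev_mono (rd := rd) hw hl')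
    have p0 : 0 ≤ 2 * (1 + R * E) * (1 / ((l:ℝ) + 1)) := by positivity
    have p1 : 0 ≤ R * E / (2 * t) := by positivity
    have h1 := hsq l
    have h2 := sq_nonneg (q l)
    rcases Nat.eq_zero_or_pos l with rfl | hl0
    · have p2 : 0 ≤ (R:ℝ) * E := by positivity
      norm_num
      split <;> linarith
    rcases Nat.lt_or_ge (l + 1) R with h | h
    · rw [if_neg (by omega : ¬ (l = R - 1)), mul_one_div]
      have := var_le hw hE hI hl0 h ht
      linarith
    · rw [if_pos (by omega : l = R - 1)]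
      linarith
  have h1 := Finset.sum_le_sum (s := Finset.range R) fun l _ => hdev l
  have h2 := Finset.sum_le_sum hv
  simp only [Finset.sum_add_distrib, ← Finset.sum_div, ← Finset.mul_sum, Finset.sum_const,
    Finset.card_range, nsmul_eq_mul, Finset.sum_range_sub, Finset.sum_ite_eq', Finset.mem_range,
    show R - 1 < R by omega, if_true] at h1 h2
  have h3 := sum_inv_le R
  have hq0 : q R - q 0 ≤ 1 := by
    have := qlev_nonneg (rd := rd) hw (Nat.zero_le R)
    have := qlev_top (rd := rd) (R := R) hw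
    simp only [q]; linarith
  have hRE : 0 ≤ 1 + (R:ℝ) * E := by positivity
  have h4 : 2 * (1 + R * E) * (∑ l ∈ Finset.range R, 1 / ((l:ℝ) + 1)) ≤ 2 * (1 + R * E) * (2 * √R) :=
    mul_le_mul_of_nonneg_left h3 (by positivity)
  have hk2 : (k:ℝ) ≤ √R := by
    refine Real.le_sqrt_of_sq_le ?_
    exact_mod_cast le_of_max_le_right hR
  have hsR : √(R:ℝ) ≤ R := by
    refine Real.sqrt_le_iff.2 ⟨hR0.le, ?_⟩
    have : (1:ℝ) ≤ R := by exact_mod_cast hR1
    nlinarith
  have h5 : 10 * √(R:ℝ) ≤ ε * s * R := by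
    rw [div_lt_iff₀ (by positivity)] at hk
    have := mul_le_mul_of_nonneg_left hk2 (show 0 ≤ ε * s by positivity)
    calc 10 * √(R:ℝ) ≤ ε * s * √R * √R := by
          refine mul_le_mul_of_nonneg_right ?_ (Real.sqrt_nonneg _)
          linarith
      _ = ε * s * R := by rw [mul_assoc, Real.mul_self_sqrt hR0.le]
  have h6 : 1 ≤ √(R:ℝ) := Real.one_le_sqrt.2 (by exact_mod_cast hR1)
  have h7 : R * E * (2 * √R) * 2 ≤ R * E * (2 * R) * 2 := by gcongr
  rw [adev, htop, add_zero, div_le_iff₀ hR0]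
  have key : (∑ l ∈ Finset.range R, (sq2 R w rd l - q l ^ 2)) / (4 * s) ≤
      (ε * s * R + 2 * t * R + (4 * R + R / (2 * t)) * (E * R)) / (4 * s) := by
    refine div_le_div_of_nonneg_right ?_ (by positivity)
    have e : (4 * (R:ℝ) + R / (2 * t)) * (E * R) = R * E * (2 * R) * 2 + R * (R * E / (2 * t)) := by ring
    rw [e]
    have a : 2 * (1 + (R:ℝ) * E) * (2 * √(R:ℝ)) = 4 * √(R:ℝ) + R * E * (2 * √R) * 2 := by ring
    have b : (R:ℝ) * (R * E) / (2 * t) = R * (R * E / (2 * t)) := by ring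
    linarith
  have e2 : (ε * s * R + 2 * t * R + (4 * R + R / (2 * t)) * (E * R)) / (4 * s) =
      3 / 8 * ε * R + (4 * R + R / (2 * t)) / (4 * s) * E * R := by
    simp only [t]; field_simp; ring
  have hs' : (R:ℝ) * s = ε / 2 * R := by simp only [s]; ring
  have : 0 ≤ ε * (R:ℝ) := by positivity
  linarith

/-- **Tilts**: a bounded tilt moves deviations and level values by a bounded factor -/
theorem rep_tilt_of (hw : ∀ p, 0 < w p) {Y : List Ω → ℝ} (hY0 : ∀ p, 0 < Y p) {K : ℝ} {l : ℕ}
    (hK : ∀ H : List (List Ω) → ℝ, (∀ ps, 0 ≤ H ps) →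
      ET R (lin R) (fun p => w p * Y p) [(0, l), (0, 0)] H ≤ K * ET R (lin R) w [(0, l), (0, 0)] H)
    (C : List Ω → List Ω → ℝ) (q : ℕ → ℝ) :
    devOf R (fun p => w p * Y p) C q l ≤ K * devOf R w C q l ∧
    |qlev R (fun p => w p * Y p) rd l - qlev R w rd l| ≤
      K * devOf R w (ovK rd) (qlev R w rd) l := by
  have hwY : ∀ p, 0 < w p * Y p := fun p => mul_pos (hw p) (hY0 p)
  refine ⟨hK _ fun ps => abs_nonneg _, ?_⟩
  have e : qlev R (fun p => w p * Y p) rd l - qlev R w rd l =
      ET R (lin R) (fun p => w p * Y p) [(0, l), (0, 0)] fun ps =>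
        ovK rd (ps.getD 0 []) (ps.getD 1 []) - qlev R w rd l := by
    rw [ET_sub, ET_const hwY]; rfl
  rw [e]
  exact (ET_abs_le hwY _ _).trans (hK _ fun ps => abs_nonneg _)

end Vale.Agent.P157.Par
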