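import Vale.Agent.P157.Par.EsiteLip
import Vale.Agent.P157.Par.Rep
import Vale.Agent.P168.MP.NestC

/-! One more site: the gain of the new spin is at least the site value, up to the deviations. -/

open MeasureTheory ProbabilityTheory Real Finset
open Vale.Agent.P150 (gauss dot)
open Vale.Agent.P168.MP (lin ET att nest Ok Valid valid_single ok_lin)
open Vale.Agent.P157.Lim (xv)

namespace Vale.Agent.P157.Par

variable {f f1 f2 f3 : ℝ → ℝ} {B D : ℝ}
variable {Ω : Type} [Fintype Ω] [Nonempty Ω] {R N M : ℕ}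

/-- field of pattern `a` on a path -/
noncomputable def uat (rd : List Ω → Fin N → Bool) (g : Fin M → Fin N → ℝ) (p : List Ω) (a : Fin M) : ℝ :=
  dot (xv N (rd p)) (g a)

/-- weight of the base system -/
noncomputable def wg (f : ℝ → ℝ) (w₀ : List Ω → ℝ) (rd : List Ω → Fin N → Bool)
    (g : Fin M → Fin N → ℝ) (p : List Ω) : ℝ := w₀ p * ham f g (rd p)

/-- the factor of the new spin, averaged over its value -/
noncomputable def siteY (f : ℝ → ℝ) (c t : ℝ) (rd : List Ω → Fin N → Bool) (g : Fin M → Fin N → ℝ)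
    (z : Fin M → ℝ) (p : List Ω) : ℝ :=
  Vale.Agent.P168.MP.avg fun s : Bool =>
    exp (∑ a, (f (c * uat rd g p a + t * Vale.Agent.P168.sg s * z a) - f (uat rd g p a)))

/-- coefficients of the field of the new spin -/
noncomputable def avec (f1 : ℝ → ℝ) (c t : ℝ) (rd : List Ω → Fin N → Bool) (g : Fin M → Fin N → ℝ)
    (p : List Ω) : Fin M → ℝ := fun a => t * f1 (c * uat rd g p a)

/-- crude size of the patterns -/
noncomputable def gsum (g : Fin M → Fin N → ℝ) : ℝ := ∑ a, ∑ i, |g a i| / √(N : ℝ)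

lemma wg_pos {w₀ : List Ω → ℝ} (hw : ∀ p, 0 < w₀ p) (rd : List Ω → Fin N → Bool)
    (g : Fin M → Fin N → ℝ) (p : List Ω) : 0 < wg f w₀ rd g p := mul_pos (hw p) (exp_pos _)

lemma continuous_wg (hS : Sm f f1 f2 f3 B D) (w₀ : List Ω → ℝ) (rd : List Ω → Fin N → Bool)
    (p : List Ω) : Continuous fun g : Fin M → Fin N → ℝ => wg f w₀ rd g p := by
  unfold wg; exact continuous_const.mul (continuous_ham hS.cont0 _)

lemma continuous_uat (rd : List Ω → Fin N → Bool) (p : List Ω) (a : Fin M) :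
    Continuous fun g : Fin M → Fin N → ℝ => uat rd g p a :=
  (continuous_dot_left _).comp (continuous_apply a)

lemma abs_uat_le (rd : List Ω → Fin N → Bool) (g : Fin M → Fin N → ℝ) (p : List Ω) (a : Fin M) :
    |uat rd g p a| ≤ ∑ i, |g a i| / √(N : ℝ) := by
  unfold uat dot
  refine (abs_sum_le_sum_abs _ _).trans (sum_le_sum fun i _ => le_of_eq ?_)
  simp only [xv, abs_mul, abs_div, abs_of_nonneg (Real.sqrt_nonneg _)]
  rw [show |Vale.Agent.P157.Lim.sgn (rd p i)| = 1 by unfold Vale.Agent.P157.Lim.sgn; split_ifs <;> simp]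
  ring

lemma abs_qK_le (hS : Sm f f1 f2 f3 B D) (rd : List Ω → Fin N → Bool) (g : Fin M → Fin N → ℝ)
    (p p' : List Ω) : |qK f1 rd g p p'| ≤ D ^ 2 := by
  have hD := hS.nonneg
  unfold qK
  rw [abs_div, Nat.abs_cast]
  refine div_le_of_le_mul₀ (Nat.cast_nonneg _) (sq_nonneg D) ((abs_sum_le_sum_abs _ _).trans ?_)
  refine (sum_le_sum (g := fun _ => D ^ 2) fun a _ => ?_).trans_eq (by simp [mul_comm])
  rw [abs_mul, sq]
  exact mul_le_mul (hS.b1 _) (hS.b1 _) (abs_nonneg _) hD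

lemma mul_qK (f1 : ℝ → ℝ) (rd : List Ω → Fin N → Bool) (g : Fin M → Fin N → ℝ) (p p' : List Ω) :
    (M : ℝ) * qK f1 rd g p p' = ∑ a, f1 (uat rd g p a) * f1 (uat rd g p' a) := by
  rcases Nat.eq_zero_or_pos M with rfl | h
  · simp
  · unfold qK uat; field_simp

/-- the covariance of the field of the new spin -/
lemma abs_cv_avec (hS : Sm f f1 f2 f3 B D) (rd : List Ω → Fin N → Bool) (g : Fin M → Fin N → ℝ)
    {c t : ℝ} (hc : 0 ≤ c) (hct : c ^ 2 + t ^ 2 = 1) (p p' : List Ω) {α G : ℝ} (hα : 0 ≤ α) :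
    |cv (avec f1 c t rd g) p p' - α * G| ≤
      α * |qK f1 rd g p p' - G| + (|(M : ℝ) * t ^ 2 - α| * D ^ 2 + t ^ 2 * t ^ 2 * (2 * D ^ 2) * gsum g) := by
  have hD := hS.nonneg
  obtain ⟨h1, -⟩ := shrink hc hct
  have ha : ∀ a, |f1 (c * uat rd g p a) * f1 (c * uat rd g p' a) - f1 (uat rd g p a) * f1 (uat rd g p' a)| ≤
      t ^ 2 * (2 * D ^ 2) * ∑ i, |g a i| / √(N : ℝ) := fun a => by
    have key : ∀ q, |f1 (c * uat rd g q a) - f1 (uat rd g q a)| ≤ D * (t ^ 2 * ∑ i, |g a i| / √(N : ℝ)) :=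
      fun q => (lip_of_deriv hS.d1 hS.b2 _ _).trans (mul_le_mul_of_nonneg_left (by
        rw [show c * uat rd g q a - uat rd g q a = (c - 1) * uat rd g q a by ring, abs_mul]
        exact mul_le_mul h1 (abs_uat_le rd g q a) (abs_nonneg _) (sq_nonneg t)) hD)
    rw [show ∀ x y x' y' : ℝ, x * y - x' * y' = (x - x') * y + x' * (y - y') from fun _ _ _ _ => by ring]
    refine (abs_add_le _ _).trans ?_
    rw [abs_mul, abs_mul]
    refine (add_le_add (mul_le_mul (key p) (hS.b1 _) (abs_nonneg _) (by positivity))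
      (mul_le_mul (hS.b1 _) (key p') (abs_nonneg _) hD)).trans_eq ?_
    ring
  have e : cv (avec f1 c t rd g) p p' =
      t ^ 2 * ∑ a, f1 (c * uat rd g p a) * f1 (c * uat rd g p' a) := by
    simp only [cv, dot, avec, mul_sum]; exact sum_congr rfl fun a _ => by ring
  rw [e, show t ^ 2 * ∑ a, f1 (c * uat rd g p a) * f1 (c * uat rd g p' a) - α * G =
      α * (qK f1 rd g p p' - G) + ((M : ℝ) * t ^ 2 - α) * qK f1 rd g p p' +
        t ^ 2 * ∑ a, (f1 (c * uat rd g p a) * f1 (c * uat rd g p' a) -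
          f1 (uat rd g p a) * f1 (uat rd g p' a)) by
    rw [sum_sub_distrib, ← mul_qK f1 rd g p p']; ring]
  rw [← add_assoc]
  refine (abs_add_three _ _ _).trans (add_le_add (add_le_add ?_ ?_) ?_)
  · rw [abs_mul, abs_of_nonneg hα]
  · rw [abs_mul]; exact mul_le_mul_of_nonneg_left (abs_qK_le hS rd g p p') (abs_nonneg _)
  · rw [abs_mul, abs_of_nonneg (sq_nonneg t)]
    calc t ^ 2 * |∑ a, (f1 (c * uat rd g p a) * f1 (c * uat rd g p' a) -
            f1 (uat rd g p a) * f1 (uat rd g p' a))|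
        ≤ t ^ 2 * ∑ a, t ^ 2 * (2 * D ^ 2) * ∑ i, |g a i| / √(N : ℝ) :=
          mul_le_mul_of_nonneg_left ((abs_sum_le_sum_abs _ _).trans (sum_le_sum fun a _ => ha a)) (sq_nonneg t)
      _ = _ := by rw [← mul_sum, gsum]; ring

lemma adev_avec (hS : Sm f f1 f2 f3 B D) (hR : 1 ≤ R) {w : List Ω → ℝ} (hw : ∀ p, 0 < w p)
    (rd : List Ω → Fin N → Bool) (g : Fin M → Fin N → ℝ)
    {c t : ℝ} (hc : 0 ≤ c) (hct : c ^ 2 + t ^ 2 = 1) {α : ℝ} (hα : 0 ≤ α) (G : ℕ → ℝ) :
    adev R w (cv (avec f1 c t rd g)) (fun l => α * G l) ≤ α * adev R w (qK f1 rd g) G +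
      2 * (|(M : ℝ) * t ^ 2 - α| * D ^ 2 + t ^ 2 * t ^ 2 * (2 * D ^ 2) * gsum g) := by
  set E := |(M : ℝ) * t ^ 2 - α| * D ^ 2 + t ^ 2 * t ^ 2 * (2 * D ^ 2) * gsum g
  have h : ∀ l, devOf R w (cv (avec f1 c t rd g)) (fun l => α * G l) l ≤
      α * devOf R w (qK f1 rd g) G l + E := fun l => by
    refine (Vale.Agent.P168.MP.ET_mono hw fun ps =>
      abs_cv_avec hS rd g hc hct (ps.getD 0 []) (ps.getD 1 []) (G := G l) hα).trans_eq ?_
    rw [Vale.Agent.P168.MP.ET_add, Vale.Agent.P168.MP.ET_const_mul, Vale.Agent.P168.MP.ET_const hw]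
    rfl
  have hR' : (0:ℝ) < R := by exact_mod_cast hR
  unfold adev
  refine (add_le_add (div_le_div_of_nonneg_right (sum_le_sum fun l _ => h l) hR'.le) (h R)).trans_eq ?_
  rw [sum_add_distrib, ← mul_sum, sum_const, card_range, nsmul_eq_mul]
  field_simp
  ring

section single
variable {X : Type*} [MeasurableSpace X] {μ : Measure X} {m : ℕ → ℝ} {w : List Ω → ℝ}

/-- integrals pass inside nested expectations -/
lemma integral_ext1 (F : X → List Ω → ℝ) (hF : ∀ p, Integrable (fun x => F x p) μ) :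
    ∀ (k : ℕ) (pre : List Ω), Integrable (fun x => Vale.Agent.P168.MP.ext m w k pre (F x)) μ ∧
      ∫ x, Vale.Agent.P168.MP.ext m w k pre (F x) ∂μ =
        Vale.Agent.P168.MP.ext m w k pre fun p => ∫ x, F x p ∂μ
  | 0, pre => by simpa using hF pre
  | k + 1, pre => by
    simp only [Vale.Agent.P168.MP.ext_succ]
    refine ⟨integrable_finsetSum _ fun o _ => ((integral_ext1 F hF k _).1).const_mul _, ?_⟩
    rw [integral_finsetSum _ fun o _ => ((integral_ext1 F hF k _).1).const_mul _]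
    exact sum_congr rfl fun o _ => by rw [integral_const_mul, (integral_ext1 F hF k _).2]

lemma integral_ET_one (F : X → List Ω → ℝ) (hF : ∀ p, Integrable (fun x => F x p) μ) :
    Integrable (fun x => ET R m w [(0, 0)] fun ps => F x (ps.getD 0 [])) μ ∧
      ∫ x, ET R m w [(0, 0)] (fun ps => F x (ps.getD 0 [])) ∂μ =
        ET R m w [(0, 0)] fun ps => ∫ x, F x (ps.getD 0 []) ∂μ := by
  simp only [Vale.Agent.P168.MP.ET_single, List.getD_cons_zero]
  exact integral_ext1 F hF R []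

/-- tilting by a factor bounded below, on one replica -/
lemma ET_one_tilt (hR : 1 ≤ R) (hw : ∀ p, 0 < w p) {Y H : List Ω → ℝ} {a : ℝ} (ha : 0 < a)
    (hY : ∀ p, a ≤ Y p) (hH : ∀ p, 0 ≤ H p) :
    ET R (lin R) (fun p => w p * Y p) [(0, 0)] (fun ps => H (ps.getD 0 [])) ≤
      ET R (lin R) w [(0, 0)] fun ps => H (ps.getD 0 []) * (Y (ps.getD 0 []) / a) := by
  refine (ET_mul_le hR hw ha hY valid_single (fun ps => hH _)).trans_eq
    (Vale.Agent.P168.MP.ET_congr valid_single fun ps hs => ?_)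
  obtain ⟨q, rfl⟩ := List.length_eq_one_iff.1 hs.1
  simp

end single

lemma continuous_siteY (hS : Sm f f1 f2 f3 B D) (c t : ℝ) (rd : List Ω → Fin N → Bool) (p : List Ω) :
    Continuous fun x : (Fin M → Fin N → ℝ) × (Fin M → ℝ) => siteY f c t rd x.1 x.2 p := by
  have h0 := hS.cont0
  have hu : ∀ a, Continuous fun x : (Fin M → Fin N → ℝ) × (Fin M → ℝ) => uat rd x.1 p a := fun a =>
    (continuous_uat rd p a).comp continuous_fst
  unfold siteY Vale.Agent.P168.MP.avg
  fun_prop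

lemma siteY_bounds (hS : Sm f f1 f2 f3 B D) (hB : ∀ x, f x ≤ B) (c t : ℝ) (rd : List Ω → Fin N → Bool)
    (g : Fin M → Fin N → ℝ) (z : Fin M → ℝ) (p : List Ω) :
    exp (-(2 * B * M)) ≤ siteY f c t rd g z p ∧ siteY f c t rd g z p ≤ exp (2 * B * M) := by
  have hs : ∀ s : Bool, |∑ a, (f (c * uat rd g p a + t * Vale.Agent.P168.sg s * z a) - f (uat rd g p a))| ≤
      2 * B * M := fun s => by
    refine (abs_sum_le_sum_abs _ _).trans ((sum_le_sum (g := fun _ => 2 * B) fun a _ => ?_).trans_eq (by simp; ring))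
    have b := fun x => abs_le.2 ⟨hS.lb x, hB x⟩
    exact (abs_sub _ _).trans (by linarith [b (c * uat rd g p a + t * Vale.Agent.P168.sg s * z a), b (uat rd g p a)])
  unfold siteY
  constructor
  · refine (Vale.Agent.P168.MP.avg_const (Ω := Bool) _).symm.trans_le (Vale.Agent.P168.MP.avg_le_avg fun s => ?_)
    exact exp_le_exp.2 (neg_le_of_abs_le (hs s))
  · refine (Vale.Agent.P168.MP.avg_le_avg fun s => ?_).trans_eq (Vale.Agent.P168.MP.avg_const (Ω := Bool) _)
    exact exp_le_exp.2 (le_of_abs_le (hs s))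

lemma abs_log_nest_siteY (hS : Sm f f1 f2 f3 B D) (hB : ∀ x, f x ≤ B) (hR : 1 ≤ R) {w : List Ω → ℝ}
    (hw : ∀ p, 0 < w p) (c t : ℝ) (rd : List Ω → Fin N → Bool) (g : Fin M → Fin N → ℝ) (z : Fin M → ℝ) :
    |log (nest (lin R) w (siteY f c t rd g z) R [])| ≤ 2 * B * M := by
  obtain ⟨h1, h2⟩ := Vale.Agent.P168.MP.nest_mem (ok_lin hR hw) (exp_pos _)
    (fun q _ => siteY_bounds hS hB c t rd g z q) R [] (by simp)
  rw [abs_le, le_log_iff_exp_le ((exp_pos _).trans_le h1), log_le_iff_le_exp ((exp_pos _).trans_le h1)]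
  exact ⟨h1, h2⟩

/-- the pointwise bound of the factor of the new spin -/
lemma siteY_ge (hS : Sm f f1 f2 f3 B D) (rd : List Ω → Fin N → Bool) (g : Fin M → Fin N → ℝ)
    (z : Fin M → ℝ) (c : ℝ) {t : ℝ} (ht : 0 < t) (p : List Ω) :
    fac (fun x => log (cosh x)) (avec f1 c t rd g) z p *
      exp ((∑ i, (f (c * uat rd g p i) - f (uat rd g p i) + t ^ 2 / 2 * f2 (c * uat rd g p i))) +
        (∑ i, t ^ 2 / 2 * f2 (c * uat rd g p i) * (z i ^ 2 - 1)) - D * t ^ 3 * ∑ i, |z i| ^ 3) ≤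
      siteY f c t rd g z p := by
  set Ψ : ℝ := ∑ i, (f (c * uat rd g p i) - f (uat rd g p i) + t ^ 2 / 2 * f2 (c * uat rd g p i)) with hΨ
  set Xs : ℝ := ∑ i, t ^ 2 / 2 * f2 (c * uat rd g p i) * (z i ^ 2 - 1) with hXs
  set kap : ℝ := D * t ^ 3 * ∑ i, |z i| ^ 3 with hkap
  have hs : ∀ s : Bool, Ψ + Xs - kap + Vale.Agent.P168.sg s * dot (avec f1 c t rd g p) z ≤
      ∑ i, (f (c * uat rd g p i + t * Vale.Agent.P168.sg s * z i) - f (uat rd g p i)) := fun s => by
    simp only [hΨ, hXs, hkap, avec, dot, mul_sum, ← sum_add_distrib, ← sum_sub_distrib]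
    refine sum_le_sum fun i _ => ?_
    have h := (abs_le.1 (hS.taylor_two (c * uat rd g p i) (t * Vale.Agent.P168.sg s * z i))).1
    have hs2 : Vale.Agent.P168.sg s ^ 2 = 1 := by cases s <;> norm_num [Vale.Agent.P168.sg]
    have hsa : |Vale.Agent.P168.sg s| = 1 := by cases s <;> norm_num [Vale.Agent.P168.sg]
    rw [abs_mul, abs_mul, hsa, mul_one, abs_of_pos ht, mul_pow] at h
    rw [show (t * Vale.Agent.P168.sg s * z i) ^ 2 / 2 * f2 (c * uat rd g p i) =
      Vale.Agent.P168.sg s ^ 2 * (t ^ 2 / 2 * f2 (c * uat rd g p i) * z i ^ 2) by ring, hs2, one_mul] at h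
    linarith
  rw [fac, exp_log (cosh_pos _), siteY, Vale.Agent.P168.MP.avg, Fintype.sum_bool, Fintype.card_bool, cosh_eq]
  have e1 := exp_le_exp.2 (hs true)
  have e2 := exp_le_exp.2 (hs false)
  rw [exp_add] at e1 e2
  simp only [Vale.Agent.P168.sg, Bool.false_eq_true, ↓reduceIte, one_mul, neg_mul] at e1 e2 ⊢
  push_cast
  linarith

lemma continuous_siteY_right (hS : Sm f f1 f2 f3 B D) (c t : ℝ) (rd : List Ω → Fin N → Bool)
    (g : Fin M → Fin N → ℝ) (p : List Ω) : Continuous fun z => siteY f c t rd g z p := by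
  have h0 := hS.cont0
  unfold siteY Vale.Agent.P168.MP.avg
  fun_prop

lemma integrable_log_siteY (hS : Sm f f1 f2 f3 B D) (hB : ∀ x, f x ≤ B) (hR : 1 ≤ R) {w : List Ω → ℝ}
    (hw : ∀ p, 0 < w p) (c t : ℝ) (rd : List Ω → Fin N → Bool) (g : Fin M → Fin N → ℝ) :
    Integrable (fun z => log (nest (lin R) w (siteY f c t rd g z) R [])) (gauss (Fin M)) := by
  have hp : ∀ z p, 0 < siteY f c t rd g z p := fun z p =>
    (exp_pos _).trans_le (siteY_bounds hS hB c t rd g z p).1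
  refine Integrable.of_bound (Continuous.aestronglyMeasurable ?_) (2 * B * M) (Filter.Eventually.of_forall
    fun z => by rw [Real.norm_eq_abs]; exact abs_log_nest_siteY hS hB hR hw c t rd g z)
  exact (continuous_nest (m := lin R) (w := fun _ => w) (Y := fun z => siteY f c t rd g z)
    (fun p => continuous_const) (fun _ => hw)
    (fun p => continuous_siteY_right hS c t rd g p) hp R []).log fun z =>
      (Vale.Agent.P168.MP.nest_pos hw (hp z) R []).ne'

lemma integrable_log_coshY (hR : 1 ≤ R) {w : List Ω → ℝ} (hw : ∀ p, 0 < w p) {a : List Ω → Fin M → ℝ}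
    {A : ℝ} (hA : ∀ p i, |a p i| ≤ A) :
    Integrable (fun z => log (nest (lin R) w (fac (fun x => log (cosh x)) a z) R [])) (gauss (Fin M)) := by
  have hY : ∀ z p, 0 < fac (fun x => log (cosh x)) a z p := fun z p => exp_pos _
  have hc : ∀ p, Continuous fun z => fac (fun x => log (cosh x)) a z p := fun p => by
    simp only [fac]; exact continuous_exp.comp (sm_logcosh.cont0.comp (continuous_dot_left _))
  refine Vale.Agent.P150.integrable_of_bound ((continuous_nest (m := lin R) (w := fun _ => w)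
    (fun p => continuous_const) (fun _ => hw) hc hY R []).log fun z =>
      (Vale.Agent.P168.MP.nest_pos hw (hY z) R []).ne') (C := 1) (M := A) fun z => ?_
  have hb : ∀ p, 1 ≤ fac (fun x => log (cosh x)) a z p ∧
      fac (fun x => log (cosh x)) a z p ≤ exp (A * Vale.Agent.P150.l1 z) := fun p => by
    rw [fac, exp_log (cosh_pos _), cosh_eq]
    have h := abs_le.1 (Vale.Agent.P150.abs_dot_le (hA p) z)
    refine ⟨(one_le_cosh _).trans_eq (cosh_eq _), ?_⟩
    linarith [exp_le_exp.2 h.2, exp_le_exp.2 (show -dot (a p) z ≤ A * Vale.Agent.P150.l1 z by linarith)]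
  obtain ⟨n1, n2⟩ := Vale.Agent.P168.MP.nest_mem (ok_lin hR hw) one_pos (fun p _ => hb p) R [] (by simp)
  rw [one_mul, abs_of_nonneg (log_nonneg n1)]
  refine ((log_le_iff_le_exp (one_pos.trans_le n1)).2 n2).trans ?_
  linarith [add_one_le_exp (A * Vale.Agent.P150.l1 z)]

/-- the centred second order term, tilted by the field -/
lemma integral_centred_le (hS : Sm f f1 f2 f3 B D) (F : Fin M → ℝ) (hF : ∀ i, |F i| ≤ D) (b : Fin M → ℝ)
    {t A V : ℝ} (ht : 0 < t) (hA : (M : ℝ) * t ^ 2 ≤ A) (hb : dot b b ≤ V) :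
    Integrable (fun z => |∑ i, t ^ 2 / 2 * F i * (z i ^ 2 - 1)| * cosh (dot b z)) (gauss (Fin M)) ∧
      ∫ z, |∑ i, t ^ 2 / 2 * F i * (z i ^ 2 - 1)| * cosh (dot b z) ∂gauss (Fin M) ≤
        t * (A * c4 * D ^ 2 + exp (2 * V)) := by
  have hc4 := c4_nonneg
  set X : (Fin M → ℝ) → ℝ := fun z => ∑ i, t ^ 2 / 2 * F i * (z i ^ 2 - 1)
  obtain ⟨hi, he⟩ := integral_sq_sum fun i => t ^ 2 / 2 * F i
  obtain ⟨hi', he'⟩ := integrable_cosh_sq b
  have he2 : ∫ z, X z ^ 2 ∂gauss (Fin M) ≤ t * t * (A * c4 * D ^ 2) := by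
    refine he.trans_le ?_
    have : ∑ i, (t ^ 2 / 2 * F i) ^ 2 ≤ ∑ _i : Fin M, t ^ 2 * (t ^ 2 * D ^ 2) := sum_le_sum fun i _ => by
      have := pow_le_pow_left₀ (abs_nonneg _) (hF i) 2
      rw [sq_abs] at this
      rw [mul_pow]
      refine (mul_le_mul_of_nonneg_left this (sq_nonneg _)).trans ?_
      nlinarith [mul_nonneg (mul_nonneg (sq_nonneg t) (sq_nonneg t)) (sq_nonneg D)]
    rw [sum_const, card_univ, Fintype.card_fin, nsmul_eq_mul] at this
    calc c4 * _ ≤ c4 * ((M:ℝ) * (t ^ 2 * (t ^ 2 * D ^ 2))) := mul_le_mul_of_nonneg_left this hc4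
      _ = t * t * ((M:ℝ) * t ^ 2 * c4 * D ^ 2) := by ring
      _ ≤ _ := by gcongr
  have hle : ∀ z, |X z| * cosh (dot b z) ≤ X z ^ 2 / t + t * cosh (dot b z) ^ 2 := fun z => by
    rw [div_add' _ _ _ ht.ne', le_div_iff₀ ht, ← sq_abs (X z)]
    nlinarith [two_mul_le_add_sq |X z| (t * cosh (dot b z)),
      mul_nonneg (mul_nonneg (abs_nonneg (X z)) ht.le) (cosh_pos (dot b z)).le]
  have hXc : Continuous X := by simp only [X]; fun_prop
  have hint : Integrable (fun z => |X z| * cosh (dot b z)) (gauss (Fin M)) := by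
    refine ((hi.div_const t).add (hi'.const_mul t)).mono'
      (hXc.abs.mul (continuous_cosh.comp (continuous_dot_left _))).aestronglyMeasurable
      (Filter.Eventually.of_forall fun z => ?_)
    rw [Real.norm_eq_abs, abs_of_nonneg (mul_nonneg (abs_nonneg _) (cosh_pos _).le)]
    exact hle z
  refine ⟨hint, (integral_mono hint ((hi.div_const t).add (hi'.const_mul t)) hle).trans ?_⟩
  simp only [Pi.add_apply]
  rw [integral_add (hi.div_const t) (hi'.const_mul t), integral_div, integral_const_mul, mul_add]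
  refine add_le_add ?_ (mul_le_mul_of_nonneg_left (he'.trans (exp_le_exp.2 ?_)) ht.le)
  · rw [div_le_iff₀ ht]; linarith
  · linarith

/-- bookkeeping of the errors of one site -/
lemma site_arith {nC nY eP eX kap Ph Ps K1 K2 L c4' v' c3' θ T AV E t : ℝ}
    (hI : nC + (eP + eX - kap) ≤ nY) (hX : -(t * (c4' + v')) ≤ eX) (hk : kap ≤ t * c3')
    (hv : -(K1 * AV) ≤ nC - Ph) (hs : -(K2 * (θ * T + AV / θ)) ≤ eP - Ps)
    (hK1 : 0 ≤ K1) (hK2 : 0 ≤ K2) (hL : 0 ≤ L) (hθ : 0 < θ) (hT : 0 ≤ θ * T) (hAV : AV ≤ L * E)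
    (hE : 0 ≤ E) (hEθ : E ≤ E / θ) (ht : t ≤ E) (hc4 : 0 ≤ c4') (hv0 : 0 ≤ v') (hc3 : 0 ≤ c3') :
    Ph + Ps - ((K1 + K2) * L + K2 + (c4' + v' + c3')) * (θ * T + E / θ) ≤ nY := by
  have z : t * (c4' + v' + c3') ≤ (c4' + v' + c3') * (E / θ) := by
    rw [mul_comm]; exact mul_le_mul_of_nonneg_left (ht.trans hEθ) (by linarith)
  have b1 : K1 * AV ≤ K1 * L * (E / θ) := by
    rw [mul_assoc]; exact mul_le_mul_of_nonneg_left (hAV.trans (mul_le_mul_of_nonneg_left hEθ hL)) hK1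
  have b2 : K2 * (θ * T + AV / θ) ≤ K2 * (θ * T) + K2 * L * (E / θ) := by
    rw [mul_add, mul_assoc K2 L, ← mul_div_assoc L]
    exact add_le_add le_rfl (mul_le_mul_of_nonneg_left (div_le_div_of_nonneg_right hAV hθ.le) hK2)
  have b3 : 0 ≤ ((K1 + K2) * L + (c4' + v' + c3')) * (θ * T) := mul_nonneg (by positivity) hT
  have b4 : 0 ≤ K2 * (E / θ) := mul_nonneg hK2 (div_nonneg hE hθ.le)
  linarith

/-- **one site, given the base system** -/
theorem site_fixed (hS : Sm f f1 f2 f3 B D) (hB : ∀ x, f x ≤ B) (A : ℝ) : ∃ K : ℝ, 0 ≤ K ∧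
    ∀ {Ω : Type} [Fintype Ω] [Nonempty Ω] {R N M : ℕ}, 1 ≤ R → ∀ (rd : List Ω → Fin N → Bool)
      {w : List Ω → ℝ}, (∀ p, 0 < w p) → ∀ (g : Fin M → Fin N → ℝ) {c t α θ : ℝ}, 0 ≤ c → 0 < t →
      c ^ 2 + t ^ 2 = 1 → (M : ℝ) * t ^ 2 ≤ A → 0 ≤ α → α ≤ A → 0 < θ → θ ≤ 1 →
      ∀ {q : ℕ → ℝ}, Prof R q 1 →
      Phi cosh R (lin R) (fun l => α * Gm f f1 R q l) +
          ET R (lin R) w [(0, 0)] (fun ps => ∑ a, (f (c * uat rd g (ps.getD 0 []) a) -
            f (uat rd g (ps.getD 0 []) a) + t ^ 2 / 2 * f2 (c * uat rd g (ps.getD 0 []) a))) -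
          K * (θ * ET R (lin R) w [(0, 0)] (fun ps => (∑ a, (f (c * uat rd g (ps.getD 0 []) a) -
              f (uat rd g (ps.getD 0 []) a) + t ^ 2 / 2 * f2 (c * uat rd g (ps.getD 0 []) a))) ^ 2) +
            (adev R w (qK f1 rd g) (Gm f f1 R q) + |(M : ℝ) * t ^ 2 - α| + t ^ 2 * t ^ 2 * gsum g + t) / θ) ≤
        ∫ z, log (nest (lin R) w (siteY f c t rd g z) R []) ∂gauss (Fin M) := by
  set V := |A| * D ^ 2 with hV
  obtain ⟨K1, hK1, hval⟩ := value_close sm_logcosh V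
  obtain ⟨K2, hK2, hsing⟩ := single_close sm_logcosh V
  set L := |A| + 2 * D ^ 2 + 4 * D ^ 2
  set Kx := |A| * c4 * D ^ 2 + exp (2 * V) + |A| * D * c3
  refine ⟨(K1 + K2) * L + K2 + Kx, by
    have := hS.nonneg; have := c3_nonneg; have := c4_nonneg; positivity, ?_⟩
  intro Ω _ _ R N M hR rd w hw g c t α θ hc ht hct hMt hα hαA hθ hθ1 q hq
  have hD := hS.nonneg
  have hc3 := c3_nonneg
  have hc4 := c4_nonneg
  have hA : α ≤ |A| := hαA.trans (le_abs_self A)
  have hMt' : (M : ℝ) * t ^ 2 ≤ |A| := hMt.trans (le_abs_self A)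
  set a := avec f1 c t rd g
  have haa : ∀ p, cv a p p ≤ V := fun p => by
    have : cv a p p = t ^ 2 * ∑ i, f1 (c * uat rd g p i) ^ 2 := by
      simp only [a, cv, dot, avec, mul_sum]; exact sum_congr rfl fun i _ => by ring
    rw [this]
    refine (mul_le_mul_of_nonneg_left (sum_le_sum (g := fun _ => D ^ 2) fun i _ => ?_) (sq_nonneg t)).trans ?_
    · rw [← sq_abs (f1 _)]; exact pow_le_pow_left₀ (abs_nonneg _) (hS.b1 _) 2
    · rw [sum_const, card_univ, Fintype.card_fin, nsmul_eq_mul, hV, ← mul_assoc, mul_comm (t ^ 2)]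
      exact mul_le_mul_of_nonneg_right hMt' (sq_nonneg D)
  set q' := fun l => α * Gm f f1 R q l
  have hq' : Prof R q' V := ((gm_prof hS hR hq).scale hα).weaken (mul_le_mul_of_nonneg_right hA (sq_nonneg D))
  set Ψ : List Ω → ℝ := fun p => ∑ i, (f (c * uat rd g p i) - f (uat rd g p i) + t ^ 2 / 2 * f2 (c * uat rd g p i))
    with hΨ
  set F : (Fin M → ℝ) → List Ω → ℝ := fun z => fac (fun x => log (cosh x)) a z with hF
  have hFc : ∀ z p, F z p = cosh (dot (a p) z) := fun z p => by simp only [hF, fac, exp_log (cosh_pos _)]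
  set Xs : (Fin M → ℝ) → List Ω → ℝ := fun z p => ∑ i, t ^ 2 / 2 * f2 (c * uat rd g p i) * (z i ^ 2 - 1)
    with hXs
  set kap : (Fin M → ℝ) → ℝ := fun z => D * t ^ 3 * ∑ i, |z i| ^ 3 with hkap
  have hFpos : ∀ z p, 0 < F z p := fun z p => exp_pos _
  have hm := ok_lin hR hw
  have hY : ∀ z p, F z p * exp (Ψ p + Xs z p - kap z) ≤ siteY f c t rd g z p := fun z p =>
    siteY_ge hS rd g z c ht p
  -- for every value of the noise
  have hlow : ∀ z, log (nest (lin R) w (F z) R []) +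
      (ET R (lin R) (fun p => w p * F z p) [(0, 0)] (fun ps => Ψ (ps.getD 0 [])) +
        ET R (lin R) (fun p => w p * F z p) [(0, 0)] (fun ps => Xs z (ps.getD 0 [])) - kap z) ≤
      log (nest (lin R) w (siteY f c t rd g z) R []) := fun z => by
    have h1 := log_nest_add_ET_le hm (hFpos z) fun p => Ψ p + Xs z p - kap z
    have hpos : ∀ p, 0 < w p * F z p := fun p => mul_pos (hw p) (hFpos z p)
    rw [Vale.Agent.P168.MP.ET_sub, Vale.Agent.P168.MP.ET_add, Vale.Agent.P168.MP.ET_const hpos] at h1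
    refine h1.trans (log_le_log (Vale.Agent.P168.MP.nest_pos hw (fun p => by
      exact mul_pos (hFpos z p) (exp_pos _)) R [])
      (Vale.Agent.P168.MP.nest_le_nest hm (fun p => mul_pos (hFpos z p) (exp_pos _)) (hY z) R [] (by simp)))
  -- integrability
  have hcF : ∀ p, Continuous fun z => F z p := fun p => by
    simp only [hF, fac]
    exact continuous_exp.comp (sm_logcosh.cont0.comp (continuous_dot_left _))
  have hi1 : Integrable (fun z => log (nest (lin R) w (siteY f c t rd g z) R [])) (gauss (Fin M)) :=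
    integrable_log_siteY hS hB hR hw c t rd g
  have hi2 : Integrable (fun z => log (nest (lin R) w (F z) R [])) (gauss (Fin M)) :=
    integrable_log_coshY hR hw (A := t * D) fun p i => by
      simp only [a, avec, abs_mul, abs_of_pos ht]
      exact mul_le_mul_of_nonneg_left (hS.b1 _) ht.le
  have hcw : ∀ p, Continuous fun z => w p * F z p := fun p => continuous_const.mul (hcF p)
  have hpw : ∀ z p, 0 < w p * F z p := fun z p => mul_pos (hw p) (hFpos z p)
  have hi3 : Integrable (fun z => ET R (lin R) (fun p => w p * F z p) [(0, 0)] fun ps => Ψ (ps.getD 0 []))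
      (gauss (Fin M)) := by
    refine Integrable.of_bound (continuous_ET (m := lin R) hcw hpw R [(0, 0)] (F := fun _ ps => Ψ (ps.getD 0 [])) fun _ => continuous_const).aestronglyMeasurable
      (M * (2 * B) + M * (t ^ 2 / 2 * D)) (Filter.Eventually.of_forall fun z => ?_)
    refine Vale.Agent.P168.MP.ET_bound (hpw z) fun ps => ?_
    refine (abs_sum_le_sum_abs _ _).trans ((sum_le_sum (g := fun _ => 2 * B + t ^ 2 / 2 * D) fun i _ => ?_).trans_eq
      (by simp [mul_add]))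
    refine (abs_add_le _ _).trans (add_le_add ?_ ?_)
    · have b := fun x => abs_le.2 ⟨hS.lb x, hB x⟩
      exact (abs_sub _ _).trans (by linarith [b (c * uat rd g (ps.getD 0 []) i), b (uat rd g (ps.getD 0 []) i)])
    · rw [abs_mul, abs_of_nonneg (by positivity)]
      exact mul_le_mul_of_nonneg_left (hS.b2 _) (by positivity)
  have hXF : ∀ p, Integrable (fun z => |Xs z p| * F z p) (gauss (Fin M)) ∧
      ∫ z, |Xs z p| * F z p ∂gauss (Fin M) ≤ t * (|A| * c4 * D ^ 2 + exp (2 * V)) := fun p => by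
    simp only [hFc]
    exact integral_centred_le hS _ (fun i => hS.b2 _) (a p) ht hMt' (haa p)
  have hXdom : ∀ z, |ET R (lin R) (fun p => w p * F z p) [(0, 0)] (fun ps => Xs z (ps.getD 0 []))| ≤
      ET R (lin R) w [(0, 0)] fun ps => |Xs z (ps.getD 0 [])| * F z (ps.getD 0 []) := fun z => by
    refine (Vale.Agent.P168.MP.ET_abs_le (hpw z) _ _).trans ?_
    refine (ET_one_tilt hR hw one_pos (fun p => by rw [hFc]; exact one_le_cosh _)
      fun p => abs_nonneg (Xs z p)).trans_eq ?_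
    simp
  obtain ⟨hi4, he4⟩ := integral_ET_one (R := R) (m := lin R) (w := w) (μ := gauss (Fin M))
    (fun z p => |Xs z p| * F z p) fun p => (hXF p).1
  have hi5 : Integrable (fun z => ET R (lin R) (fun p => w p * F z p) [(0, 0)] fun ps => Xs z (ps.getD 0 []))
      (gauss (Fin M)) :=
    hi4.mono' (continuous_ET (m := lin R) hcw hpw R [(0, 0)] fun ps => by simp only [hXs]; fun_prop).aestronglyMeasurable
      (Filter.Eventually.of_forall fun z => by rw [Real.norm_eq_abs]; exact hXdom z)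
  have hX : -(t * (|A| * c4 * D ^ 2 + exp (2 * V))) ≤
      ∫ z, ET R (lin R) (fun p => w p * F z p) [(0, 0)] (fun ps => Xs z (ps.getD 0 [])) ∂gauss (Fin M) := by
    refine neg_le_of_abs_le ((abs_integral_le_integral_abs).trans ((integral_mono hi5.abs hi4 hXdom).trans ?_))
    rw [he4]
    refine (Vale.Agent.P168.MP.ET_mono hw fun ps => (hXF _).2).trans_eq ?_
    rw [Vale.Agent.P168.MP.ET_const hw]
  obtain ⟨hi6, he6⟩ := integral_abs_cube (ι := Fin M)
  have hk : ∫ z, kap z ∂gauss (Fin M) ≤ t * (|A| * D * c3) := by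
    simp only [hkap]
    rw [integral_const_mul, he6, Fintype.card_fin]
    calc D * t ^ 3 * (c3 * M) = t * ((M:ℝ) * t ^ 2 * D * c3) := by ring
      _ ≤ _ := by gcongr
  have hi7 : Integrable kap (gauss (Fin M)) := hi6.const_mul _
  -- assemble
  have hI := integral_mono (hi2.add ((hi3.add hi5).sub hi7)) hi1 hlow
  rw [integral_add' hi2 ((hi3.add hi5).sub hi7), integral_sub' (hi3.add hi5) hi7,
    integral_add' hi3 hi5] at hI
  have hv := hval hR hw haa hq'
  rw [cosh_eq_exp] at hv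
  have hs := hsing hR hw haa hq' Ψ hθ
  have hdev := adev_avec hS hR hw rd g hc hct hα (Gm f f1 R q)
  set AD := adev R w (qK f1 rd g) (Gm f f1 R q)
  set AV := adev R w (cv a) q'
  set T := ET R (lin R) w [(0, 0)] fun ps => Ψ (ps.getD 0 []) ^ 2
  set E := AD + |(M : ℝ) * t ^ 2 - α| + t ^ 2 * t ^ 2 * gsum g + t
  have hAD : 0 ≤ AD := adev_nn hw
  have hgs : 0 ≤ gsum g := sum_nonneg fun _ _ => sum_nonneg fun _ _ => by positivity
  have ha0 := abs_nonneg ((M : ℝ) * t ^ 2 - α)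
  have hg0 : 0 ≤ t ^ 2 * t ^ 2 * gsum g := by positivity
  have hE : 0 ≤ E := by positivity
  have hEθ : E ≤ E / θ := le_div_self hE hθ hθ1
  have hT : 0 ≤ θ * T := mul_nonneg hθ.le (Vale.Agent.P168.MP.ET_nonneg hw fun _ => sq_nonneg _)
  have hAV0 : 0 ≤ AV := adev_nn hw
  have hAV : AV ≤ L * E := by
    refine hdev.trans ?_
    have h1 := mul_le_mul_of_nonneg_right hA hAD
    have hA0 := abs_nonneg A
    have hD2 := sq_nonneg D
    simp only [L, E]
    nlinarith [mul_nonneg hD2 ha0, mul_nonneg hD2 hg0, mul_nonneg hA0 ha0, mul_nonneg hA0 hg0,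
      mul_nonneg hA0 ht.le, mul_nonneg hD2 ht.le, mul_nonneg hD2 hAD]
  simp only [hF] at hI hv hs hX
  exact site_arith hI hX hk (abs_le.1 hv).1 (abs_le.1 hs).1 hK1 hK2 (by positivity) hθ hT hAV hE hEθ
    (by linarith) (by positivity) (by positivity) (by positivity)

end Vale.Agent.P157.Par
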