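import Vale.Agent.P157.Par.SiteMoments

/-! The mean gain of one site over the patterns. -/

open MeasureTheory ProbabilityTheory Real Finset
open Vale.Agent.P150 (gauss dot)
open Vale.Agent.P168.MP (lin ET nest Valid valid_single ok_lin)

namespace Vale.Agent.P157.Par

variable {f f1 f2 f3 : ℝ → ℝ} {B D : ℝ}
variable {Ω : Type} [Fintype Ω] [Nonempty Ω] {R N M : ℕ}

/-- the base profile -/
noncomputable def qb (f : ℝ → ℝ) (w₀ : List Ω → ℝ) (rd : List Ω → Fin N → Bool) (R : ℕ)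
    (g : Fin M → Fin N → ℝ) : ℕ → ℝ := qlev R (wg f w₀ rd g) rd

/-- mean overlap deviation of the base system -/
noncomputable def ADev (f : ℝ → ℝ) (w₀ : List Ω → ℝ) (rd : List Ω → Fin N → Bool) (R M : ℕ) : ℝ :=
  ∫ g : Fin M → Fin N → ℝ, adev R (wg f w₀ rd g) (ovK rd) (qb f w₀ rd R g) ∂pats N M

lemma qb_prof [NeZero N] {w₀ : List Ω → ℝ} (hw : ∀ p, 0 < w₀ p) (rd : List Ω → Fin N → Bool)
    (g : Fin M → Fin N → ℝ) : Prof R (qb f w₀ rd R g) 1 ∧ qb f w₀ rd R g R = 1 :=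
  qlev_prof (wg_pos hw rd g)

lemma continuous_qb (hS : Sm f f1 f2 f3 B D) {w₀ : List Ω → ℝ} (hw : ∀ p, 0 < w₀ p)
    (rd : List Ω → Fin N → Bool) (l : ℕ) :
    Continuous fun g : Fin M → Fin N → ℝ => qb f w₀ rd R g l :=
  continuous_ET (fun p => continuous_wg hS w₀ rd p) (wg_pos hw rd) R [(0, l), (0, 0)]
    (F := fun _ ps => ovK rd (ps.getD 0 []) (ps.getD 1 [])) fun _ => continuous_const

lemma integrable_dev (hS : Sm f f1 f2 f3 B D) [NeZero N] {w₀ : List Ω → ℝ} (hw : ∀ p, 0 < w₀ p)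
    (rd : List Ω → Fin N → Bool) {C : (Fin M → Fin N → ℝ) → List Ω → List Ω → ℝ}
    (hC : ∀ p p', Continuous fun g => C g p p') {V W : ℝ} (hV : ∀ g p p', |C g p p'| ≤ V)
    {q : (Fin M → Fin N → ℝ) → ℕ → ℝ} {l : ℕ} (hl : l ≤ R) (hq : Continuous fun g => q g l)
    (hW : ∀ g, |q g l| ≤ W) :
    Integrable (fun g => devOf R (wg f w₀ rd g) (C g) (q g) l) (pats N M) := by
  refine Integrable.of_bound (continuous_ET (fun p => continuous_wg hS w₀ rd p) (wg_pos hw rd) R _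
    fun ps => ((hC _ _).sub hq).abs).aestronglyMeasurable (V + W) (Filter.Eventually.of_forall fun g => ?_)
  rw [Real.norm_eq_abs, abs_of_nonneg (devOf_nn (wg_pos hw rd g) l)]
  exact devOf_le (wg_pos hw rd g) hl (hV g) (hW g)

lemma integrable_ovdev (hS : Sm f f1 f2 f3 B D) [NeZero N] {w₀ : List Ω → ℝ} (hw : ∀ p, 0 < w₀ p)
    (rd : List Ω → Fin N → Bool) {l : ℕ} (hl : l ≤ R) :
    Integrable (fun g : Fin M → Fin N → ℝ => devOf R (wg f w₀ rd g) (ovK rd) (qb f w₀ rd R g) l)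
      (pats N M) :=
  integrable_dev hS hw rd (C := fun _ => ovK rd) (fun _ _ => continuous_const) (V := 1)
    (fun _ _ _ => abs_ov_le _ _) hl (continuous_qb hS hw rd l) (W := 1) fun g => by
      have := (qb_prof (f := f) hw rd g).1.upper hl
      rw [abs_le]; constructor <;> linarith

lemma integrable_adev_of (hR : 1 ≤ R) {X : Type*} [MeasurableSpace X] {μ : Measure X}
    {w : X → List Ω → ℝ} {C : X → List Ω → List Ω → ℝ} {q : X → ℕ → ℝ}
    (h : ∀ l ≤ R, Integrable (fun x => devOf R (w x) (C x) (q x) l) μ) :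
    Integrable (fun x => adev R (w x) (C x) (q x)) μ ∧
      ∫ x, adev R (w x) (C x) (q x) ∂μ =
        (∑ l ∈ range R, ∫ x, devOf R (w x) (C x) (q x) l ∂μ) / R + ∫ x, devOf R (w x) (C x) (q x) R ∂μ := by
  have hs : Integrable (fun x => ∑ l ∈ range R, devOf R (w x) (C x) (q x) l) μ :=
    integrable_finsetSum _ fun l hl => h l (mem_range.1 hl).le
  refine ⟨(hs.div_const _).add (h R le_rfl), ?_⟩
  unfold adev
  rw [integral_add (hs.div_const _) (h R le_rfl), integral_div,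
    integral_finsetSum _ fun l hl => h l (mem_range.1 hl).le]

lemma integrable_qKdev (hS : Sm f f1 f2 f3 B D) [NeZero N] (hR : 1 ≤ R) {w₀ : List Ω → ℝ}
    (hw : ∀ p, 0 < w₀ p) (rd : List Ω → Fin N → Bool) {l : ℕ} (hl : l ≤ R) :
    Integrable (fun g : Fin M → Fin N → ℝ =>
      devOf R (wg f w₀ rd g) (qK f1 rd g) (Gm f f1 R (qb f w₀ rd R g)) l) (pats N M) := by
  obtain ⟨K, hK, hlip⟩ := Phi_lip hS 1
  have hcont := cont_functional (X := Fin M → Fin N → ℝ) hR (F := fun q => Gm f f1 R q l)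
    (K := (R + 1 : ℝ) * K * 2) (by positivity) (fun q q' hq hq' => by
      refine ((hlip R q q' hR hq hq').2 l hl).trans ?_
      have hd := dist1_nonneg R q q'
      have e : (∑ j ∈ range R, |q j - q' j|) / (R:ℝ) + |q R - q' R| = dist1 R q q' := rfl
      have h1 : |q l - q' l| ≤ (R + 1 : ℝ) * dist1 R q q' := by
        rcases Nat.lt_or_eq_of_le hl with h | rfl
        · have := single_le_sum (f := fun j => |q j - q' j|) (fun j _ => abs_nonneg _) (mem_range.2 h)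
          have hR' : (0:ℝ) < R := by exact_mod_cast hR
          have h2 : (∑ j ∈ range R, |q j - q' j|) ≤ (R:ℝ) * dist1 R q q' := by
            rw [← div_le_iff₀' hR']; exact le_add_of_nonneg_right (abs_nonneg _)
          linarith
        · have : |q l - q' l| ≤ dist1 l q q' := le_add_of_nonneg_left (by positivity)
          nlinarith [mul_nonneg (Nat.cast_nonneg (α := ℝ) l) hd]
      rw [add_assoc |q l - q' l|, e, mul_comm (R + 1 : ℝ) K, mul_assoc, mul_assoc]
      refine mul_le_mul_of_nonneg_left ?_ hK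
      have hRn : (0:ℝ) ≤ R := Nat.cast_nonneg R
      nlinarith [mul_nonneg hRn hd])
    (fun g => (qb_prof hw rd g).1) (continuous_qb hS hw rd)
  refine integrable_dev hS hw rd (C := fun g => qK f1 rd g) (fun p p' => ?_) (V := D ^ 2)
    (fun g p p' => abs_qK_le hS rd g p p') hl hcont.1 (W := D ^ 2) fun g => ?_
  · unfold qK
    exact (continuous_finsetSum _ fun a _ => (hS.cont1.comp (continuous_uat rd p a)).mul
      (hS.cont1.comp (continuous_uat rd p' a))).div_const _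
  · have := (gm_prof hS hR (qb_prof (f := f) hw rd g).1).upper hl
    rw [abs_le]; constructor <;> linarith

/-- the mean deviation of the correlation of the derivatives -/
lemma qconc_sum (hS : Sm f f1 f2 f3 B D) (hB : ∀ x, f x ≤ B) : ∃ K : ℝ, 0 ≤ K ∧
    ∀ {Ω : Type} [Fintype Ω] [Nonempty Ω] {R N M : ℕ} [NeZero N], 1 ≤ R → 2 ≤ M →
      ∀ {w₀ : List Ω → ℝ}, (∀ p, 0 < w₀ p) → ∀ (rd : List Ω → Fin N → Bool) {θ : ℝ}, 0 < θ →
      ∫ g, adev R (wg f w₀ rd g) (qK f1 rd g) (Gm f f1 R (qb f w₀ rd R g)) ∂pats N M ≤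
        2 * θ + K / θ * (ADev f w₀ rd R M + 1 / M) := by
  obtain ⟨K, hK, hq⟩ := qconc hS hB
  refine ⟨4 * K, by positivity, ?_⟩
  intro Ω _ _ R N M _ hR hM w₀ hw rd θ hθ
  have hR' : (0:ℝ) < R := by exact_mod_cast hR
  set dq : ℕ → ℝ := fun l => ∫ g : Fin M → Fin N → ℝ,
    devOf R (wg f w₀ rd g) (qK f1 rd g) (Gm f f1 R (qb f w₀ rd R g)) l ∂pats N M
  set dv : ℕ → ℝ := fun l => ∫ g : Fin M → Fin N → ℝ,
    devOf R (wg f w₀ rd g) (ovK rd) (qb f w₀ rd R g) l ∂pats N M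
  set AD := ADev f w₀ rd R M
  obtain ⟨hia, hae⟩ := integrable_adev_of hR (μ := pats N M) (w := fun g => wg f w₀ rd g)
    (C := fun _ => ovK rd) (q := fun g => qb f w₀ rd R g) fun l hl => integrable_ovdev hS hw rd hl
  have hAD : AD = (∑ l ∈ range R, dv l) / R + dv R := hae
  have hl : ∀ l ≤ R, dq l ≤ θ + K / θ * (dv l + AD + 1 / M) := fun l hl => by
    exact (hq hR hM w₀ hw rd hθ hl).trans_eq (congrArg (fun x => θ + K / θ * (x + 1 / (M : ℝ)))
      (integral_add (integrable_ovdev hS hw rd hl) hia))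
  have hdv : ∀ l, 0 ≤ dv l := fun l => integral_nonneg fun g => devOf_nn (wg_pos hw rd g) l
  have h1 : dv R ≤ AD := by
    rw [hAD]; exact le_add_of_nonneg_left (div_nonneg (sum_nonneg fun l _ => hdv l) hR'.le)
  rw [(integrable_adev_of hR fun l hl => integrable_qKdev hS hR hw rd hl).2]
  show (∑ l ∈ range R, dq l) / R + dq R ≤ _
  refine (add_le_add (div_le_div_of_nonneg_right (sum_le_sum fun l h => hl l (mem_range.1 h).le) hR'.le)
    (hl R le_rfl)).trans ?_
  rw [sum_add_distrib, ← mul_sum, sum_add_distrib, sum_add_distrib, sum_const, sum_const, sum_const,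
    card_range, nsmul_eq_mul, nsmul_eq_mul, nsmul_eq_mul]
  have e : (R * θ + K / θ * (∑ l ∈ range R, dv l + R * AD + R * (1 / (M:ℝ)))) / R =
      θ + K / θ * ((∑ l ∈ range R, dv l) / R + AD + 1 / M) := by field_simp
  rw [e]
  have hk : 0 ≤ K / θ := div_nonneg hK hθ.le
  have hM0 : 0 ≤ 1 / (M:ℝ) := by positivity
  have h2 := mul_le_mul_of_nonneg_left (show (∑ l ∈ range R, dv l) / R + AD + 1 / M + (dv R + AD + 1 / M) ≤
    4 * (AD + 1 / M) by linarith [hdv R]) hk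
  rw [mul_add (K / θ)] at h2
  rw [show 4 * K / θ = 4 * (K / θ) by ring]
  linarith

/-- the correlation term of one profile against the correlation of the derivatives -/
lemma corr_close (hS : Sm f f1 f2 f3 B D) (hR : 1 ≤ R) [NeZero N] {w₀ : List Ω → ℝ}
    (hw : ∀ p, 0 < w₀ p) (rd : List Ω → Fin N → Bool) (g : Fin M → Fin N → ℝ) {α t A : ℝ} (hα : 0 ≤ α)
    (hA : (M : ℝ) * t ^ 2 ≤ A) :
    t ^ 2 / 2 * ∑ a, ∑ l ∈ range (R + 1), coef R l * ET R (lin R) (wg f w₀ rd g) [(0, l), (0, 0)]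
        (fun ps => ovK rd (ps.getD 0 []) (ps.getD 1 []) *
          (f1 (uat rd g (ps.getD 0 []) a) * f1 (uat rd g (ps.getD 1 []) a))) ≤
      α / 2 * ∑ l ∈ range (R + 1), coef R l * (Gm f f1 R (qb f w₀ rd R g) l * qb f w₀ rd R g l) +
        |(M : ℝ) * t ^ 2 - α| * D ^ 2 +
        A / 2 * adev R (wg f w₀ rd g) (qK f1 rd g) (Gm f f1 R (qb f w₀ rd R g)) := by
  set w := wg f w₀ rd g
  have hwp : ∀ p, 0 < w p := wg_pos hw rd g
  obtain ⟨hq, -⟩ := qb_prof (R := R) (f := f) hw rd g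
  set q := qb f w₀ rd R g
  set G := Gm f f1 R q
  have hR' : (0:ℝ) < R := by exact_mod_cast hR
  set T : ℕ → ℝ := fun l => ET R (lin R) w [(0, l), (0, 0)] fun ps =>
    ovK rd (ps.getD 0 []) (ps.getD 1 []) * qK f1 rd g (ps.getD 0 []) (ps.getD 1 [])
  have e : t ^ 2 / 2 * ∑ a, ∑ l ∈ range (R + 1), coef R l * ET R (lin R) w [(0, l), (0, 0)]
      (fun ps => ovK rd (ps.getD 0 []) (ps.getD 1 []) *
        (f1 (uat rd g (ps.getD 0 []) a) * f1 (uat rd g (ps.getD 1 []) a))) =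
      (M : ℝ) * t ^ 2 / 2 * ∑ l ∈ range (R + 1), coef R l * T l := by
    rw [sum_comm, mul_sum, mul_sum]
    refine sum_congr rfl fun l _ => ?_
    rw [← mul_sum, ← Vale.Agent.P168.MP.ET_sum]
    simp only [← mul_sum, ← mul_qK, T]
    rw [show (fun ps : List (List Ω) => ovK rd (ps.getD 0 []) (ps.getD 1 []) *
        ((M : ℝ) * qK f1 rd g (ps.getD 0 []) (ps.getD 1 []))) = fun ps =>
        (M : ℝ) * (ovK rd (ps.getD 0 []) (ps.getD 1 []) * qK f1 rd g (ps.getD 0 []) (ps.getD 1 []))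
      from funext fun ps => by ring, Vale.Agent.P168.MP.ET_const_mul]
    ring
  have hT : ∀ l ≤ R, |T l - G l * q l| ≤ devOf R w (qK f1 rd g) G l := fun l hl => by
    have e2 : T l - G l * q l = ET R (lin R) w [(0, l), (0, 0)] fun ps =>
        ovK rd (ps.getD 0 []) (ps.getD 1 []) * (qK f1 rd g (ps.getD 0 []) (ps.getD 1 []) - G l) := by
      simp only [mul_sub, Vale.Agent.P168.MP.ET_sub, Vale.Agent.P168.MP.ET_mul_const, T]
      rw [mul_comm (G l)]
      rfl
    rw [e2]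
    refine (Vale.Agent.P168.MP.ET_abs_le hwp _ _).trans (Vale.Agent.P168.MP.ET_mono hwp fun ps => ?_)
    rw [abs_mul]
    exact mul_le_of_le_one_left (abs_nonneg _) (abs_ov_le _ _)
  have hGq : ∀ l ≤ R, |G l * q l| ≤ D ^ 2 := fun l hl => by
    have h1 := (gm_prof hS hR hq).upper hl
    have h2 := hq.upper hl
    rw [abs_mul]
    exact (mul_le_of_le_one_right (abs_nonneg _) (abs_le.2 ⟨by linarith, h2.2⟩)).trans
      (abs_le.2 ⟨by linarith, h1.2⟩)
  have hsum : ∀ x : ℕ → ℝ, ∀ b : ℕ → ℝ, (∀ l ≤ R, |x l| ≤ b l) →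
      |∑ l ∈ range (R + 1), coef R l * x l| ≤ (∑ l ∈ range R, b l) / R + b R := fun x b hb => by
    rw [sum_range_succ, coef_top hR, one_mul]
    refine (abs_add_le _ _).trans (add_le_add ((abs_sum_le_sum_abs _ _).trans ?_) (hb R le_rfl))
    rw [sum_div]
    refine sum_le_sum fun l hl => ?_
    rw [coef_lt (mem_range.1 hl), abs_mul, abs_neg, abs_of_nonneg (by positivity), one_div_mul_eq_div]
    exact div_le_div_of_nonneg_right (hb l (mem_range.1 hl).le) hR'.le
  have h1 := hsum (fun l => T l - G l * q l) (fun l => devOf R w (qK f1 rd g) G l) hT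
  have h2 := hsum (fun l => G l * q l) (fun _ => D ^ 2) hGq
  rw [sum_const, card_range, nsmul_eq_mul, mul_div_cancel_left₀ _ hR'.ne'] at h2
  simp only [mul_sub, sum_sub_distrib] at h1
  set ST := ∑ l ∈ range (R + 1), coef R l * T l
  set SG := ∑ l ∈ range (R + 1), coef R l * (G l * q l)
  rw [e]
  have hAD : 0 ≤ adev R w (qK f1 rd g) G := adev_nn hwp
  have hm : 0 ≤ (M : ℝ) * t ^ 2 / 2 := by positivity
  have p1 := (mul_le_mul_of_nonneg_left ((abs_le.1 h1).2) hm).trans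
    (mul_le_mul_of_nonneg_right (div_le_div_of_nonneg_right hA zero_le_two) hAD)
  have p2 : ((M : ℝ) * t ^ 2 / 2 - α / 2) * SG ≤ |(M : ℝ) * t ^ 2 - α| * D ^ 2 := by
    refine (le_abs_self _).trans ?_
    rw [abs_mul, show (M : ℝ) * t ^ 2 / 2 - α / 2 = ((M : ℝ) * t ^ 2 - α) / 2 by ring, abs_div, abs_two]
    calc |(M : ℝ) * t ^ 2 - α| / 2 * |SG| ≤ |(M : ℝ) * t ^ 2 - α| / 2 * (D ^ 2 + D ^ 2) :=
          mul_le_mul_of_nonneg_left h2 (by positivity)
      _ = _ := by ring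
  unfold adev
  linarith

end Vale.Agent.P157.Par
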