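import Vale.Agent.P157.Par.Defs

/-! Node fields on `Fin (n + 1)` labels, and their limit as `n → ∞`. -/

open MeasureTheory ProbabilityTheory Real Finset Filter
open scoped Topology
open Vale.Agent.P150 (gauss dot l1)
open Vale.Agent.P168.MP (lin ET ext trans Z avg)

namespace Vale.Agent.P157.Par

/-- a positive potential of at most exponential growth -/
structure Adm (e : ℝ → ℝ) (a A D : ℝ) : Prop where
  cont : Continuous e
  a_pos : 0 < a
  a_le : a ≤ 1
  A_ge : 1 ≤ A
  D_nonneg : 0 ≤ D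
  lb : ∀ y, a ≤ e y
  ub : ∀ y, e y ≤ A * exp (D * |y|)

/-! ### one-dimensional facts -/

/-- exponents at the levels `1..R` -/
structure Ex (R : ℕ) (m : ℕ → ℝ) : Prop where
  pos : ∀ l, 1 ≤ l → l ≤ R → 0 < m l
  le_one : ∀ l, 1 ≤ l → l ≤ R → m l ≤ 1
  mono : ∀ l, 1 ≤ l → l < R → m l ≤ m (l + 1)

lemma Ex.of_ok {Ω : Type*} [Fintype Ω] {R : ℕ} {m : ℕ → ℝ} {w : List Ω → ℝ}
    (h : Vale.Agent.P168.MP.Ok R m w) : Ex R m := by
  refine ⟨h.pos, fun l h1 hl => ?_, h.mono⟩
  have : ∀ j l, 1 ≤ l → l + j = R → m l ≤ 1 := fun j => by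
    induction j with
    | zero => intro l _ hl; rw [show l = R by omega, h.top]
    | succ j ih => exact fun l h1 hl => (h.mono l h1 (by omega)).trans (ih (l + 1) (by omega) (by omega))
  exact this (R - l) l h1 (by omega)

lemma ex_lin (R : ℕ) : Ex R (lin R) := by
  refine ⟨fun l h1 h2 => ?_, fun l h1 h2 => ?_, fun l _ hl => ?_⟩
  · simp only [Vale.Agent.P168.MP.lin, if_pos h2]
    exact div_pos (Nat.cast_pos.2 (by omega)) (Nat.cast_pos.2 (by omega))
  · simp only [Vale.Agent.P168.MP.lin, if_pos h2]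
    exact div_le_one_of_le₀ (by exact_mod_cast h2) (Nat.cast_nonneg R)
  · simp only [Vale.Agent.P168.MP.lin, if_pos hl.le, if_pos (show l + 1 ≤ R by omega)]
    gcongr; omega

lemma Ex.mem {R : ℕ} {m : ℕ → ℝ} (h : Ex R m) {k : ℕ} (hk : k < R) :
    0 < m (R - k) ∧ m (R - k) ≤ 1 :=
  ⟨h.pos _ (by omega) (by omega), h.le_one _ (by omega) (by omega)⟩

lemma le_rpow {a x p : ℝ} (ha : 0 < a) (ha1 : a ≤ 1) (hx : a ≤ x) (h0 : 0 ≤ p) (h1 : p ≤ 1) :
    a ≤ x ^ p :=
  calc a = a ^ (1 : ℝ) := (rpow_one a).symm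
    _ ≤ a ^ p := rpow_le_rpow_of_exponent_ge ha ha1 h1
    _ ≤ x ^ p := rpow_le_rpow ha.le hx h0

lemma rpow_le_max {x p A : ℝ} (hx : 0 ≤ x) (hA : x ≤ A) (h1 : 1 ≤ A) (h0 : 0 ≤ p) (hp : p ≤ 1) :
    x ^ p ≤ A :=
  (rpow_le_rpow hx hA h0).trans (rpow_le_self_of_one_le h1 hp)

lemma rpow_sub_le {a x y p : ℝ} (ha : 0 < a) (ha1 : a ≤ 1) (hx : a ≤ x) (hy : a ≤ y)
    (h0 : 0 ≤ p) (h1 : p ≤ 1) : |x ^ p - y ^ p| ≤ |x - y| / a := by
  wlog hyx : y ≤ x generalizing x y
  · rw [abs_sub_comm, abs_sub_comm x]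
    exact this hy hx (le_of_not_ge hyx)
  have hy0 : 0 < y := ha.trans_le hy
  have hm := rpow_le_rpow hy0.le hyx h0
  rw [abs_of_nonneg (sub_nonneg.2 hm), abs_of_nonneg (sub_nonneg.2 hyx)]
  have hq : (x / y) ^ p ≤ x / y := rpow_le_self_of_one_le ((one_le_div hy0).2 hyx) h1
  have e : x ^ p = y ^ p * (x / y) ^ p := by
    rw [div_rpow (hy0.le.trans hyx) hy0.le, mul_div_cancel₀ _ (rpow_pos_of_pos hy0 p).ne']
  have hb : y ^ p / y ≤ 1 / a := by
    rw [← rpow_sub_one hy0.ne', one_div, ← rpow_neg_one]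
    exact (rpow_le_rpow_of_nonpos ha hy (by linarith)).trans
      (rpow_le_rpow_of_exponent_ge ha ha1 (by linarith))
  calc x ^ p - y ^ p ≤ y ^ p / y * (x - y) := by
        rw [e]
        have := mul_le_mul_of_nonneg_left hq (rpow_pos_of_pos hy0 p).le
        calc _ ≤ y ^ p * (x / y) - y ^ p := by linarith
          _ = _ := by field_simp
    _ ≤ 1 / a * (x - y) := mul_le_mul_of_nonneg_right hb (sub_nonneg.2 hyx)
    _ = _ := by ring

lemma div_sub_div_le {a b B x X C : ℝ} (ha : 0 < a) (hb : a ≤ b) (hB : 0 < B)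
    (hX : |X / B| ≤ C) : |x / b - X / B| ≤ (|x - X| + C * |b - B|) / a := by
  have hb0 : 0 < b := ha.trans_le hb
  have e : x / b - X / B = ((x - X) + X / B * (B - b)) / b := by field_simp; ring
  rw [e, abs_div, abs_of_pos hb0]
  refine (div_le_div_of_nonneg_right ((abs_add_le _ _).trans (add_le_add le_rfl ?_)) hb0.le).trans
    (div_le_div_of_nonneg_left ?_ ha hb)
  · rw [abs_mul, abs_sub_comm B]; exact mul_le_mul_of_nonneg_right hX (abs_nonneg _)
  · have := (abs_nonneg _).trans hX; positivity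

/-- continuous, of at most exponential growth -/
def EG (h : ℝ → ℝ) : Prop := Continuous h ∧ ∃ A M, 0 ≤ M ∧ ∀ y, |h y| ≤ A * exp (M * |y|)

lemma EG.of_bound {h : ℝ → ℝ} (hc : Continuous h) {C : ℝ} (hb : ∀ y, |h y| ≤ C) : EG h :=
  ⟨hc, C, 0, le_rfl, fun y => by simpa using hb y⟩

lemma EG.mul_bdd {h k : ℝ → ℝ} (hh : EG h) (hk : Continuous k) {C : ℝ} (hb : ∀ y, |k y| ≤ C) :
    EG fun y => h y * k y := by
  obtain ⟨hc, A, M, hM, hA⟩ := hh
  refine ⟨hc.mul hk, A * C, M, hM, fun y => ?_⟩
  rw [abs_mul, mul_right_comm]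
  exact mul_le_mul (hA y) (hb y) (abs_nonneg _) ((abs_nonneg _).trans (hA y))

lemma EG.sq {h : ℝ → ℝ} (hh : EG h) : EG fun y => h y ^ 2 := by
  obtain ⟨hc, A, M, hM, hA⟩ := hh
  refine ⟨hc.pow 2, A ^ 2, 2 * M, by linarith, fun y => ?_⟩
  rw [abs_pow, mul_assoc 2, two_mul, exp_add, _root_.sq, _root_.sq]
  exact (mul_le_mul (hA y) (hA y) (abs_nonneg _) ((abs_nonneg _).trans (hA y))).trans_eq (by ring)

lemma integrable_exp_abs (M : ℝ) : Integrable (fun z : ℝ => exp (M * |z|)) (gaussianReal 0 1) :=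
  (((integrable_exp_mul_gaussianReal M).add (integrable_exp_mul_gaussianReal (-M)))).mono'
    (by fun_prop) (Eventually.of_forall fun t => by
      rw [Real.norm_eq_abs, Real.abs_exp]
      rcases abs_choice t with h | h <;> rw [h] <;> simp only [Pi.add_apply, mul_neg, neg_mul] <;>
        linarith [Real.exp_pos (M * t), Real.exp_pos (-(M * t))])

lemma EG.bound_shift {h : ℝ → ℝ} {A M : ℝ} (hM : 0 ≤ M) (hA : ∀ y, |h y| ≤ A * exp (M * |y|))
    (c y z : ℝ) : |h (y + c * z)| ≤ A * exp (M * |y|) * exp (M * |c| * |z|) := by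
  refine (hA _).trans ?_
  rw [mul_assoc A, ← exp_add, mul_assoc M, ← mul_add, ← abs_mul]
  exact mul_le_mul_of_nonneg_left (exp_le_exp.2 (mul_le_mul_of_nonneg_left (abs_add_le _ _) hM))
    (nonneg_of_mul_nonneg_left ((abs_nonneg _).trans (hA 0)) (exp_pos _))

lemma EG.int {h : ℝ → ℝ} (hh : EG h) (c y : ℝ) :
    Integrable (fun z => h (y + c * z)) (gaussianReal 0 1) := by
  obtain ⟨hc, A, M, hM, hA⟩ := hh
  exact ((integrable_exp_abs (M * |c|)).const_mul _).mono'
    (hc.comp (by fun_prop)).aestronglyMeasurable (Eventually.of_forall fun z =>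
      EG.bound_shift hM hA c y z)

lemma EG.conv {h : ℝ → ℝ} (hh : EG h) (c : ℝ) :
    EG fun y => ∫ z, h (y + c * z) ∂gaussianReal 0 1 := by
  obtain ⟨hc, A, M, hM, hA⟩ := hh
  have hA0 : 0 ≤ A := nonneg_of_mul_nonneg_left ((abs_nonneg _).trans (hA 0)) (exp_pos _)
  refine ⟨continuous_iff_continuousAt.2 fun y₀ => ?_,
    A * ∫ z, exp (M * |c| * |z|) ∂gaussianReal 0 1, M, hM, fun y => ?_⟩
  · refine continuousAt_of_dominated (Eventually.of_forall fun y =>
      (hc.comp (by fun_prop)).aestronglyMeasurable) ?_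
      ((integrable_exp_abs (M * |c|)).const_mul (A * exp (M * (|y₀| + 1))))
      (Eventually.of_forall fun z => (hc.comp (by fun_prop)).continuousAt)
    filter_upwards [Metric.ball_mem_nhds y₀ one_pos] with y hy
    refine Eventually.of_forall fun z => (EG.bound_shift hM hA c y z).trans ?_
    refine mul_le_mul_of_nonneg_right (mul_le_mul_of_nonneg_left (exp_le_exp.2
      (mul_le_mul_of_nonneg_left ?_ hM)) hA0) (exp_pos _).le
    rw [Metric.mem_ball, Real.dist_eq] at hy
    linarith [abs_sub_abs_le_abs_sub y y₀]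
  · rw [mul_right_comm, ← integral_const_mul]
    exact (abs_integral_le_integral_abs).trans (integral_mono_of_nonneg
      (Eventually.of_forall fun _ => abs_nonneg _) ((integrable_exp_abs (M * |c|)).const_mul _)
      (Eventually.of_forall fun z => EG.bound_shift hM hA c y z))

variable {e : ℝ → ℝ} {a A D : ℝ}

lemma Adm.eg (he : Adm e a A D) : EG e :=
  ⟨he.cont, A, D, he.D_nonneg, fun y => by
    rw [abs_of_nonneg (he.a_pos.le.trans (he.lb y))]; exact he.ub y⟩

lemma Adm.rpow {V : ℝ → ℝ} (he : Adm V a A D) {p : ℝ} (h0 : 0 ≤ p) (h1 : p ≤ 1) :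
    Adm (fun y => V y ^ p) a A D where
  cont := he.cont.rpow_const fun _ => Or.inr h0
  a_pos := he.a_pos
  a_le := he.a_le
  A_ge := he.A_ge
  D_nonneg := he.D_nonneg
  lb y := le_rpow he.a_pos he.a_le (he.lb y) h0 h1
  ub y := rpow_le_max (he.a_pos.le.trans (he.lb y)) (he.ub y)
    (one_le_mul_of_one_le_of_one_le he.A_ge (one_le_exp (mul_nonneg he.D_nonneg (abs_nonneg y))))
    h0 h1

lemma Adm.int_pos (he : Adm e a A D) (c y : ℝ) :
    a ≤ ∫ z, e (y + c * z) ∂gaussianReal 0 1 := by
  simpa using integral_mono (μ := gaussianReal 0 1) (integrable_const a) (he.eg.int c y)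
    fun z => he.lb _

lemma Vn_adm (he : Adm e a A D) {R : ℕ} {m : ℕ → ℝ} (hm : Ex R m) (q : ℕ → ℝ) :
    ∀ k, k ≤ R → ∃ A', Adm (Vn e R m q k) a A' D
  | 0, _ => ⟨A, by simpa [Vn] using he⟩
  | k + 1, hk => by
    obtain ⟨A', h⟩ := Vn_adm he hm q k (by omega)
    set p := m (R - k)
    set c := √(q (R - k) - q (R - (k + 1)))
    obtain ⟨hp, h1⟩ := hm.mem (k := k) (by omega)
    have h0 := hp.le
    set I := fun y => ∫ z, Vn e R m q k (y + c * z) ^ p ∂gaussianReal 0 1
    have hI : ∀ y, a ^ p ≤ I y := fun y => by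
      simpa using integral_mono (μ := gaussianReal 0 1) (integrable_const (a ^ p))
        ((h.rpow h0 h1).eg.int c y) fun z => rpow_le_rpow he.a_pos.le (h.lb _) h0
    set K := (∫ z, exp (D * |c| * |z|) ^ p ∂gaussianReal 0 1) ^ (1 / p)
    refine ⟨max 1 (A' * K), ?_, he.a_pos, he.a_le, le_max_left _ _, he.D_nonneg, fun y => ?_,
      fun y => ?_⟩
    · show Continuous fun y => I y ^ (1 / p)
      exact ((h.rpow h0 h1).eg.conv c).1.rpow_const fun y =>
        Or.inl ((rpow_pos_of_pos he.a_pos p).trans_le (hI y)).ne'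
    · show a ≤ I y ^ (1 / p)
      calc a = (a ^ p) ^ (1 / p) := by rw [one_div, rpow_rpow_inv he.a_pos.le hp.ne']
        _ ≤ _ := rpow_le_rpow (rpow_nonneg he.a_pos.le _) (hI y) (by positivity)
    · show I y ^ (1 / p) ≤ _
      have hA' : 0 ≤ A' := zero_le_one.trans h.A_ge
      have hi : Integrable (fun z => exp (D * |c| * |z|) ^ p) (gaussianReal 0 1) := by
        simp only [← exp_mul, mul_right_comm _ _ p]
        exact integrable_exp_abs _
      have hle : I y ≤ (A' * exp (D * |y|)) ^ p *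
          ∫ z, exp (D * |c| * |z|) ^ p ∂gaussianReal 0 1 := by
        rw [← integral_const_mul]
        refine integral_mono ((h.rpow h0 h1).eg.int c y) (hi.const_mul _) fun z => ?_
        rw [← mul_rpow (by positivity) (exp_pos _).le]
        refine rpow_le_rpow (he.a_pos.le.trans (h.lb _)) ((h.ub _).trans ?_) h0
        rw [mul_assoc A', ← exp_add, mul_assoc D, ← mul_add, ← abs_mul]
        exact mul_le_mul_of_nonneg_left (exp_le_exp.2 (mul_le_mul_of_nonneg_left
          (abs_add_le _ _) he.D_nonneg)) hA'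
      refine (rpow_le_rpow ((rpow_nonneg he.a_pos.le _).trans (hI y)) hle
        (by positivity)).trans ?_
      rw [mul_rpow (by positivity) (integral_nonneg fun z => rpow_nonneg (exp_pos _).le _),
        one_div, rpow_rpow_inv (by positivity) hp.ne', ← one_div, mul_right_comm]
      exact mul_le_mul_of_nonneg_right (le_max_right _ _) (exp_pos _).le

lemma tl_prop (he : Adm e a A D) {R : ℕ} {m : ℕ → ℝ} (hm : Ex R m) (q : ℕ → ℝ) {k : ℕ}
    (hk : k < R) {F : ℝ → ℝ} {C : ℝ} (hc : Continuous F) (hb : ∀ y, |F y| ≤ C) :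
    Continuous (tl e R m q k F) ∧ ∀ y, |tl e R m q k F y| ≤ C := by
  obtain ⟨A', h⟩ := Vn_adm he hm q k hk.le
  have hV := h.rpow (hm.mem hk).1.le (hm.mem hk).2
  set c := √(q (R - k) - q (R - (k + 1)))
  have hpos : ∀ y, 0 < ∫ z, Vn e R m q k (y + c * z) ^ m (R - k) ∂gaussianReal 0 1 := fun y =>
    he.a_pos.trans_le (hV.int_pos c y)
  refine ⟨((hV.eg.mul_bdd hc hb).conv c).1.div (hV.eg.conv c).1 fun y => (hpos y).ne', fun y => ?_⟩
  show |(∫ z, Vn e R m q k (y + c * z) ^ m (R - k) * F (y + c * z) ∂gaussianReal 0 1) / _| ≤ C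
  rw [abs_div, abs_of_pos (hpos y), div_le_iff₀ (hpos y), ← integral_const_mul]
  refine abs_integral_le_integral_abs.trans (integral_mono_of_nonneg
    (Eventually.of_forall fun _ => abs_nonneg _) ((hV.eg.int c y).const_mul C)
    (Eventually.of_forall fun z => ?_))
  have hp := he.a_pos.le.trans (hV.lb (y + c * z))
  show |_ * _| ≤ _
  rw [abs_mul, abs_of_nonneg hp]
  exact (mul_le_mul_of_nonneg_left (hb _) hp).trans_eq (mul_comm _ _)

lemma tlN_prop (he : Adm e a A D) {R : ℕ} {m : ℕ → ℝ} (hm : Ex R m) (q : ℕ → ℝ) (k : ℕ)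
    {F : ℝ → ℝ} {C : ℝ} (hc : Continuous F) (hb : ∀ y, |F y| ≤ C) :
    ∀ j, k + j ≤ R → Continuous (tlN e R m q k j F) ∧ ∀ y, |tlN e R m q k j F y| ≤ C
  | 0, _ => ⟨hc, hb⟩
  | j + 1, hj => tl_prop he hm q (by omega) (tlN_prop he hm q k hc hb j (by omega)).1
      (tlN_prop he hm q k hc hb j (by omega)).2

/-! ### the field of the nodes -/

/-- coordinates: prefixes of length at most `R` -/
abbrev Ix (R n : ℕ) : Type := Fin R → Option (Fin (n + 1))

/-- the coordinate of a prefix -/
def key {R n : ℕ} (p : List (Fin (n + 1))) : Ix R n := fun j => p[(j : ℕ)]?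

lemma key_inj {R n : ℕ} {p p' : List (Fin (n + 1))} (hp : p.length ≤ R) (hp' : p'.length ≤ R)
    (h : (key p : Ix R n) = key p') : p = p' := by
  refine List.ext_getElem? fun j => ?_
  by_cases hj : j < R
  · exact congrFun h ⟨j, hj⟩
  · rw [List.getElem?_eq_none (by omega), List.getElem?_eq_none (by omega)]

/-- step sizes -/
noncomputable def cst (q : ℕ → ℝ) : ℕ → ℝ
  | 0 => √(q 0)
  | j + 1 => √(q (j + 1) - q j)

/-- the node field -/
noncomputable def node (R : ℕ) (q : ℕ → ℝ) {n : ℕ} (p : List (Fin (n + 1))) (k : Ix R n) : ℝ :=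
  ∑ j ∈ range (min p.length R + 1), if k = key (p.take j) then cst q j else 0

variable {R n : ℕ} {q : ℕ → ℝ} {V : ℝ}

lemma sum_cst_sq (hq : Prof R q V) : ∀ l, l ≤ R → ∑ j ∈ range (l + 1), cst q j ^ 2 = q l
  | 0, _ => by simp [cst, sq_sqrt hq.zero]
  | l + 1, h => by
    rw [sum_range_succ, sum_cst_sq hq l (by omega), cst,
      sq_sqrt (sub_nonneg.2 (hq.mono l (by omega)))]
    ring

lemma Prof.le_of_le (hq : Prof R q V) {i j : ℕ} (hij : i ≤ j) (hj : j ≤ R) : q i ≤ q j := by
  induction j, hij using Nat.le_induction with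
  | base => rfl
  | succ j hij ih => exact (ih (by omega)).trans (hq.mono j (by omega))

lemma Prof.bd (hq : Prof R q V) {l : ℕ} (hl : l ≤ R) : 0 ≤ q l ∧ q l ≤ V :=
  ⟨hq.zero.trans (hq.le_of_le (Nat.zero_le l) hl), (hq.le_of_le hl le_rfl).trans hq.top⟩

lemma key_take_eq {p p' : List (Fin (n + 1))} {i j : ℕ} (hi : i ≤ min p.length R)
    (hj : j ≤ min p'.length R) :
    (key (p.take i) : Ix R n) = key (p'.take j) ↔ i = j ∧ p.take i = p'.take j := by
  refine ⟨fun h => ?_, fun h => by rw [h.2]⟩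
  have := key_inj (by rw [List.length_take]; omega) (by rw [List.length_take]; omega) h
  exact ⟨by simpa [List.length_take, min_eq_left (hi.trans (min_le_left _ _)),
    min_eq_left (hj.trans (min_le_left _ _))] using congrArg List.length this, this⟩

lemma cv_node_aux (p p' : List (Fin (n + 1))) (h : min p.length R = min p'.length R) :
    cv (node R q) p p' = ∑ j ∈ range (min p.length R + 1),
      if p.take j = p'.take j then cst q j ^ 2 else 0 := by
  simp only [cv, dot, node, sum_mul_sum, ite_mul, zero_mul, mul_ite, mul_zero]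
  rw [sum_comm]
  refine sum_congr rfl fun i hi => ?_
  rw [sum_comm, ← h, sum_eq_single_of_mem i hi]
  · simp only [Finset.sum_ite_eq', mem_univ, if_true]
    have := key_take_eq (R := R) (i := i) (j := i) (p := p) (p' := p')
      (by simpa using hi) (by rw [← h]; simpa using hi)
    by_cases he : p.take i = p'.take i
    · rw [if_pos (this.2 ⟨rfl, he⟩).symm, if_pos he, sq]
    · rw [if_neg (fun hk => he (this.1 hk.symm).2), if_neg he]
  · intro j hj hji
    simp only [Finset.sum_ite_eq', mem_univ, if_true]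
    rw [if_neg fun hk => hji ?_]
    exact ((key_take_eq (by rw [← h]; simpa using hj) (by simpa using hi)).1 hk).1

lemma cv_node_self (hq : Prof R q V) (p : List (Fin (n + 1))) :
    cv (node R q) p p = q (min p.length R) := by
  rw [cv_node_aux p p rfl, ← sum_cst_sq hq _ (min_le_right _ _)]
  exact sum_congr rfl fun j _ => if_pos rfl

lemma cv_node_le (hq : Prof R q V) (p : List (Fin (n + 1))) : cv (node R q) p p ≤ V :=
  (cv_node_self hq p).trans_le (hq.bd (min_le_right _ _)).2

/-- two replicas splitting at level `l` -/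
lemma cv_node_split (hq : Prof R q V) {p p' : List (Fin (n + 1))} (hp : p.length = R)
    (hp' : p'.length = R) {l : ℕ} (hl : l ≤ R) (h : p.take l = p'.take l) :
    |cv (node R q) p p' - q l| ≤
      if l < R ∧ p.take (l + 1) = p'.take (l + 1) then V else 0 := by
  rw [cv_node_aux p p' (by omega), hp, min_self, ← sum_cst_sq hq l hl,
    ← sum_range_add_sum_Ico _ (show l + 1 ≤ R + 1 by omega)]
  have e : ∀ j ∈ range (l + 1), (if p.take j = p'.take j then cst q j ^ 2 else 0) = cst q j ^ 2 :=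
    fun j hj => if_pos (Vale.Agent.P168.MP.take_of_le h (by simp at hj; omega))
  rw [sum_congr rfl e, add_sub_cancel_left]
  have hV := (hq.bd le_rfl).1.trans (hq.bd le_rfl).2
  have h0 : 0 ≤ ∑ j ∈ Ico (l + 1) (R + 1), if p.take j = p'.take j then cst q j ^ 2 else 0 :=
    sum_nonneg fun j _ => by positivity
  rw [abs_of_nonneg h0]
  by_cases hc : l < R ∧ p.take (l + 1) = p'.take (l + 1)
  · rw [if_pos hc]
    refine (sum_le_sum_of_subset_of_nonneg (t := range (R + 1)) (fun j hj => by simp at hj ⊢; omega)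
      fun j _ _ => by positivity).trans ?_
    refine ((sum_le_sum fun j _ => ?_).trans_eq (sum_cst_sq hq R le_rfl)).trans hq.top
    split_ifs <;> [rfl; positivity]
  · rw [if_neg hc]
    refine le_of_eq (sum_eq_zero fun j hj => if_neg fun he => hc ?_)
    simp at hj
    exact ⟨by omega, Vale.Agent.P168.MP.take_of_le he (by omega)⟩

/-- the mean collision probability -/
lemma node_dev (m : ℕ → ℝ) (hq : Prof R q V) {l : ℕ} (hl : l ≤ R) {p : List (Fin (n + 1))}
    (hp : p.length = R) :
    ext m (fun _ => 1) (R - l) (p.take l) (fun p' => |cv (node R q) p p' - q l|) ≤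
      V / (n + 1) := by
  have hV : 0 ≤ V := (hq.bd le_rfl).1.trans (hq.bd le_rfl).2
  have hlen : (p.take l).length = l := by simp [hp, hl]
  have hb : ∀ suf : List (Fin (n + 1)), suf.length = R - l →
      |cv (node R q) p (p.take l ++ suf) - q l| ≤
        if l < R ∧ p.take (l + 1) = (p.take l ++ suf).take (l + 1) then V else 0 := fun suf hs =>
    cv_node_split hq hp (by simp [hlen, hs, hl]) hl (by rw [List.take_left' hlen])
  refine (Vale.Agent.P168.MP.ext_mono_on (G := fun p' =>
      if l < R ∧ p.take (l + 1) = p'.take (l + 1) then V else 0) (fun _ => one_pos) hb).trans ?_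
  rcases hl.lt_or_eq with hlR | rfl
  · obtain ⟨k, hk⟩ := Nat.exists_eq_add_of_lt hlR
    rw [show R - l = k + 1 by omega, Vale.Agent.P168.MP.ext_succ]
    have hstep : ∀ o, ext m (fun _ => 1) k (p.take l ++ [o])
        (fun p' => if l < R ∧ p.take (l + 1) = p'.take (l + 1) then V else 0) =
        if p.take (l + 1) = p.take l ++ [o] then V else 0 := fun o => by
      refine Eq.trans (Vale.Agent.P168.MP.ext_congr fun suf _ => ?_)
        (Vale.Agent.P168.MP.ext_const (fun _ => one_pos) _ _ _)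
      have e : (p.take l ++ [o] ++ suf).take (l + 1) = p.take l ++ [o] :=
        List.take_left' (by simp [hlen])
      simp only [e, hlR, true_and]
    have e : ∀ o, (p.take (l + 1) = p.take l ++ [o]) ↔ o = p[l]'(by omega) := fun o => by
      rw [List.take_succ_eq_append_getElem (by omega)]
      rw [List.append_cancel_left_eq, List.singleton_inj, eq_comm]
    simp only [hstep, Vale.Agent.P168.MP.trans_one, Fintype.card_fin, e, mul_ite, mul_zero,
      Finset.sum_ite_eq', mem_univ, if_true, Nat.cast_add, Nat.cast_one]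
    exact le_of_eq (by ring)
  · simp; positivity

lemma node_step {pre : List (Fin (n + 1))} (hl : pre.length < R) (o : Fin (n + 1)) :
    node R q (pre ++ [o]) = fun k => node R q pre k +
      (if k = key (pre ++ [o]) then cst q (pre.length + 1) else 0) := by
  funext k
  simp only [node]
  rw [show min (pre ++ [o]).length R = pre.length + 1 by simp; omega,
    show min pre.length R = pre.length by omega, sum_range_succ _ (pre.length + 1)]
  refine congrArg₂ (· + ·) (sum_congr rfl fun j hj => ?_) ?_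
  · rw [List.take_append_of_le_length (by simp at hj; omega)]
  · rw [List.take_of_length_le (by simp)]

lemma node_key {pre : List (Fin (n + 1))} (hl : pre.length < R) (o : Fin (n + 1)) :
    node R q pre (key (pre ++ [o])) = 0 := by
  refine sum_eq_zero fun j hj => if_neg fun h => ?_
  simp at hj
  have := congrArg List.length
    (key_inj (R := R) (by simp; omega) (by simp; omega) h)
  simp at this; omega

lemma dot_node_step {pre : List (Fin (n + 1))} (hl : pre.length < R) (o : Fin (n + 1))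
    (g : Ix R n → ℝ) : dot (node R q (pre ++ [o])) g =
      dot (node R q pre) g + cst q (pre.length + 1) * g (key (pre ++ [o])) := by
  simp [node_step hl o, dot, add_mul, sum_add_distrib, ite_mul]

/-! ### growth and integrals in the node space -/

/-- continuous, of at most exponential growth -/
def GR {ι : Type*} [Fintype ι] (X : (ι → ℝ) → ℝ) : Prop :=
  Continuous X ∧ ∃ A M, ∀ g, |X g| ≤ A * exp (M * l1 g)

section
variable {ι : Type*} [Fintype ι] {X Y : (ι → ℝ) → ℝ}

lemma GR.int (h : GR X) : Integrable X (gauss ι) :=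
  h.2.elim fun _ h' => h'.elim fun _ hb => Vale.Agent.P150.integrable_of_bound h.1 hb

lemma GR.mul_bdd (h : GR X) (hc : Continuous Y) {C : ℝ} (hb : ∀ g, |Y g| ≤ C) :
    GR fun g => X g * Y g := by
  obtain ⟨hx, A, M, hA⟩ := h
  refine ⟨hx.mul hc, A * C, M, fun g => ?_⟩
  rw [abs_mul, mul_right_comm]
  exact mul_le_mul (hA g) (hb g) (abs_nonneg _) ((abs_nonneg _).trans (hA g))

lemma GR.sub (hX : GR X) (hY : GR Y) : GR fun g => X g - Y g := by
  obtain ⟨hx, A, M, hA⟩ := hX
  obtain ⟨hy, A', M', hA'⟩ := hY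
  refine ⟨hx.sub hy, |A| + |A'|, max M M', fun g => (abs_sub _ _).trans ?_⟩
  rw [add_mul]
  refine add_le_add ((hA g).trans ?_) ((hA' g).trans ?_)
  · exact mul_le_mul (le_abs_self A) (exp_le_exp.2 (mul_le_mul_of_nonneg_right (le_max_left _ _)
      (Vale.Agent.P150.l1_nonneg g))) (exp_pos _).le (abs_nonneg _)
  · exact mul_le_mul (le_abs_self A') (exp_le_exp.2 (mul_le_mul_of_nonneg_right (le_max_right _ _)
      (Vale.Agent.P150.l1_nonneg g))) (exp_pos _).le (abs_nonneg _)

lemma GR.dot {h : ℝ → ℝ} (hh : EG h) (u : ι → ℝ) :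
    GR fun g => h (Vale.Agent.P150.dot u g) := by
  obtain ⟨hc, A, M, hM, hA⟩ := hh
  refine ⟨hc.comp (by unfold Vale.Agent.P150.dot; fun_prop), A, M * l1 u, fun g => (hA _).trans ?_⟩
  rw [mul_assoc M]
  exact mul_le_mul_of_nonneg_left (exp_le_exp.2 (mul_le_mul_of_nonneg_left
    (Vale.Agent.P150.abs_dot_le (fun k => Vale.Agent.P150.abs_le_l1 u k) g) hM))
    (nonneg_of_mul_nonneg_left ((abs_nonneg _).trans (hA 0)) (exp_pos _))

lemma moment_dot {h : ℝ → ℝ} {A M : ℝ} (hA : ∀ y, |h y| ≤ A * exp (M * |y|)) {u : ι → ℝ}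
    {V : ℝ} (hu : dot u u ≤ V) :
    ∫ g, |h (dot u g)| ∂gauss ι ≤ 2 * A * exp (M ^ 2 * V / 2) := by
  have hA0 : 0 ≤ A := nonneg_of_mul_nonneg_left ((abs_nonneg _).trans (hA 0)) (exp_pos _)
  have hi : ∀ M, Integrable (fun g => exp (M * dot u g)) (gauss ι) := fun M => by
    refine Vale.Agent.P150.integrable_of_bound (by unfold Vale.Agent.P150.dot; fun_prop) (C := 1)
      (M := |M| * l1 u) fun g => ?_
    rw [Real.abs_exp, one_mul, exp_le_exp, mul_assoc]
    refine (le_abs_self _).trans ?_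
    rw [abs_mul]
    exact mul_le_mul_of_nonneg_left
      (Vale.Agent.P150.abs_dot_le (fun k => Vale.Agent.P150.abs_le_l1 u k) g) (abs_nonneg _)
  have hm : ∀ M : ℝ, ∫ g, exp (M * dot u g) ∂gauss ι ≤ exp (M ^ 2 * V / 2) := fun M => by
    have e : ∀ g : ι → ℝ, M * dot u g = dot (fun k => M * u k) g := fun g => by
      simp [Vale.Agent.P150.dot, mul_sum, mul_assoc]
    simp only [e, Vale.Agent.P150.mgf_dot, exp_le_exp]
    refine div_le_div_of_nonneg_right ?_ two_pos.le
    simp only [mul_pow, ← mul_sum]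
    refine mul_le_mul_of_nonneg_left ?_ (sq_nonneg M)
    simpa [Vale.Agent.P150.dot, sq] using hu
  refine (integral_mono_of_nonneg (Eventually.of_forall fun _ => abs_nonneg _)
    (((hi M).add (hi (-M))).const_mul A) (Eventually.of_forall fun g => (hA _).trans
      (mul_le_mul_of_nonneg_left ?_ hA0))).trans ?_
  · simp only [Pi.add_apply]
    rcases abs_choice (dot u g) with h | h <;> rw [h] <;> simp only [mul_neg, neg_mul] <;>
      linarith [exp_pos (M * dot u g), exp_pos (-(M * dot u g))]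
  · rw [integral_const_mul, integral_add' (hi M) (hi (-M))]
    calc A * _ ≤ A * (exp (M ^ 2 * V / 2) + exp ((-M) ^ 2 * V / 2)) :=
          mul_le_mul_of_nonneg_left (add_le_add (hm M) (hm (-M))) hA0
      _ = _ := by rw [neg_sq]; ring

lemma gauss_update [DecidableEq ι] (k : ι) {F : (ι → ℝ) → ℝ} (hF : Continuous F)
    (hi : Integrable F (gauss ι)) :
    ∫ g, F g ∂gauss ι = ∫ g, ∫ t, F (Function.update g k t) ∂gaussianReal 0 1 ∂gauss ι := by
  have hi' : Integrable (fun p : (ι → ℝ) × ℝ => F (Function.update p.1 k p.2))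
      ((gauss ι).prod (gaussianReal 0 1)) :=
    (Vale.Agent.P150.resample k).integrable_comp_of_integrable hi
  rw [← integral_prod (fun p : (ι → ℝ) × ℝ => F (Function.update p.1 k p.2)) hi']
  conv_lhs => rw [← (Vale.Agent.P150.resample k).map_eq]
  exact integral_map (Vale.Agent.P150.resample k).measurable.aemeasurable hF.aestronglyMeasurable

end

/-! ### the law of large numbers at one node -/

lemma lln (hq : Prof R q V) {h : ℝ → ℝ} (hh : EG h) {l : ℕ} (hl : l < R) :
    ∃ K, ∀ (n : ℕ) (pre : List (Fin (n + 1))), pre.length = l → ∀ t > 0,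
      ∫ g, |avg (fun o => h (dot (node R q (pre ++ [o])) g)) -
          ∫ z, h (dot (node R q pre) g + cst q (l + 1) * z) ∂gaussianReal 0 1| ∂gauss (Ix R n) ≤
        t + K / t / (n + 1) := by
  set c := cst q (l + 1)
  set Hn := fun y => ∫ z, h (y + c * z) ∂gaussianReal 0 1 with hHn
  obtain ⟨-, A₁, M₁, -, hA₁⟩ := hh.sq
  obtain ⟨-, A₂, M₂, -, hA₂⟩ := (hh.conv c).sq
  refine ⟨(2 * (2 * A₁ * exp (M₁ ^ 2 * V / 2)) + 2 * (2 * A₂ * exp (M₂ ^ 2 * V / 2))) / 4,
    fun n pre hpre t ht => ?_⟩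
  set K := 2 * (2 * A₁ * exp (M₁ ^ 2 * V / 2)) + 2 * (2 * A₂ * exp (M₂ ^ 2 * V / 2))
  set u := node R q pre
  set φ := fun o (g : Ix R n → ℝ) => h (dot (node R q (pre ++ [o])) g) - Hn (dot u g)
  have hlR : pre.length < R := hpre ▸ hl
  have hφ : ∀ o, GR (φ o) := fun o => (GR.dot hh _).sub (GR.dot (hh.conv c) u)
  have hsq : ∀ o, GR (fun g => φ o g * φ o g) := fun o => by
    obtain ⟨hc, B, M, hB⟩ := hφ o
    refine ⟨hc.mul hc, B * B, 2 * M, fun g => ?_⟩
    rw [abs_mul, mul_assoc 2, two_mul, exp_add]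
    exact (mul_le_mul (hB g) (hB g) (abs_nonneg _) ((abs_nonneg _).trans (hB g))).trans_eq (by ring)
  have hprod : ∀ o o', GR (fun g => φ o g * φ o' g) := fun o o' => by
    obtain ⟨hc, B, M, hB⟩ := hφ o
    obtain ⟨hc', B', M', hB'⟩ := hφ o'
    refine ⟨hc.mul hc', B * B', M + M', fun g => ?_⟩
    rw [abs_mul, add_mul, exp_add]
    exact (mul_le_mul (hB g) (hB' g) (abs_nonneg _) ((abs_nonneg _).trans (hB g))).trans_eq (by ring)
  have horth : ∀ o o', o ≠ o' → ∫ g, φ o g * φ o' g ∂gauss (Ix R n) = 0 := by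
    intro o o' hne
    rw [gauss_update (key (pre ++ [o])) (hprod o o').1 (hprod o o').int]
    refine integral_eq_zero_of_ae (Eventually.of_forall fun g => ?_)
    have hu : ∀ (v : Ix R n → ℝ) t, v (key (pre ++ [o])) = 0 →
        dot v (Function.update g (key (pre ++ [o])) t) = dot v g := fun v t hv =>
      sum_congr rfl fun k _ => by
        rcases eq_or_ne k (key (pre ++ [o])) with rfl | hk
        · simp [hv]
        · rw [Function.update_of_ne hk]
    have hne' : (key (pre ++ [o]) : Ix R n) ≠ key (pre ++ [o']) := fun h =>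
      hne (by simpa using key_inj (R := R) (by simp; omega) (by simp; omega) h)
    simp only [Pi.zero_apply, φ, dot_node_step hlR, hpre, hu u _ (node_key hlR o), u,
      Function.update_self, Function.update_of_ne hne'.symm]
    rw [integral_mul_const, integral_sub (hh.int c _) (integrable_const _), integral_const]
    simp [hHn, c]
  have hdiag : ∀ o, ∫ g, φ o g * φ o g ∂gauss (Ix R n) ≤ K := fun o => by
    have h1 := moment_dot hA₁ (cv_node_le hq (pre ++ [o]))
    have h2 := moment_dot hA₂ (cv_node_le hq pre)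
    have i1 := (GR.dot hh.sq (node R q (pre ++ [o]))).int
    have i2 := (GR.dot (hh.conv c).sq u).int
    simp only [abs_pow, sq_abs] at h1 h2
    refine (integral_mono (hsq o).int ((i1.const_mul 2).add (i2.const_mul 2)) fun g => ?_).trans ?_
    · simp only [Pi.add_apply, φ]
      nlinarith [sq_nonneg (h (dot (node R q (pre ++ [o])) g) + Hn (dot u g))]
    · rw [integral_add' (i1.const_mul 2) (i2.const_mul 2), integral_const_mul, integral_const_mul]
      exact add_le_add (mul_le_mul_of_nonneg_left h1 two_pos.le)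
        (mul_le_mul_of_nonneg_left h2 two_pos.le)
  have hn : (0:ℝ) < n + 1 := by positivity
  have e : ∀ g, avg (fun o => h (dot (node R q (pre ++ [o])) g)) - Hn (dot u g) =
      (∑ o, φ o g) / (n + 1) := fun g => by
    simp only [avg, φ, sum_sub_distrib, sum_const, card_univ, Fintype.card_fin, nsmul_eq_mul,
      Nat.cast_add, Nat.cast_one]
    field_simp
  have hi2 : Integrable (fun g => ∑ o, ∑ o', φ o g * φ o' g) (gauss (Ix R n)) :=
    integrable_finsetSum _ fun o _ => integrable_finsetSum _ fun o' _ => (hprod o o').int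
  refine (integral_mono_of_nonneg (Eventually.of_forall fun _ => abs_nonneg _)
    ((integrable_const t).add (hi2.const_mul (1 / (4 * t * (n + 1) ^ 2))))
    (Eventually.of_forall fun g => ?_)).trans ?_
  · simp only [Pi.add_apply]
    rw [show (∫ z, h (dot (node R q pre) g + c * z) ∂gaussianReal 0 1) = Hn (dot u g) from rfl,
      e g, ← sum_mul_sum, ← sq]
    set x := ∑ o, φ o g
    have key : |x / (n + 1)| ≤ t + (x / (n + 1)) ^ 2 / (4 * t) := by
      rw [← sub_nonneg, show t + (x / (n + 1)) ^ 2 / (4 * t) - |x / (n + 1)| =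
        (2 * t - |x / (n + 1)|) ^ 2 / (4 * t) by rw [sub_sq, sq_abs]; field_simp; ring]
      positivity
    exact key.trans_eq (by field_simp)
  · rw [integral_add' (integrable_const t) (hi2.const_mul _), integral_const, probReal_univ,
      one_smul, integral_const_mul, integral_finsetSum _ fun o _ =>
        integrable_finsetSum _ fun o' _ => (hprod o o').int]
    refine add_le_add le_rfl ?_
    have hs : ∀ o, ∫ g, ∑ o', φ o g * φ o' g ∂gauss (Ix R n) ≤ K := fun o => by
      rw [integral_finsetSum _ fun o' _ => (hprod o o').int,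
        sum_eq_single o (fun o' _ hne => horth o o' hne.symm) (by simp)]
      exact hdiag o
    calc _ ≤ 1 / (4 * t * (n + 1) ^ 2) * ∑ _o : Fin (n + 1), K :=
          mul_le_mul_of_nonneg_left (sum_le_sum fun o _ => hs o) (by positivity)
      _ = _ := by simp; field_simp

end Vale.Agent.P157.Par
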