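import Vale.Agent.P157.Defs
import Vale.Agent.P150.GaussCalc
import Vale.Agent.P168.MP.Shape
import Vale.Agent.P168.MP.Prod
import Vale.Agent.P157.Lim.Main

/-! Objects of the hierarchical (Parisi-type) formula for the perceptron pressure. Levels are `0..R`, with exponent
`m l` at level `l` (`m R = 1`); a trial is a monotone `q` with `q R = 1`. -/

open MeasureTheory ProbabilityTheory Real
open Vale.Agent.P150 (gauss dot)
open Vale.Agent.P168.MP (lin ET)

namespace Vale.Agent.P157.Par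

/-- nested power means: `Vn e R m q k y` is the value `k` levels below the top, at local field `y` -/
noncomputable def Vn (e : ℝ → ℝ) (R : ℕ) (m q : ℕ → ℝ) : ℕ → ℝ → ℝ
  | 0, y => e y
  | k + 1, y => (∫ z, Vn e R m q k (y + √(q (R - k) - q (R - (k + 1))) * z) ^ m (R - k)
      ∂gaussianReal 0 1) ^ (1 / m (R - k))

/-- one tilted step: from level `R - (k + 1)` to level `R - k` -/
noncomputable def tl (e : ℝ → ℝ) (R : ℕ) (m q : ℕ → ℝ) (k : ℕ) (F : ℝ → ℝ) (y : ℝ) : ℝ :=
  (∫ z, Vn e R m q k (y + √(q (R - k) - q (R - (k + 1))) * z) ^ m (R - k) *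
      F (y + √(q (R - k) - q (R - (k + 1))) * z) ∂gaussianReal 0 1) /
    ∫ z, Vn e R m q k (y + √(q (R - k) - q (R - (k + 1))) * z) ^ m (R - k) ∂gaussianReal 0 1

/-- `j` tilted steps ending at the level `R - k` -/
noncomputable def tlN (e : ℝ → ℝ) (R : ℕ) (m q : ℕ → ℝ) (k : ℕ) : ℕ → (ℝ → ℝ) → ℝ → ℝ
  | 0, F => F
  | j + 1, F => tl e R m q (k + j) (tlN e R m q k j F)

/-- the nested functional -/
noncomputable def Phi (e : ℝ → ℝ) (R : ℕ) (m q : ℕ → ℝ) : ℝ :=
  ∫ z, Real.log (Vn e R m q R (√(q 0) * z)) ∂gaussianReal 0 1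

/-- correlation of `h` between two replicas splitting at level `l` -/
noncomputable def Gamma (e h : ℝ → ℝ) (R : ℕ) (m q : ℕ → ℝ) (l : ℕ) : ℝ :=
  ∫ z, tlN e R m q (R - l) l (fun y => tlN e R m q 0 (R - l) h y ^ 2) (√(q 0) * z) ∂gaussianReal 0 1

/-- the functional of a trial, `Γ = Gamma (exp ∘ f) f'`; equal to `Parisi.parisiValue` -/
noncomputable def Fval (α : ℝ) (f : ℝ → ℝ) (R : ℕ) (m q : ℕ → ℝ) : ℝ :=
  α * Phi (fun y => Real.exp (f y)) R m q +
      Phi Real.cosh R m (fun l => α * Gamma (fun y => Real.exp (f y)) (deriv f) R m q l) -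
    α / 2 * (Gamma (fun y => Real.exp (f y)) (deriv f) R m q R +
      ∑ l ∈ Finset.range R,
        ((if l = 0 then 0 else m l) - m (l + 1)) * (Gamma (fun y => Real.exp (f y)) (deriv f) R m q l * q l))

/-- an admissible covariance profile -/
structure Prof (R : ℕ) (q : ℕ → ℝ) (V : ℝ) : Prop where
  zero : 0 ≤ q 0
  mono : ∀ l, l < R → q l ≤ q (l + 1)
  top : q R ≤ V

/-- a potential with bounded derivatives, bounded below -/
structure Sm (f f1 f2 f3 : ℝ → ℝ) (B D : ℝ) : Prop where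
  d0 : ∀ x, HasDerivAt f (f1 x) x
  d1 : ∀ x, HasDerivAt f1 (f2 x) x
  d2 : ∀ x, HasDerivAt f2 (f3 x) x
  cont3 : Continuous f3
  lb : ∀ x, -B ≤ f x
  b1 : ∀ x, |f1 x| ≤ D
  b2 : ∀ x, |f2 x| ≤ D
  b3 : ∀ x, |f3 x| ≤ D

variable {Ω : Type*} [Fintype Ω]

/-- mean distance of a covariance kernel from a profile, for two replicas splitting at level `l` -/
noncomputable def devOf (R : ℕ) (w : List Ω → ℝ) (C : List Ω → List Ω → ℝ) (q : ℕ → ℝ) (l : ℕ) : ℝ :=
  ET R (lin R) w [(0, l), (0, 0)] fun ps => |C (ps.getD 0 []) (ps.getD 1 []) - q l|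

/-- average distance over the levels, plus the distance on the diagonal -/
noncomputable def adev (R : ℕ) (w : List Ω → ℝ) (C : List Ω → List Ω → ℝ) (q : ℕ → ℝ) : ℝ :=
  (∑ l ∈ Finset.range R, devOf R w C q l) / R + devOf R w C q R

variable {N : ℕ}

/-- overlap -/
noncomputable def ov (σ τ : Fin N → Bool) : ℝ :=
  Vale.Agent.P168.MP.avg fun v => Vale.Agent.P168.sg (σ v) * Vale.Agent.P168.sg (τ v)

/-- the overlap kernel of a reading of the paths -/
noncomputable def ovK (rd : List Ω → Fin N → Bool) (p p' : List Ω) : ℝ := ov (rd p) (rd p')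

/-- mean overlap at level `l` -/
noncomputable def qlev (R : ℕ) (w : List Ω → ℝ) (rd : List Ω → Fin N → Bool) (l : ℕ) : ℝ :=
  ET R (lin R) w [(0, l), (0, 0)] fun ps => ovK rd (ps.getD 0 []) (ps.getD 1 [])

/-- covariance kernel of a family of coefficient vectors -/
def cv {ι : Type*} [Fintype ι] (a : List Ω → ι → ℝ) (p p' : List Ω) : ℝ := dot (a p) (a p')

/-- difference of two covariance kernels -/
def dd {ι κ : Type*} [Fintype ι] [Fintype κ] (a : List Ω → ι → ℝ) (b : List Ω → κ → ℝ)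
    (p p' : List Ω) : ℝ := cv a p p' - cv b p p'

/-- the factor of a Gaussian field -/
noncomputable def fac {ι : Type*} [Fintype ι] (f : ℝ → ℝ) (a : List Ω → ι → ℝ) (g : ι → ℝ)
    (p : List Ω) : ℝ := Real.exp (f (dot (a p) g))

/-- `M` patterns in coordinates -/
noncomputable def pats (N M : ℕ) : Measure (Fin M → Fin N → ℝ) :=
  Measure.pi fun _ => gauss (Fin N)

/-- the weight of the patterns -/
noncomputable def ham (f : ℝ → ℝ) {M : ℕ} (g : Fin M → Fin N → ℝ) (σ : Fin N → Bool) : ℝ :=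
  Real.exp (∑ a, f (dot (Vale.Agent.P157.Lim.xv N σ) (g a)))

/-- overlap of the derivatives of the potential over the patterns -/
noncomputable def qK (f1 : ℝ → ℝ) (rd : List Ω → Fin N → Bool) {M : ℕ} (g : Fin M → Fin N → ℝ)
    (p p' : List Ω) : ℝ :=
  (∑ a, f1 (dot (Vale.Agent.P157.Lim.xv N (rd p)) (g a)) *
    f1 (dot (Vale.Agent.P157.Lim.xv N (rd p')) (g a))) / M

end Vale.Agent.P157.Par
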