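import Vale.Agent.P157.Par.Upper
import Vale.Agent.P157.Lim.Two
import Vale.Agent.P166.Par.NestConcave

/-! The slope inequality, hence the upper bound, for small smooth potentials with a positive two-point
function: flat concavity passes to the nested functionals. -/

open MeasureTheory ProbabilityTheory Filter Finset
open scoped Topology
open Vale.Agent.P150 (gauss dot)
open Vale.Agent.P168.MP (Ok)
open Vale.Agent.P157.Lim (cvec Pot PairPos)

namespace Vale.Agent.P157.Par

variable {f f1 f2 f3 : ℝ → ℝ} {δ : ℝ} {R : ℕ} {m : ℕ → ℝ}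

lemma Sm.of_pot (hP : Pot f f1 f2 f3 δ) : Sm f f1 f2 f3 δ δ :=
  ⟨hP.d0, hP.d1, hP.d2, hP.cont3, fun x => (abs_le.1 (hP.b0 x)).1, hP.b1, hP.b2, hP.b3⟩

/-- small potentials with a positive two-point function have the slope inequality -/
theorem slope_small (hP : Pot f f1 f2 f3 δ) (hδ : δ ≤ 1 / 8)
    (hpair : ∀ {ι : Type} [Fintype ι], PairPos ι f1 f2 δ) (hR : 1 ≤ R) : Slope f f1 R m 0 := by
  refine slope_of_tangent (Sm.of_pot hP).sd hR fun {Ω ι κ} _ _ _ _ w hw a b ha hb => ?_
  obtain ⟨hG, hG', hd⟩ := hasDerivAt_value (Sm.of_pot hP).sd hR hw a b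
  have hc : ∀ t ∈ Set.Ioo (0 : ℝ) 1,
      t * P166.Par.Gn f R m w a b 1 + (1 - t) * P166.Par.Gn f R m w a b 0 ≤ P166.Par.Gn f R m w a b t := by
    intro t ht
    obtain ⟨J, inst, c, π, hc, hπ, -, -, hlim⟩ := P166.Par.nest_lim hR hw
    have hf : Continuous f := continuous_iff_continuousAt.2 fun x => (hP.d0 x).continuousAt
    have L := fun u => hlim f (fun p => cvec a b u p) hf fun p =>
      Integrable.of_bound (hf.comp (continuous_dot_left _)).aestronglyMeasurable δ
        (Eventually.of_forall fun g => by simpa using hP.b0 (dot (cvec a b u p) g))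
    refine le_of_tendsto_of_tendsto' (((L 1).const_mul t).add ((L 0).const_mul (1 - t))) (L t) fun n => ?_
    simp only [mul_sum, ← sum_add_distrib]
    refine sum_le_sum fun j _ => ?_
    rw [mul_left_comm t, mul_left_comm (1 - t), ← mul_add]
    refine mul_le_mul_of_nonneg_left ?_ (hc n j)
    exact Lim.phi_step (W := π n j) (a := fun p : Fin R → Ω => a (List.ofFn p))
      (b := fun p : Fin R → Ω => b (List.ofFn p)) hP (hπ n j) hδ hpair
      (fun p => ha _ (by simp)) (fun p => hb _ (by simp)) ht.1.le ht.2.le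
  have := slope_le hG hG' hd hc
  simpa [P166.Par.Gn] using this

/-- the upper bound for small potentials with a positive two-point function -/
theorem upper_bound_small (hP : Pot f f1 f2 f3 δ) (hδ : δ ≤ 1 / 8)
    (hpair : ∀ {ι : Type} [Fintype ι], PairPos ι f1 f2 δ) {q : ℕ → ℝ} (hR : 1 ≤ R)
    (hm : ∀ {Ω : Type} (w : List Ω → ℝ), (∀ p, 0 < w p) → Ok R m w)
    (hq : Monotone q) (h0 : 0 ≤ q 0) (h1 : q R = 1) {α : ℝ} (hα : 0 < α) :
    ∃ K : ℝ, ∀ N M : ℕ, 1 ≤ N → pressure (isingUniform N) f M ≤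
      Fval α f R m q + K * (√(M : ℝ) + 1 + |(M : ℝ) - α * N|) / N := by
  obtain ⟨K, hK⟩ := upper_bound_of_slope (Sm.of_pot hP) (fun x => (abs_le.1 (hP.b0 x)).2) hR hm hq h0 h1
    le_rfl (slope_small hP hδ hpair hR) hα
  exact ⟨K, fun N M hN => by simpa using hK N M hN⟩

end Vale.Agent.P157.Par
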