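import Vale.Agent.P157.Par.Main
import Vale.Agent.P157.Par.UpperSmall

/-! The Parisi formula for the small smooth potentials with a positive two-point function. -/

open MeasureTheory ProbabilityTheory Real Filter
open scoped Topology

namespace Vale.Agent.P157.Par

variable {f f1 f2 f3 : ℝ → ℝ} {B D δ : ℝ}

/-- an upper bound by every trial up to `O(√M / N)` and the lower bound give the limit -/
theorem tendsto_of_upper (hS : Sm f f1 f2 f3 B D) (hB : ∀ x, f x ≤ B) {α : ℝ} (hα : 0 < α)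
    (hU : ∀ {R : ℕ} {m q : ℕ → ℝ}, 1 ≤ R →
      (∀ {Ω : Type} (w : List Ω → ℝ), (∀ p, 0 < w p) → Vale.Agent.P168.MP.Ok R m w) →
      Monotone q → 0 ≤ q 0 → q R = 1 → ∃ K : ℝ, ∀ N M : ℕ, 1 ≤ N → pressure (isingUniform N) f M ≤
        Fval α f R m q + K * (√(M : ℝ) + 1 + |(M : ℝ) - α * N|) / N) :
    Tendsto (fun N : ℕ => pressure (isingUniform N) f ⌊α * N⌋₊) atTop
      (𝓝 (sInf (Parisi.parisiValues (fun y => exp (f y)) α))) := by
  set s := sInf (Parisi.parisiValues (fun y => exp (f y)) α)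
  rw [Metric.tendsto_nhds]
  intro ε hε
  obtain ⟨v, hv, hvs⟩ : ∃ v ∈ Parisi.parisiValues (fun y => exp (f y)) α, v < s + ε / 4 :=
    exists_lt_of_csInf_lt (values_nonempty _ _) (by linarith)
  obtain ⟨R, m, q, hR, hm, hq, hq0, hqR, rfl⟩ := exists_fval hS hB hα.le hv
  obtain ⟨K, hK⟩ := hU hR hm hq hq0 hqR
  set A := |K| * (√α + 2)
  obtain ⟨n₀, hn₀⟩ := exists_nat_ge (A / (ε / 4))
  filter_upwards [lower_bound hS hB hα (ε / 2) (by positivity), eventually_ge_atTop (max 1 (n₀ ^ 2))]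
    with N hlow hN
  have hN1 : 1 ≤ N := le_of_max_le_left hN
  have hN0 : (0:ℝ) < N := by exact_mod_cast hN1
  have hsN : (n₀ : ℝ) ≤ √N := Real.le_sqrt_of_sq_le (by exact_mod_cast le_of_max_le_right hN)
  have hs1 : 1 ≤ √(N:ℝ) := Real.one_le_sqrt.2 (by exact_mod_cast hN1)
  have hfl : (⌊α * N⌋₊ : ℝ) ≤ α * N := Nat.floor_le (by positivity)
  have hfl2 : |(⌊α * N⌋₊ : ℝ) - α * N| ≤ 1 := by
    rw [abs_le]; constructor <;> linarith [Nat.lt_floor_add_one (α * N)]
  have h1 : √(⌊α * N⌋₊ : ℝ) + 1 + |(⌊α * N⌋₊ : ℝ) - α * N| ≤ (√α + 2) * √N := by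
    have := Real.sqrt_le_sqrt hfl
    rw [Real.sqrt_mul hα.le] at this
    nlinarith
  have h2 : A * √N ≤ ε / 4 * N := by
    rw [div_le_iff₀ (by positivity)] at hn₀
    calc A * √N ≤ √N * (ε / 4) * √N :=
          mul_le_mul_of_nonneg_right (hn₀.trans (mul_le_mul_of_nonneg_right hsN (by positivity))) (Real.sqrt_nonneg _)
      _ = ε / 4 * (√N * √N) := by ring
      _ = ε / 4 * N := by rw [Real.mul_self_sqrt hN0.le]
  have h3 : K * (√(⌊α * N⌋₊ : ℝ) + 1 + |(⌊α * N⌋₊ : ℝ) - α * N|) / N ≤ ε / 4 := by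
    rw [div_le_iff₀ hN0]
    refine (mul_le_mul_of_nonneg_right (le_abs_self K) (by positivity)).trans ?_
    exact (mul_le_mul_of_nonneg_left h1 (abs_nonneg K)).trans ((le_of_eq (mul_assoc _ _ _).symm).trans h2)
  have h4 := hK N ⌊α * N⌋₊ hN1
  rw [Real.dist_eq, abs_lt]
  constructor <;> linarith

/-- **The formula for small potentials**: at every density the pressure tends to the infimum of the
Parisi functional -/
theorem small_limit (hP : Lim.Pot f f1 f2 f3 δ) (hδ : δ ≤ 1 / 8)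
    (hpair : ∀ {ι : Type} [Fintype ι], Lim.PairPos ι f1 f2 δ) {α : ℝ} (hα : 0 < α) :
    Tendsto (fun N : ℕ => pressure (isingUniform N) f ⌊α * N⌋₊) atTop
      (𝓝 (sInf (Parisi.parisiValues (fun y => exp (f y)) α))) :=
  tendsto_of_upper (Sm.of_pot hP) (fun x => (abs_le.1 (hP.b0 x)).2) hα fun hR hm hq h0 h1 =>
    upper_bound_small hP hδ hpair hR hm hq h0 h1 hα

end Vale.Agent.P157.Par
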