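import Vale.Agent.P157.Par.Shift
import Vale.Agent.P168.MP.Grow
import Vale.Agent.P168.MP.NestC
import Vale.Agent.P168.MP.Cavity

/-! One more site: the patterns get one more coordinate, and the new spin is averaged out. -/

open MeasureTheory ProbabilityTheory Finset Real
open Vale.Agent.P150 (gauss dot)
open Vale.Agent.P168 (sg)
open Vale.Agent.P168.MP (lin logZ0 pw spinAt nest Batch growC gainCap avg)
open Vale.Agent.P157.Lim (xv sgn)

namespace Vale.Agent.P157.Par

set_option linter.unusedSectionVars false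

variable {N M : ℕ}

instance isProbPats : IsProbabilityMeasure (pats N M) := by unfold pats; infer_instance

/-- one more coordinate of every pattern -/
def addC (g : Fin M → Fin N → ℝ) (z : Fin M → ℝ) : Fin M → Fin (N + 1) → ℝ :=
  fun a => Fin.snoc (g a) (z a)

lemma measurePreserving_addC :
    MeasurePreserving (fun p : (Fin M → Fin N → ℝ) × (Fin M → ℝ) => addC p.1 p.2)
      ((pats N M).prod (gauss (Fin M))) (pats (N + 1) M) := by
  have h1 := (measurePreserving_arrowProdEquivProdArrow ℝ (Fin N → ℝ) (Fin M)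
    (fun _ => gaussianReal 0 1) (fun _ => gauss (Fin N))).symm _
  have h2 := measurePreserving_pi (fun _ : Fin M => (gaussianReal 0 1).prod (gauss (Fin N)))
    (fun _ : Fin M => gauss (Fin (N + 1)))
    (fun _ => (measurePreserving_piFinSuccAbove (fun _ : Fin (N + 1) => gaussianReal 0 1)
      (Fin.last N)).symm _)
  have h := (h2.comp h1).comp (Measure.measurePreserving_swap (μ := pats N M) (ν := gauss (Fin M)))
  refine cast ?_ h
  show MeasurePreserving _ _ (pats (N + 1) M) = MeasurePreserving _ _ _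
  congr 1
  funext p a i
  simp [addC, MeasurableEquiv.arrowProdEquivProdArrow, Equiv.arrowProdEquivProdArrow,
    MeasurableEquiv.piFinSuccAbove, Fin.insertNth_last']

/-- the factor of the new spin -/
noncomputable def siteF (f : ℝ → ℝ) (c t : ℝ) (g : Fin M → Fin N → ℝ) (z : Fin M → ℝ)
    (σ : Fin N → Bool) (s : Bool) : ℝ :=
  exp (∑ a, (f (c * dot (xv N σ) (g a) + t * sg s * z a) - f (dot (xv N σ) (g a))))

lemma dot_addC [NeZero N] (τ : Fin (N + 1) → Bool) (y : Fin N → ℝ) (x : ℝ) :
    dot (xv (N + 1) τ) (Fin.snoc y x) =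
      √(N:ℝ) / √((N:ℝ) + 1) * dot (xv N fun i => τ i.castSucc) y +
        1 / √((N:ℝ) + 1) * sg (τ (Fin.last N)) * x := by
  have hN : √(N:ℝ) ≠ 0 := (Real.sqrt_pos.2 (by exact_mod_cast NeZero.pos N)).ne'
  have hs : ∀ b, sgn b = sg b := fun _ => rfl
  unfold dot
  rw [Fin.sum_univ_castSucc, Finset.mul_sum]
  simp only [xv, Fin.snoc_castSucc, Fin.snoc_last, Nat.cast_add, Nat.cast_one, hs]
  congr 1
  · refine Finset.sum_congr rfl fun i _ => ?_
    field_simp
  · field_simp

lemma ham_addC (f : ℝ → ℝ) [NeZero N] (g : Fin M → Fin N → ℝ) (z : Fin M → ℝ)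
    (τ : Fin (N + 1) → Bool) :
    ham f (addC g z) τ = ham f g (fun i => τ i.castSucc) *
      siteF f (√(N:ℝ) / √((N:ℝ) + 1)) (1 / √((N:ℝ) + 1)) g z (fun i => τ i.castSucc) (τ (Fin.last N)) := by
  rw [ham, ham, siteF, ← exp_add, ← Finset.sum_add_distrib]
  refine congrArg exp (Finset.sum_congr rfl fun a _ => ?_)
  rw [addC, dot_addC]
  ring

section pw
variable [NeZero N] {ι : Type} [Fintype ι] [DecidableEq ι] {β : ι → Batch} {R S : ℕ} {h u : ι → ℝ}
  {f f1 f2 f3 : ℝ → ℝ} {B D : ℝ}

/-- **One more site**: the increment is the nested mean of the factor of the new spin -/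
theorem pertF_grow (hS : Sm f f1 f2 f3 B D) (hB : ∀ x, f x ≤ B) (hR : 2 ≤ R)
    (hh : ∀ j, |h j| ≤ 1) (hu : ∀ j, |u j| ≤ 1) :
    |pertF f R S β h u (N + 1) M - pertF f R S β h u N M -
      ∫ g, ∫ z, log (nest (lin R) (pw (N := N) (S := S) (β := β) R (ham f g) h u)
        (fun p => avg fun s => siteF f (√(N:ℝ) / √((N:ℝ) + 1)) (1 / √((N:ℝ) + 1)) g z (spinAt R p) s)
        R []) ∂gauss (Fin M) ∂pats N M| ≤ growC R S β / ((N:ℝ) + 1) := by
  have hf : Continuous f := continuous_iff_continuousAt.2 fun x => (hS.d0 x).continuousAt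
  set c := √(N:ℝ) / √((N:ℝ) + 1)
  set t := 1 / √((N:ℝ) + 1)
  have hc0 : 0 ≤ growC R S β / ((N:ℝ) + 1) := by unfold growC; positivity
  have hs : ∀ (g : Fin M → Fin N → ℝ) z σ s, 0 < siteF f c t g z σ s := fun _ _ _ _ => exp_pos _
  set L := fun g : Fin M → Fin N → ℝ => logZ0 R (lin R) (pw (N := N) (S := S) (β := β) R (ham f g) h u)
  set T := fun G : Fin M → Fin (N + 1) → ℝ =>
    logZ0 R (lin R) (pw (N := N + 1) (S := S) (β := β) R (ham f G) h u)
  set Y := fun (g : Fin M → Fin N → ℝ) (z : Fin M → ℝ) =>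
    log (nest (lin R) (pw (N := N) (S := S) (β := β) R (ham f g) h u)
        (fun p => avg fun s => siteF f c t g z (spinAt R p) s) R [])
  have key : ∀ g z, |T (addC g z) - (L g + Y g z)| ≤ growC R S β / ((N:ℝ) + 1) := fun g z => by
    have h1 := Vale.Agent.P168.MP.grow_bound (S := S) (β := β) hR (W := ham f g)
      (fun σ => ham_pos f g σ) (c := siteF f c t g z) (hs g z) hh hu
    rw [Vale.Agent.P168.MP.logZ0_pw_mul (fun σ => ham_pos f g σ)
      fun σ => Vale.Agent.P168.MP.avg_pos (hs g z σ)] at h1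
    simp only [T, L, Y, c, t, funext (ham_addC f g z)] at h1 ⊢
    exact h1
  have hT : Integrable (fun p : (Fin M → Fin N → ℝ) × (Fin M → ℝ) => T (addC p.1 p.2))
      ((pats N M).prod (gauss (Fin M))) :=
    measurePreserving_addC.integrable_comp_of_integrable (integrable_logZ0_pw hS hB (by omega))
  have hL : Integrable (fun p : (Fin M → Fin N → ℝ) × (Fin M → ℝ) => L p.1)
      ((pats N M).prod (gauss (Fin M))) := (integrable_logZ0_pw hS hB (by omega)).comp_fst _
  have hYc : Continuous fun p : (Fin M → Fin N → ℝ) × (Fin M → ℝ) => Y p.1 p.2 := by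
    have hsc : ∀ σ s, Continuous fun p : (Fin M → Fin N → ℝ) × (Fin M → ℝ) => siteF f c t p.1 p.2 σ s :=
      fun σ s => by unfold siteF dot; fun_prop
    refine (continuous_nest (fun p => ((continuous_ham hf _).comp continuous_fst).mul continuous_const)
      (fun x p => mul_pos (ham_pos f _ _) (exp_pos _))
      (fun p => ?_) (fun x p => Vale.Agent.P168.MP.avg_pos (hs _ _ _)) R []).log fun x => ?_
    · exact (continuous_finsetSum _ fun s _ => hsc _ s).div_const _
    · exact (Vale.Agent.P168.MP.nest_pos (fun p => mul_pos (ham_pos f _ _) (exp_pos _))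
        (fun p => Vale.Agent.P168.MP.avg_pos (hs _ _ _)) R []).ne'
  have hY : Integrable (fun p : (Fin M → Fin N → ℝ) × (Fin M → ℝ) => Y p.1 p.2)
      ((pats N M).prod (gauss (Fin M))) := by
    refine ((hT.sub hL).norm.add (integrable_const (growC R S β / ((N:ℝ) + 1)))).mono'
      hYc.aestronglyMeasurable (Filter.Eventually.of_forall fun p => ?_)
    have := abs_le.1 (key p.1 p.2)
    simp only [Pi.add_apply, Pi.sub_apply, Real.norm_eq_abs]
    rw [abs_le]
    constructor <;> linarith [le_abs_self (T (addC p.1 p.2) - L p.1), neg_abs_le (T (addC p.1 p.2) - L p.1)]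
  have e1 : pertF f R S β h u (N + 1) M = ∫ p, T (addC p.1 p.2) ∂(pats N M).prod (gauss (Fin M)) := by
    rw [pertF, ← measurePreserving_addC.map_eq, integral_map measurePreserving_addC.measurable.aemeasurable]
    exact (continuous_logZ0 (continuous_pw_ham hf) pw_ham_pos R).aestronglyMeasurable
  have e2 : pertF f R S β h u N M = ∫ p, L p.1 ∂(pats N M).prod (gauss (Fin M)) := by
    rw [integral_fun_fst, probReal_univ, one_smul]; rfl
  have e3 : (∫ g, ∫ z, Y g z ∂gauss (Fin M) ∂pats N M) = ∫ p, Y p.1 p.2 ∂(pats N M).prod (gauss (Fin M)) :=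
    (integral_prod (fun p : (Fin M → Fin N → ℝ) × (Fin M → ℝ) => Y p.1 p.2) hY).symm
  have e4 : ∫ p, (T (addC p.1 p.2) - L p.1 - Y p.1 p.2) ∂(pats N M).prod (gauss (Fin M)) =
      pertF f R S β h u (N + 1) M - pertF f R S β h u N M - ∫ g, ∫ z, Y g z ∂gauss (Fin M) ∂pats N M := by
    rw [e1, e2, e3, ← integral_sub hT hL]
    exact integral_sub (f := fun p : (Fin M → Fin N → ℝ) × (Fin M → ℝ) => T (addC p.1 p.2) - L p.1)
      (g := fun p : (Fin M → Fin N → ℝ) × (Fin M → ℝ) => Y p.1 p.2) (hT.sub hL) hY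
  rw [← e4, ← Real.norm_eq_abs]
  refine (norm_integral_le_of_norm_le_const (μ := (pats N M).prod (gauss (Fin M)))
    (Filter.Eventually.of_forall fun p => ?_)).trans_eq (by rw [probReal_univ, mul_one])
  rw [Real.norm_eq_abs, sub_sub]
  exact key p.1 p.2

end pw

end Vale.Agent.P157.Par
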