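import Vale.Agent.P157.Par.SiteTotal
import Vale.Agent.P157.Par.Grow
import Vale.Agent.P157.Par.Bridge

/-! The increment of the interpolated perturbed functional from dimension `N` to `N + 1`. -/

open MeasureTheory ProbabilityTheory Finset Real Filter
open scoped Topology
open Vale.Agent.P150 (gauss dot)
open Vale.Agent.P168 (sg)
open Vale.Agent.P168.MP (lin nest pw spinAt Batch growC gain1 avg)
open Vale.Agent.P157.Lim (xv)

namespace Vale.Agent.P157.Par

set_option linter.unusedSectionVars false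

variable {f f1 f2 f3 : ℝ → ℝ} {B D : ℝ}

section fval
variable {N M R S : ℕ} [NeZero N] {ι : Type} [Fintype ι] [DecidableEq ι] {β : ι → Batch} {h u : ι → ℝ}

lemma fval_qP (hS : Sm f f1 f2 f3 B D) (hR : 1 ≤ R) (α : ℝ) (g : Fin M → Fin N → ℝ) :
    Fval α f R (lin R) (qP f R S β h u g) =
      α * Phi (fun y => exp (f y)) R (lin R) (qP f R S β h u g) + Esite α f f1 R (qP f R S β h u g) :=
  fval_site hS hR (qlev_prof (pw_ham_pos g)).2 α

lemma phiLip_of (hS : Sm f f1 f2 f3 B D) : ∃ K : ℝ, 0 ≤ K ∧ PhiLip f K := by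
  obtain ⟨K, hK, h⟩ := Phi_lip hS 1
  exact ⟨K, hK, fun R q q' hR hq hq' => (h R q q' hR hq hq').1⟩

lemma integrable_lip (hf : Continuous f) (hR : 1 ≤ R) {F : (ℕ → ℝ) → ℝ} {K : ℝ} (hK : 0 ≤ K)
    (hF : ∀ q q', Prof R q 1 → Prof R q' 1 → |F q - F q'| ≤ K * dist1 R q q') :
    Integrable (fun g => F (qP (N := N) f R S β h u g)) (pats N M) := by
  obtain ⟨hc, hb⟩ := cont_functional hR hK hF (q := fun g : Fin M → Fin N → ℝ => qP f R S β h u g)
    qP_prof fun l => continuous_qP hf l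
  exact Integrable.of_bound hc.aestronglyMeasurable _ (Eventually.of_forall hb)

theorem integrable_fval (hS : Sm f f1 f2 f3 B D) (hR : 1 ≤ R) {α : ℝ} (hα : 0 ≤ α) :
    Integrable (fun g => Fval α f R (lin R) (qlev R (pw (S := S) (β := β) R (ham f g) h u) (spinAt R)))
      (pats N M) := by
  have hf : Continuous f := continuous_iff_continuousAt.2 fun x => (hS.d0 x).continuousAt
  obtain ⟨KL, hKL, hL⟩ := phiLip_of hS
  obtain ⟨KE, hKE, hE⟩ := Esite_lip hS α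
  have := ((integrable_lip (N := N) (M := M) (S := S) (β := β) (h := h) (u := u) hf hR hKL
      fun q q' hq hq' => hL R q q' hR hq hq').const_mul α).add
    (integrable_lip (N := N) (M := M) (S := S) (β := β) (h := h) (u := u) hf hR hKE
      fun q q' hq hq' => hE α R q q' hα le_rfl hR hq hq')
  exact this.congr (Eventually.of_forall fun g => (fval_qP hS hR α g).symm)

end fval

/-- the error of one site tends to a small limit -/
lemma site_err {K ε α : ℝ} (hK : 0 ≤ K) (hε : 0 < ε) (hα : 0 < α) :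
    ∃ θ θ' : ℝ, 0 < θ ∧ θ ≤ 1 ∧ 0 < θ' ∧ θ' ≤ 1 ∧ ∃ N₀ : ℕ, ∀ N, N₀ ≤ N → 2 ≤ α * (N : ℝ) ∧
      K * (θ + (θ' + 2 / (α * N) / θ' + 1 / ((N : ℝ) + 1) + 1 / √((N : ℝ) + 1)) / θ) ≤ ε := by
  obtain ⟨θ, h1, h2, h3⟩ : ∃ θ : ℝ, 0 < θ ∧ θ ≤ 1 ∧ K * θ ≤ ε / 4 := by
    refine ⟨min 1 (ε / (4 * (K + 1))), lt_min one_pos (by positivity), min_le_left _ _, ?_⟩
    refine (mul_le_mul (le_add_of_nonneg_right zero_le_one) (min_le_right _ _)
      (le_of_lt (lt_min one_pos (by positivity))) (by positivity)).trans_eq (by field_simp)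
  obtain ⟨θ', h4, h5, h6⟩ : ∃ θ' : ℝ, 0 < θ' ∧ θ' ≤ 1 ∧ K * (θ' / θ) ≤ ε / 4 := by
    refine ⟨min 1 (θ * (ε / (4 * (K + 1)))), lt_min one_pos (by positivity), min_le_left _ _, ?_⟩
    refine (mul_le_mul (le_add_of_nonneg_right zero_le_one)
      (div_le_div_of_nonneg_right (min_le_right _ _) h1.le) (by positivity) (by positivity)).trans_eq ?_
    field_simp
  refine ⟨θ, θ', h1, h2, h4, h5, ?_⟩
  have t1 : Tendsto (fun N : ℕ => 2 / (α * N)) atTop (𝓝 0) :=
    tendsto_const_nhds.div_atTop (tendsto_natCast_atTop_atTop.const_mul_atTop hα)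
  have t2 : Tendsto (fun N : ℕ => 1 / ((N : ℝ) + 1)) atTop (𝓝 0) := tendsto_one_div_add_atTop_nhds_zero_nat
  have t3 : Tendsto (fun N : ℕ => 1 / √((N : ℝ) + 1)) atTop (𝓝 0) :=
    tendsto_const_nhds.div_atTop (Real.tendsto_sqrt_atTop.comp
      (tendsto_atTop_add_const_right _ _ tendsto_natCast_atTop_atTop))
  have h := ((((((t1.div_const θ').const_add θ').add t2).add t3).div_const θ).const_add θ).const_mul K
  simp only [zero_div, add_zero] at h
  have hlt : K * (θ + θ' / θ) < ε := by rw [mul_add]; linarith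
  obtain ⟨a, ha⟩ := eventually_atTop.1 (((tendsto_natCast_atTop_atTop.const_mul_atTop hα).eventually_ge_atTop 2).and
    (h.eventually_le_const hlt))
  exact ⟨a, ha⟩

theorem increment (hS : Sm f f1 f2 f3 B D) (hB : ∀ x, f x ≤ B) {α : ℝ} (hα : 0 < α) :
    ∀ ε > 0, ∃ C : ℝ, ∃ N₀ J : ℕ, 0 ≤ C ∧ ∀ {ι : Type} [Fintype ι] [DecidableEq ι] (β : ι → Batch)
      {R S : ℕ} (h u : ι → ℝ), 2 ≤ R → (∀ j, |h j| ≤ 1) → (∀ j, |u j| ≤ 1) →
      ∀ (N : ℕ) [NeZero N], N₀ ≤ N →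
      (∫ g, Fval α f R (lin R) (qlev R (pw (S := S) (β := β) R (ham f g) h u) (spinAt R)) ∂pats N ⌊α * N⌋₊) - ε -
        C * (∑ i ∈ range J, ∫ g, adev R (pw (S := S) (β := β) R (ham f g) h u) (ovK (spinAt R))
          (qlev R (pw (S := S) (β := β) R (ham f g) h u) (spinAt R)) ∂pats N (⌊α * N⌋₊ + i)) -
        growC R S β / ((N : ℝ) + 1) ≤
      pertI f R S β h u (N + 1) (α * ((N + 1 : ℕ) : ℝ)) - pertI f R S β h u N (α * N) := by
  intro ε hε
  have hf : Continuous f := continuous_iff_continuousAt.2 fun x => (hS.d0 x).continuousAt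
  obtain ⟨KV, hKV, hV'⟩ := value_close hS 1
  have hV : ValueClose f KV := fun hR _ hw _ ha _ hq => hV' hR hw ha hq
  obtain ⟨KL, hKL, hL⟩ := phiLip_of hS
  obtain ⟨KE, hKE, hE⟩ := Esite_lip hS α
  obtain ⟨K, hK, hsite⟩ := site_total hS hB (α + 1)
  obtain ⟨θ, θ', hθ, hθ1, hθ', hθ'1, N₀, hN₀⟩ := site_err hK hε hα
  set C₁ := α * (KV + KL * exp (4 * B))
  set C₂ := K / (θ' * θ)
  set C₃ := KE * exp (4 * B)
  have hC₁ : 0 ≤ C₁ := mul_nonneg hα.le (add_nonneg hKV (mul_nonneg hKL (exp_pos _).le))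
  have hC₂ : 0 ≤ C₂ := div_nonneg hK (by positivity)
  have hC₃ : 0 ≤ C₃ := mul_nonneg hKE (exp_pos _).le
  refine ⟨C₁ + C₂ + C₃, N₀, ⌈α⌉₊ + 3, by positivity, ?_⟩
  intro ι _ _ β R S h u hR hh hu N _ hN
  have hR1 : 1 ≤ R := by omega
  obtain ⟨hαN, herr⟩ := hN₀ N hN
  set x := α * (N : ℝ)
  set x' := α * ((N + 1 : ℕ) : ℝ) with hx'
  have hxe : x' = x + α := by rw [hx']; push_cast; ring
  have hx : 0 ≤ x := by positivity
  set M₀ := ⌊x⌋₊
  set M' := ⌊x'⌋₊
  set A₀ := fun M => AD f R S β h u N M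
  set Sa := ∑ i ∈ range (⌈α⌉₊ + 3), A₀ (M₀ + i)
  have hA0 : ∀ i, 0 ≤ A₀ (M₀ + i) := fun i => AD_nonneg
  have hf0 : (M₀ : ℝ) ≤ x := Nat.floor_le hx
  have hf1 : x < M₀ + 1 := Nat.lt_floor_add_one _
  have hg0 : (M' : ℝ) ≤ x' := Nat.floor_le (by positivity)
  have hg1 : x' < M' + 1 := Nat.lt_floor_add_one _
  set P := ∫ g, Phi (fun y => exp (f y)) R (lin R) (qP (N := N) f R S β h u g) ∂pats N M₀
  set E := ∫ g, Esite α f f1 R (qP (N := N) f R S β h u g) ∂pats N M₀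
  set c := √(N:ℝ) / √((N:ℝ) + 1)
  set t := 1 / √((N:ℝ) + 1)
  have ht2 : t ^ 2 = 1 / ((N:ℝ) + 1) := by rw [div_pow, one_pow, Real.sq_sqrt (by positivity)]
  -- one site at `M` patterns
  have step : ∀ M, M₀ ≤ M → M < M₀ + (⌈α⌉₊ + 3) → |(M:ℝ) - x'| ≤ 1 → E - ε - (C₂ + C₃) * Sa -
      growC R S β / ((N:ℝ) + 1) ≤ pertF f R S β h u (N + 1) M - pertF f R S β h u N M := by
    intro M hM hM2 hMx
    obtain ⟨hMx1, hMx2⟩ := abs_le.1 hMx
    have hMbig : x / 2 ≤ M := by linarith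
    have hM2' : 2 ≤ M := by
      have : (1:ℝ) < M := by linarith
      exact_mod_cast this
    have hct : c ^ 2 + t ^ 2 = 1 := by
      rw [ht2, div_pow, Real.sq_sqrt (Nat.cast_nonneg N), Real.sq_sqrt (by positivity)]; field_simp
    have hMt : |(M:ℝ) * t ^ 2 - α| ≤ 1 / ((N:ℝ) + 1) := by
      have e : (M:ℝ) * t ^ 2 - α = ((M:ℝ) - x') / ((N:ℝ) + 1) := by
        rw [ht2, hx', sub_div]; push_cast; field_simp
      rw [e, abs_div, abs_of_pos (show (0:ℝ) < (N:ℝ) + 1 by positivity)]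
      exact div_le_div_of_nonneg_right hMx (by positivity)
    have hMA : (M:ℝ) * t ^ 2 ≤ α + 1 := by
      have := (abs_le.1 hMt).2
      have : 1 / ((N:ℝ) + 1) ≤ 1 := by rw [div_le_one (by positivity)]; linarith [Nat.cast_nonneg (α := ℝ) N]
      linarith
    have htN : t ^ 2 * N ≤ 1 := by
      rw [ht2, one_div_mul_eq_div, div_le_one (by positivity)]; linarith
    set w₀ : List (Vale.Agent.P168.MP.Mark N S β) → ℝ := fun p => exp (∑ i : ι × Fin S, gain1 R h u p i)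
    have ew : ∀ g : Fin M → Fin N → ℝ, (fun p => w₀ p * ham f g (spinAt R p)) =
        pw (S := S) (β := β) R (ham f g) h u := fun g => funext fun p => mul_comm _ _
    have h1 := hsite (R := R) (N := N) (M := M) hR1 hM2' (w₀ := w₀) (fun p => exp_pos _) (spinAt R)
      (c := c) (t := t) (α := α) (θ := θ) (θ' := θ') (by positivity) (by positivity) hct hMA htN hα.le
      (le_add_of_nonneg_right zero_le_one) hθ hθ1 hθ'
    unfold ADev qb at h1
    unfold wg at h1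
    simp only [ew] at h1
    change (∫ g, Esite α f f1 R (qP f R S β h u g) ∂pats N M) - K * (θ + (θ' + (A₀ M + 1 / (M:ℝ)) / θ' + |(M:ℝ) * t ^ 2 - α| + t) / θ)
      ≤ ∫ g, ∫ z, log (nest (lin R) (pw (N := N) (S := S) (β := β) R (ham f g) h u)
        (fun p => avg fun s => siteF f c t g z (spinAt R p) s) R []) ∂gauss (Fin M) ∂pats N M at h1
    have h2 := (abs_le.1 (pertF_grow (N := N) (M := M) (S := S) (β := β) hS hB hR hh hu)).1
    obtain ⟨j, rfl⟩ := Nat.exists_eq_add_of_le hM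
    have h3 := (abs_le.1 (shift (N := N) (S := S) (β := β) (h := h) (u := u) hS hB hKE hR1
      (fun q q' hq hq' => hE α R q q' hα.le le_rfl hR1 hq hq') M₀ j)).1
    have h4 : C₃ * ∑ i ∈ range j, A₀ (M₀ + i) ≤ C₃ * Sa := mul_le_mul_of_nonneg_left
      (sum_le_sum_of_subset_of_nonneg (range_mono (by omega)) fun i _ _ => hA0 i) hC₃
    have h5 : C₂ * A₀ (M₀ + j) ≤ C₂ * Sa := mul_le_mul_of_nonneg_left
      (single_le_sum (f := fun i => A₀ (M₀ + i)) (fun i _ => hA0 i) (mem_range.2 (by omega))) hC₂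
    have h6 : K * (θ + (θ' + (A₀ (M₀ + j) + 1 / ((M₀ + j : ℕ):ℝ)) / θ' + |((M₀ + j : ℕ):ℝ) * t ^ 2 - α| + t) / θ) ≤
        ε + C₂ * A₀ (M₀ + j) := by
      have hm : 1 / ((M₀ + j : ℕ):ℝ) ≤ 2 / x := by
        rw [show 2 / x = 1 / (x / 2) by rw [one_div_div]]
        exact one_div_le_one_div_of_le (by linarith) hMbig
      have e : C₂ * A₀ (M₀ + j) = K * (A₀ (M₀ + j) / θ' / θ) := by
        show K / (θ' * θ) * _ = _
        field_simp
      calc _ ≤ K * (θ + (θ' + (A₀ (M₀ + j) / θ' + 2 / x / θ') + 1 / ((N:ℝ) + 1) + t) / θ) := by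
            rw [← add_div]; gcongr
        _ = K * (θ + (θ' + 2 / x / θ' + 1 / ((N:ℝ) + 1) + t) / θ) + K * (A₀ (M₀ + j) / θ' / θ) := by ring
        _ ≤ _ := by rw [e]; linarith
    simp only [E, C₃, c, t] at *
    linarith
  -- combine
  have hxx : x ≤ x' := by linarith
  have hp := pattI (N := N) (S := S) (β := β) (h := h) (u := u) hS hB hKV hKL hV hL hR1 hx hxx
    (A := α) (le_of_eq (by linarith))
  have hsum : ∑ i ∈ range (⌈α⌉₊ + 2), A₀ (M₀ + i) ≤ Sa :=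
    sum_le_sum_of_subset_of_nonneg (range_mono (by omega)) fun i _ _ => hA0 i
  have hs2 := mul_le_mul_of_nonneg_left hsum hC₁
  have hm0 : M₀ ≤ M' := Nat.floor_le_floor hxx
  have hm1 : M' + 1 < M₀ + (⌈α⌉₊ + 3) := by
    have : (M' : ℝ) < (M₀ + ⌈α⌉₊ + 2 : ℕ) := by push_cast; linarith [Nat.le_ceil α]
    have : M' < M₀ + ⌈α⌉₊ + 2 := by exact_mod_cast this
    omega
  have s0 := step M' hm0 (by omega) (abs_le.2 ⟨by linarith, by linarith⟩)
  have s1 := step (M' + 1) (by omega) hm1 (abs_le.2 ⟨by push_cast; linarith, by push_cast; linarith⟩)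
  have w0 : 0 ≤ x' - M' := sub_nonneg.2 hg0
  have c0 := mul_le_mul_of_nonneg_left s0 (show 0 ≤ 1 - (x' - M') by linarith)
  have c1 := mul_le_mul_of_nonneg_left s1 w0
  have eF : (∫ g, Fval α f R (lin R) (qlev R (pw (S := S) (β := β) R (ham f g) h u) (spinAt R)) ∂pats N M₀) =
      α * P + E := by
    rw [← integral_const_mul, ← integral_add]
    · exact integral_congr_ae (Eventually.of_forall fun g => fval_qP hS hR1 α g)
    · exact (integrable_lip hf hR1 hKL fun q q' hq hq' => hL R q q' hR1 hq hq').const_mul α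
    · exact integrable_lip hf hR1 hKE fun q q' hq hq' => hE α R q q' hα.le le_rfl hR1 hq hq'
  rw [eF]
  rw [show x' - x = α by linarith] at hp
  simp only [pertI, C₁] at *
  change α * P + E - ε - _ * Sa - _ ≤ _
  linarith

end Vale.Agent.P157.Par
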