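import Vale.Agent.P157.PD.Main
import Vale.Agent.P157.Par.Defs

/-! `pot ν c = log (c - ft ν)` has bounded derivatives up to order three when `ν` has a finite third moment. -/

open MeasureTheory Filter Set

namespace Vale.Agent.P157.Par

variable {ν : Measure ℝ}

/-- `∫ t^k φ (t u)` -/
noncomputable def momT (ν : Measure ℝ) (k : ℕ) (φ : ℝ → ℝ) (u : ℝ) : ℝ := ∫ t, t ^ k * φ (t * u) ∂ν

lemma integrable_abs_pow [IsFiniteMeasure ν] (hν : Integrable (fun t => |t| ^ 3) ν) {k : ℕ} (hk : k ≤ 3) :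
    Integrable (fun t => |t| ^ k) ν := by
  refine ((integrable_const (1:ℝ)).add hν).mono' (Continuous.aestronglyMeasurable (by fun_prop))
    (Eventually.of_forall fun t => ?_)
  rw [Real.norm_eq_abs, abs_pow, abs_abs, Pi.add_apply]
  have h3 : (0:ℝ) ≤ |t| ^ 3 := by positivity
  rcases le_or_gt |t| 1 with h | h
  · linarith [pow_le_one₀ (abs_nonneg t) h (n := k)]
  · linarith [pow_le_pow_right₀ h.le hk]

lemma norm_momT_integrand {φ : ℝ → ℝ} (hb : ∀ y, |φ y| ≤ 1) (k : ℕ) (u t : ℝ) :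
    ‖t ^ k * φ (t * u)‖ ≤ |t| ^ k := by
  rw [Real.norm_eq_abs, abs_mul, abs_pow]
  exact mul_le_of_le_one_right (by positivity) (hb _)

lemma abs_momT_le {φ : ℝ → ℝ} (hb : ∀ y, |φ y| ≤ 1) {k : ℕ} (hi : Integrable (fun t => |t| ^ k) ν) (u : ℝ) :
    |momT ν k φ u| ≤ ∫ t, |t| ^ k ∂ν :=
  norm_integral_le_of_norm_le hi (Eventually.of_forall fun t => norm_momT_integrand hb k u t)

lemma continuous_momT {φ : ℝ → ℝ} (hc : Continuous φ) (hb : ∀ y, |φ y| ≤ 1) {k : ℕ}
    (hi : Integrable (fun t => |t| ^ k) ν) : Continuous (momT ν k φ) :=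
  continuous_of_dominated (fun _ => Continuous.aestronglyMeasurable (by fun_prop))
    (fun u => Eventually.of_forall fun t => norm_momT_integrand hb k u t) hi
    (Eventually.of_forall fun t => by fun_prop)

lemma hasDerivAt_momT {φ φ' : ℝ → ℝ} (hd : ∀ y, HasDerivAt φ (φ' y) y) (hc : Continuous φ')
    (hb : ∀ y, |φ y| ≤ 1) (hb' : ∀ y, |φ' y| ≤ 1) {k : ℕ} (hi : Integrable (fun t => |t| ^ k) ν)
    (hi' : Integrable (fun t => |t| ^ (k + 1)) ν) (u : ℝ) :
    HasDerivAt (momT ν k φ) (momT ν (k + 1) φ' u) u := by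
  have hcφ : Continuous φ := continuous_iff_continuousAt.2 fun y => (hd y).continuousAt
  refine (hasDerivAt_integral_of_dominated_loc_of_deriv_le (μ := ν) (s := univ) (x₀ := u)
    (F := fun u t => t ^ k * φ (t * u)) (F' := fun u t => t ^ (k + 1) * φ' (t * u))
    (bound := fun t => |t| ^ (k + 1)) univ_mem
    (Eventually.of_forall fun _ => Continuous.aestronglyMeasurable (by fun_prop))
    (hi.mono' (Continuous.aestronglyMeasurable (by fun_prop))
      (Eventually.of_forall fun t => norm_momT_integrand hb k u t))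
    (Continuous.aestronglyMeasurable (by fun_prop))
    (Eventually.of_forall fun t x _ => norm_momT_integrand hb' (k + 1) x t) hi'
    (Eventually.of_forall fun t x _ => ?_)).2
  have h := ((hd (t * x)).comp x ((hasDerivAt_id x).const_mul t)).const_mul (t ^ k)
  exact h.congr_deriv (by ring)

theorem pot_sm [IsFiniteMeasure ν] (hν : Integrable (fun t => |t| ^ 3) ν) {c : ℝ}
    (hc : ν.real univ < c) :
    ∃ f1 f2 f3 B D, Sm (PD.pot ν c) f1 f2 f3 B D ∧ ∀ x, PD.pot ν c x ≤ B := by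
  have hi : ∀ {k : ℕ}, k ≤ 3 → Integrable (fun t => |t| ^ k) ν := fun h => integrable_abs_pow hν h
  have hcos : ∀ y, |Real.cos y| ≤ 1 := Real.abs_cos_le_one
  have hsin : ∀ y, |Real.sin y| ≤ 1 := Real.abs_sin_le_one
  have hsin' : ∀ y, |-Real.sin y| ≤ 1 := fun y => (abs_neg _).trans_le (hsin y)
  have hcos' : ∀ y, |-Real.cos y| ≤ 1 := fun y => (abs_neg _).trans_le (hcos y)
  set g1 := momT ν 1 fun y => -Real.sin y
  set g2 := momT ν 2 fun y => -Real.cos y
  set g3 := momT ν 3 Real.sin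
  have d0 : ∀ u, HasDerivAt (PD.ft ν) (g1 u) u := fun u => by
    have e : PD.ft ν = momT ν 0 Real.cos := funext fun u => by simp [PD.ft, momT]
    rw [e]
    exact hasDerivAt_momT Real.hasDerivAt_cos (by fun_prop) hcos hsin' (hi (by norm_num)) (hi (by norm_num)) u
  have d1 : ∀ u, HasDerivAt g1 (g2 u) u := fun u =>
    hasDerivAt_momT (fun y => (Real.hasDerivAt_sin y).neg) (by fun_prop) hsin' hcos' (hi (by norm_num))
      (hi (by norm_num)) u
  have d2 : ∀ u, HasDerivAt g2 (g3 u) u := fun u =>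
    hasDerivAt_momT (fun y => (Real.hasDerivAt_cos y).neg.congr_deriv (neg_neg _)) (by fun_prop) hcos' hsin
      (hi (by norm_num)) (hi (by norm_num)) u
  have c1 : Continuous g1 := continuous_iff_continuousAt.2 fun x => (d1 x).continuousAt
  have c2 : Continuous g2 := continuous_iff_continuousAt.2 fun x => (d2 x).continuousAt
  have c3 : Continuous g3 := continuous_momT Real.continuous_sin hsin (hi le_rfl)
  set h := fun u => c - PD.ft ν u
  set δ := c - ν.real univ
  have hδ : 0 < δ := sub_pos.2 hc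
  have hh : ∀ u, δ ≤ h u := fun u => by
    simp only [h, δ]; linarith [(abs_le.1 (PD.abs_ft (ν := ν) u)).2]
  have hne : ∀ u, h u ≠ 0 := fun u => (hδ.trans_le (hh u)).ne'
  have dh : ∀ u, HasDerivAt h (-g1 u) u := fun u => by
    have := (d0 u).const_sub c
    exact this
  set a1 := fun u => g1 u / h u
  set a2 := fun u => g2 u / h u
  set a3 := fun u => g3 u / h u
  have da1 : ∀ u, HasDerivAt a1 (a2 u + a1 u * a1 u) u := fun u =>
    ((d1 u).div (dh u) (hne u)).congr_deriv (by simp only [a1, a2]; field_simp [hne u]; ring)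
  have da2 : ∀ u, HasDerivAt a2 (a3 u + a2 u * a1 u) u := fun u =>
    ((d2 u).div (dh u) (hne u)).congr_deriv (by simp only [a1, a2, a3]; field_simp [hne u]; ring)
  set M := (∫ t, |t| ^ 1 ∂ν) + (∫ t, |t| ^ 2 ∂ν) + ∫ t, |t| ^ 3 ∂ν
  set K := M / δ
  have hp : ∀ k : ℕ, 0 ≤ ∫ t, |t| ^ k ∂ν := fun k => integral_nonneg fun t => by positivity
  have hK : ∀ {g : ℝ → ℝ}, (∀ u, |g u| ≤ M) → ∀ u, |g u / h u| ≤ K := fun hg u => by
    rw [abs_div, abs_of_pos (hδ.trans_le (hh u))]
    exact div_le_div₀ ((abs_nonneg _).trans (hg u)) (hg u) hδ (hh u)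
  have b1 : ∀ u, |a1 u| ≤ K := hK fun u =>
    (abs_momT_le hsin' (hi (by norm_num)) u).trans (by linarith [hp 2, hp 3])
  have b2 : ∀ u, |a2 u| ≤ K := hK fun u =>
    (abs_momT_le hcos' (hi (by norm_num)) u).trans (by linarith [hp 1, hp 3])
  have b3 : ∀ u, |a3 u| ≤ K := hK fun u =>
    (abs_momT_le hsin (hi le_rfl) u).trans (by linarith [hp 1, hp 2])
  have hK0 : 0 ≤ K := (abs_nonneg _).trans (b1 0)
  refine ⟨fun u => -a1 u, fun u => -(a2 u + a1 u * a1 u),
    fun u => -(a3 u + a2 u * a1 u + ((a2 u + a1 u * a1 u) * a1 u + a1 u * (a2 u + a1 u * a1 u))),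
    max |Real.log (c - ν.real univ)| |Real.log (c + ν.real univ)|, K + 3 * K ^ 2 + 2 * K ^ 3,
    ⟨fun u => ?_, fun u => (da1 u).neg, fun u => ((da2 u).add ((da1 u).mul (da1 u))).neg, ?_,
      fun u => (abs_le.1 (PD.abs_pot_le hc u)).1, fun u => ?_, fun u => ?_, fun u => ?_⟩,
    fun u => (abs_le.1 (PD.abs_pot_le hc u)).2⟩
  · exact ((dh u).log (hne u)).congr_deriv (neg_div _ _)
  · have hcont : Continuous h := continuous_iff_continuousAt.2 fun x => (dh x).continuousAt
    fun_prop (disch := exact hne)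
  · have := b1 u
    rw [abs_neg]
    nlinarith [pow_nonneg hK0 2, pow_nonneg hK0 3]
  · have h11 : |a1 u * a1 u| ≤ K * K := by rw [abs_mul]; gcongr <;> exact b1 u
    rw [abs_neg]
    nlinarith [abs_add_le (a2 u) (a1 u * a1 u), b2 u, pow_nonneg hK0 2, pow_nonneg hK0 3]
  · have h21 : |a2 u * a1 u| ≤ K * K := by rw [abs_mul]; exact mul_le_mul (b2 u) (b1 u) (abs_nonneg _) hK0
    have h11 : |a1 u * a1 u| ≤ K * K := by rw [abs_mul]; gcongr <;> exact b1 u
    have h111 : |a1 u * a1 u * a1 u| ≤ K * K * K := by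
      rw [abs_mul]; exact mul_le_mul h11 (b1 u) (abs_nonneg _) (by positivity)
    rw [abs_neg, abs_le]
    constructor <;> nlinarith [abs_le.1 (b3 u), abs_le.1 h21, abs_le.1 h111]

end Vale.Agent.P157.Par
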