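import Vale.Agent.P157.Par.GridRep
import Vale.Agent.P157.Par.Bridge
import Vale.Agent.P157.Par.Pert
import Vale.Agent.P157.Par.QConc
import Vale.Agent.P157.Par.Incr
import Vale.Agent.P157.Par.Upper
import Vale.Agent.P157.Par.PotSm

/-! Assembly: the lower bound by averaged increments, and the limit for the positive-definite class. -/

open MeasureTheory ProbabilityTheory Finset Real Filter
open scoped Topology
open Vale.Agent.P168.MP (lin pw spinAt allBatch BIdx gu Batch growC gainCap)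

namespace Vale.Agent.P157.Par

set_option linter.unusedSectionVars false

variable {f f1 f2 f3 : ℝ → ℝ} {B D : ℝ}

/-! ### averaged increments -/

/-- the interpolated perturbed functional stays within a constant of `N` times the pressure -/
lemma pertI_near (hS : Sm f f1 f2 f3 B D) (hB : ∀ x, f x ≤ B) {ι : Type} [Fintype ι] [DecidableEq ι]
    {β : ι → Batch} {R S : ℕ} (hR : 1 ≤ R) {h u : ι → ℝ} (hh : ∀ j, |h j| ≤ 1) (hu : ∀ j, |u j| ≤ 1)
    (N : ℕ) [NeZero N] {x : ℝ} (hx : 0 ≤ x) :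
    pertI f R S β h u N x ≤ N * pressure (isingUniform N) f ⌊x⌋₊ + 3 * gainCap S β + B := by
  have hB0 : 0 ≤ B := by
    have h1 := hS.lb 0; have h2 := hB 0; linarith
  have hN : (0:ℝ) < N := by exact_mod_cast NeZero.pos N
  have h1 := abs_le.1 (abs_pertF_sub (S := S) (β := β) (N := N) hS hB hR hh hu ⌊x⌋₊)
  have h2 := abs_le.1 (abs_pertF_sub (S := S) (β := β) (N := N) hS hB hR hh hu (⌊x⌋₊ + 1))
  have h3 := abs_le.1 (abs_pressure_sub (N := N) (continuous_iff_continuousAt.2 fun x => (hS.d0 x).continuousAt) (fun x => abs_le.2 ⟨hS.lb x, hB x⟩) (⌊x⌋₊ + 1) ⌊x⌋₊)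
  have e : |((⌊x⌋₊ + 1 : ℕ) : ℝ) - (⌊x⌋₊ : ℝ)| = 1 := by push_cast; simp
  rw [e, mul_one] at h3
  have h4 : (N:ℝ) * pressure (isingUniform N) f (⌊x⌋₊ + 1) - N * pressure (isingUniform N) f ⌊x⌋₊ ≤ B := by
    rw [← mul_sub]
    calc (N:ℝ) * _ ≤ N * (B / N) := mul_le_mul_of_nonneg_left h3.2 hN.le
      _ = B := by field_simp
  have hcap : 0 ≤ gainCap S β := by unfold gainCap; positivity
  have hd : pertF f R S β h u N (⌊x⌋₊ + 1) - pertF f R S β h u N ⌊x⌋₊ ≤ 2 * gainCap S β + B := by linarith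
  have hθ0 : 0 ≤ x - ⌊x⌋₊ := sub_nonneg.2 (Nat.floor_le hx)
  have hθ1 : x - ⌊x⌋₊ ≤ 1 := by linarith [Nat.lt_floor_add_one x]
  have := mul_le_mul_of_nonneg_left hd hθ0
  have := mul_le_of_le_one_left (show 0 ≤ 2 * gainCap S β + B by linarith) hθ1
  unfold pertI
  linarith

lemma integrable_adev (hf : Continuous f) {ι : Type} [Fintype ι] [DecidableEq ι] {β : ι → Batch}
    {R S : ℕ} (hR : 1 ≤ R) (h u : ι → ℝ) {N M : ℕ} [NeZero N] :
    Integrable (fun g => adev R (pw (S := S) (β := β) R (ham f g) h u) (ovK (spinAt R))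
      (qlev R (pw (S := S) (β := β) R (ham f g) h u) (spinAt R))) (pats N M) := by
  set w₀ : List (Vale.Agent.P168.MP.Mark N S β) → ℝ := fun p =>
    exp (∑ i : ι × Fin S, Vale.Agent.P168.MP.gain1 R h u p i)
  have e : ∀ g : Fin M → Fin N → ℝ, pw (S := S) (β := β) R (ham f g) h u =
      fun p => w₀ p * ham f g (spinAt R p) := fun g => funext fun p => mul_comm _ _
  have hp : ∀ (g : Fin M → Fin N → ℝ) p, 0 < w₀ p * ham f g (spinAt R p) := fun g p =>
    mul_pos (exp_pos _) (ham_pos f g _)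
  have h1 : Continuous fun g : Fin M → Fin N → ℝ =>
      adev R (fun p => w₀ p * ham f g (spinAt R p)) (ovK (spinAt R))
        (qlev R (fun p => w₀ p * ham f g (spinAt R p)) (spinAt R)) := by
    have h : ∀ j, Continuous fun g : Fin M → Fin N → ℝ =>
        devOf R (fun p => w₀ p * ham f g (spinAt R p)) (ovK (spinAt R))
          (qlev R (fun p => w₀ p * ham f g (spinAt R p)) (spinAt R)) j := fun j =>
      continuous_ET (fun p => (continuous_ham hf (spinAt R p)).const_mul _) hp R _ fun _ =>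
        (continuous_const.sub (continuous_qlev hf (fun _ => exp_pos _) (spinAt R) j)).abs
    unfold adev
    exact ((continuous_finsetSum _ fun j _ => h j).div_const _).add (h R)
  simp only [e]
  refine Integrable.of_bound h1.aestronglyMeasurable 6 (Eventually.of_forall fun g => ?_)
  have hd := abs_le.1 (abs_dlv_le (hp g) hR (spinAt R) R)
  have h0 := devOf_nonneg (R := R) (hp g) (ovK (spinAt R))
    (qlev R (fun p => w₀ p * ham f g (spinAt R p)) (spinAt R)) R
  rw [Real.norm_eq_abs, abs_of_nonneg (adev_nonneg (hp g) _ _)]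
  simp only [dlv] at hd
  linarith [hd.2]

/-- **Lower bound**: a bound on the functional at linear exponents bounds the pressure from below -/
theorem lower_of_le (hS : Sm f f1 f2 f3 B D) (hB : ∀ x, f x ≤ B) {α : ℝ} (hα : 0 < α) {s : ℝ}
    (hs : ∀ (R : ℕ) (q : ℕ → ℝ), 1 ≤ R → Prof R q 1 → q R = 1 → s ≤ Fval α f R (lin R) q) :
    ∀ ε > 0, ∀ᶠ N : ℕ in atTop, s - ε ≤ pressure (isingUniform N) f ⌊α * N⌋₊ := by
  intro ε hε
  have hf : Continuous f := continuous_iff_continuousAt.2 fun x => (hS.d0 x).continuousAt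
  set δ := ε / 4
  have hδ : 0 < δ := by positivity
  obtain ⟨C, N₀, J, hC, hinc⟩ := increment hS hB hα δ hδ
  obtain ⟨R₀, hR₀⟩ := grid_rep (show 0 < δ / (C * J + 1) by positivity)
  set R := max R₀ 2
  have hR2 : 2 ≤ R := le_max_right _ _
  have hR1 : 1 ≤ R := by omega
  obtain ⟨S, M, hp, ub, -, hM, hp0, hp1, hub, hub1, hgrid⟩ := hR₀ R (le_max_left _ _)
  have : NeZero M := ⟨hM.ne'⟩
  set β := allBatch R 2
  have hh : ∀ _j : BIdx R 2, |hp| ≤ 1 := fun _ => by rw [abs_of_pos hp0]; exact hp1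
  have hu : ∀ (g : BIdx R 2 → Fin M) j, |gu ub M g j| ≤ 1 := fun g j => by
    obtain ⟨a, b⟩ := Vale.Agent.P168.MP.gu_mem hub g j
    rw [abs_of_pos a]; exact b.trans hub1
  have hcard : (0 : ℝ) < Fintype.card (BIdx R 2 → Fin M) := Vale.Agent.P168.MP.card_pos_real
  set a : ℕ → ℝ := fun n => Vale.Agent.P168.MP.avg fun g : BIdx R 2 → Fin M =>
    pertI f R S β (fun _ => hp) (gu ub M g) (n + 1) (α * ((n + 1 : ℕ) : ℝ)) with ha
  obtain ⟨n₁, hn₁⟩ := exists_nat_ge (growC R S β / δ)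
  set m₀ := max N₀ n₁
  set c := s - 3 * δ
  have hstep : ∀ n, m₀ ≤ n → a n + c ≤ a (n + 1) := by
    intro n hn
    set W : (BIdx R 2 → Fin M) → ∀ {K : ℕ}, (Fin K → Fin (n + 1) → ℝ) →
        List (Vale.Agent.P168.MP.Mark (n + 1) S β) → ℝ :=
      fun g {K} G => pw (S := S) (β := β) R (ham f G) (fun _ => hp) (gu ub M g)
    set I : ℕ → (BIdx R 2 → Fin M) → ℝ := fun i g =>
      ∫ G, adev R (W g G) (ovK (spinAt R)) (qlev R (W g G) (spinAt R)) ∂pats (n + 1) (⌊α * (n + 1 : ℕ)⌋₊ + i)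
    have hI : ∀ i, Vale.Agent.P168.MP.avg (I i) ≤ δ / (C * J + 1) := by
      intro i
      simp only [I, Vale.Agent.P168.MP.avg]
      rw [← integral_finsetSum _ fun g _ => integrable_adev hf hR1 _ _, ← integral_div]
      refine (integral_mono ((integrable_finsetSum _ fun g _ => integrable_adev hf hR1 _ _).div_const _)
        (integrable_const (δ / (C * J + 1))) fun G => ?_).trans_eq (by simp)
      exact hgrid (n + 1) (ham f G) fun σ => ham_pos f G σ
    have hg : ∀ g : BIdx R 2 → Fin M, s - δ - C * (∑ i ∈ range J, I i g) - δ ≤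
        pertI f R S β (fun _ => hp) (gu ub M g) (n + 1 + 1) (α * ((n + 1 + 1 : ℕ) : ℝ)) -
          pertI f R S β (fun _ => hp) (gu ub M g) (n + 1) (α * ((n + 1 : ℕ) : ℝ)) := by
      intro g
      have h1 := hinc β (R := R) (S := S) (fun _ => hp) (gu ub M g) hR2 hh (hu g) (n + 1)
        (by have := le_of_max_le_left hn; omega)
      have h2 : s ≤ ∫ G, Fval α f R (lin R) (qlev R (W g G) (spinAt R)) ∂pats (n + 1) ⌊α * (n + 1 : ℕ)⌋₊ := by
        calc s = ∫ _G, s ∂pats (n + 1) ⌊α * (n + 1 : ℕ)⌋₊ := by simp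
          _ ≤ _ := integral_mono (integrable_const s) (integrable_fval hS hR1 hα.le) fun G => by
            obtain ⟨hq, hqR⟩ := qlev_prof (R := R) (w := W g G) (rd := spinAt R)
              fun p => mul_pos (ham_pos f G _) (exp_pos _)
            exact hs R _ hR1 hq hqR
      have h3 : growC R S β / (((n + 1 : ℕ) : ℝ) + 1) ≤ δ := by
        rw [div_le_iff₀ (by positivity)]
        rw [div_le_iff₀ hδ] at hn₁
        have h4 : (n₁ : ℝ) ≤ n := by exact_mod_cast le_of_max_le_right hn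
        have := mul_le_mul_of_nonneg_right h4 hδ.le
        push_cast
        linarith
      simp only [W, I] at h1 h2 ⊢
      linarith
    have h5 := Vale.Agent.P168.MP.avg_le_avg hg
    have h6 : C * ∑ i ∈ range J, Vale.Agent.P168.MP.avg (I i) ≤ δ := by
      refine (mul_le_mul_of_nonneg_left (Finset.sum_le_sum fun i _ => hI i) hC).trans ?_
      rw [Finset.sum_const, Finset.card_range, nsmul_eq_mul, ← mul_assoc, mul_div_left_comm]
      exact mul_le_of_le_one_right hδ.le ((div_le_one (by positivity)).2 (by linarith))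
    simp only [ha, Vale.Agent.P168.MP.avg, Finset.sum_sub_distrib, Finset.sum_const, Finset.card_univ,
      nsmul_eq_mul, ← Finset.mul_sum, ← Finset.sum_div, sub_div, mul_div_assoc] at h5 h6 ⊢
    rw [Finset.sum_comm] at h5
    simp only [← mul_div_assoc, mul_comm _ (Fintype.card _ : ℝ), mul_div_cancel_left₀ _ hcard.ne'] at h5 h6 ⊢
    simp only [c] at *
    linarith
  have hlow : ∀ j : ℕ, a m₀ + j * c ≤ a (m₀ + j) := by
    intro j
    induction j with
    | zero => simp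
    | succ j ih =>
      have := hstep (m₀ + j) (Nat.le_add_right _ _)
      rw [show m₀ + (j + 1) = m₀ + j + 1 by omega]
      push_cast
      linarith
  set D₀ := |a m₀| + ((m₀ : ℝ) + 1) * |c| + 3 * gainCap S β + |B|
  obtain ⟨n₂, hn₂⟩ := exists_nat_ge (D₀ / δ)
  refine eventually_atTop.2 ⟨max (m₀ + 1) (n₂ + 1), fun n hn => ?_⟩
  obtain ⟨j, rfl⟩ : ∃ j, n = m₀ + j + 1 := ⟨n - m₀ - 1, by have := le_of_max_le_left hn; omega⟩
  have hup : a (m₀ + j) ≤ ((m₀ + j + 1 : ℕ) : ℝ) *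
      pressure (isingUniform (m₀ + j + 1)) f ⌊α * ((m₀ + j + 1 : ℕ) : ℝ)⌋₊ + 3 * gainCap S β + B := by
    refine (Vale.Agent.P168.MP.avg_le_avg fun g => pertI_near hS hB hR1 hh (hu g) (m₀ + j + 1)
      (by positivity)).trans_eq ?_
    exact Vale.Agent.P168.MP.avg_const _
  have hn2 : (n₂ : ℝ) + 1 ≤ ((m₀ + j + 1 : ℕ) : ℝ) := by exact_mod_cast le_of_max_le_right hn
  have hnj : ((m₀ + j + 1 : ℕ) : ℝ) = m₀ + j + 1 := by push_cast; ring
  set n := ((m₀ + j + 1 : ℕ) : ℝ) with hnn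
  have hnpos : 0 < n := by linarith [Nat.cast_nonneg (α := ℝ) n₂]
  have hDn : D₀ ≤ n * δ := by
    rw [div_le_iff₀ hδ] at hn₂
    exact hn₂.trans (mul_le_mul_of_nonneg_right (by linarith) hδ.le)
  have hl := hlow j
  rw [show (j : ℝ) * c = n * c - ((m₀ : ℝ) + 1) * c by rw [hnj]; ring] at hl
  have := mul_le_mul_of_nonneg_left (le_abs_self c) (show 0 ≤ (m₀ : ℝ) + 1 by positivity)
  have := neg_abs_le (a m₀)
  have := le_abs_self B
  refine le_of_mul_le_mul_left ?_ hnpos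
  simp only [D₀, c, δ] at *
  linarith

/-- the pressure is asymptotically at least the infimum of the Parisi functional -/
theorem lower_bound (hS : Sm f f1 f2 f3 B D) (hB : ∀ x, f x ≤ B) {α : ℝ} (hα : 0 < α) :
    ∀ ε > 0, ∀ᶠ N : ℕ in atTop, sInf (Parisi.parisiValues (fun y => exp (f y)) α) - ε ≤
      pressure (isingUniform N) f ⌊α * N⌋₊ :=
  lower_of_le hS hB hα fun _ _ hR hq h1 =>
    csInf_le (values_bddBelow hS hB hα.le) (fval_mem hS hB hα.le hR hq h1)

/-- the lower bound, by a profile with linear exponents -/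
theorem lower_bound_lin (hS : Sm f f1 f2 f3 B D) (hB : ∀ x, f x ≤ B) {α : ℝ} (hα : 0 < α) :
    ∀ ε > 0, ∀ᶠ N : ℕ in atTop, ∃ (R : ℕ) (q : ℕ → ℝ), 1 ≤ R ∧ Prof R q 1 ∧ q R = 1 ∧
      Fval α f R (lin R) q - ε ≤ pressure (isingUniform N) f ⌊α * N⌋₊ := by
  intro ε hε
  set V := {v : ℝ | ∃ (R : ℕ) (q : ℕ → ℝ), 1 ≤ R ∧ Prof R q 1 ∧ q R = 1 ∧ v = Fval α f R (lin R) q}
  have hbd : BddBelow V := (values_bddBelow hS hB hα.le).mono fun v ⟨R, q, hR, hq, h1, e⟩ =>
    e ▸ fval_mem hS hB hα.le hR hq h1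
  have hne : V.Nonempty := ⟨_, 1, fun _ => 1, le_rfl, ⟨zero_le_one, fun _ _ => le_rfl, le_rfl⟩, rfl, rfl⟩
  filter_upwards [lower_of_le hS hB hα (s := sInf V)
    (fun R q hR hq h1 => csInf_le hbd ⟨R, q, hR, hq, h1, rfl⟩) (ε / 2) (by positivity)] with N hN
  obtain ⟨v, ⟨R, q, hR, hq, h1, rfl⟩, hv⟩ := exists_lt_of_csInf_lt hne (show sInf V < sInf V + ε / 2 by linarith)
  exact ⟨R, q, hR, hq, h1, by linarith⟩

/-! ### the positive-definite class -/

section pd
variable {ν : Measure ℝ} [IsFiniteMeasure ν] {c : ℝ}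

/-- **The formula**: for `e^f = c - ft ν` the pressure tends to the infimum of the Parisi functional -/
theorem pd_limit (hc : ν.real Set.univ < c) (h3 : Integrable (fun t : ℝ => |t| ^ 3) ν) {α : ℝ}
    (hα : 0 < α) :
    Tendsto (fun N : ℕ => pressure (isingUniform N) (PD.pot ν c) ⌊α * N⌋₊) atTop
      (𝓝 (sInf (Parisi.parisiValues (fun y => exp (PD.pot ν c y)) α))) := by
  obtain ⟨f1, f2, f3, B, D, hS, hB⟩ := pot_sm h3 hc
  set s := sInf (Parisi.parisiValues (fun y => exp (PD.pot ν c y)) α)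
  rw [Metric.tendsto_nhds]
  intro ε hε
  obtain ⟨v, hv, hvs⟩ : ∃ v ∈ Parisi.parisiValues (fun y => exp (PD.pot ν c y)) α, v < s + ε / 4 :=
    exists_lt_of_csInf_lt (values_nonempty _ _) (by linarith)
  obtain ⟨R, m, q, hR, hm, hq, hq0, hqR, rfl⟩ := exists_fval hS hB hα.le hv
  obtain ⟨K, hK⟩ := upper_bound hc hS hR hm hq hq0 hqR hα
  set A := |K| * (√α + 2)
  obtain ⟨n₀, hn₀⟩ := exists_nat_ge (A / (ε / 4))
  filter_upwards [lower_bound hS hB hα (ε / 2) (by positivity), eventually_ge_atTop (max 1 (n₀ ^ 2))]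
    with N hlow hN
  have hN1 : 1 ≤ N := le_of_max_le_left hN
  have hN0 : (0:ℝ) < N := by exact_mod_cast hN1
  have hsN : (n₀ : ℝ) ≤ √N := Real.le_sqrt_of_sq_le (by exact_mod_cast le_of_max_le_right hN)
  have hs1 : 1 ≤ √(N:ℝ) := Real.one_le_sqrt.2 (by exact_mod_cast hN1)
  have hfl : (⌊α * N⌋₊ : ℝ) ≤ α * N := Nat.floor_le (by positivity)
  have hfl2 : |(⌊α * N⌋₊ : ℝ) - α * N| ≤ 1 := by
    rw [abs_le]; constructor <;> linarith [Nat.lt_floor_add_one (α * N)]
  have h1 : √(⌊α * N⌋₊ : ℝ) + 1 + |(⌊α * N⌋₊ : ℝ) - α * N| ≤ (√α + 2) * √N := by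
    have := Real.sqrt_le_sqrt hfl
    rw [Real.sqrt_mul hα.le] at this
    nlinarith
  have h2 : A * √N ≤ ε / 4 * N := by
    rw [div_le_iff₀ (by positivity)] at hn₀
    calc A * √N ≤ √N * (ε / 4) * √N :=
          mul_le_mul_of_nonneg_right (hn₀.trans (mul_le_mul_of_nonneg_right hsN (by positivity))) (Real.sqrt_nonneg _)
      _ = ε / 4 * (√N * √N) := by ring
      _ = ε / 4 * N := by rw [Real.mul_self_sqrt hN0.le]
  have h3 : K * (√(⌊α * N⌋₊ : ℝ) + 1 + |(⌊α * N⌋₊ : ℝ) - α * N|) / N ≤ ε / 4 := by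
    rw [div_le_iff₀ hN0]
    refine (mul_le_mul_of_nonneg_right (le_abs_self K) (by positivity)).trans ?_
    exact (mul_le_mul_of_nonneg_left h1 (abs_nonneg K)).trans ((le_of_eq (mul_assoc _ _ _).symm).trans h2)
  have h4 := hK N ⌊α * N⌋₊ hN1
  rw [Real.dist_eq, abs_lt]
  constructor <;> linarith

end pd

end Vale.Agent.P157.Par
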