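import Vale.Agent.P157.Par.Lip
import Vale.Agent.P157.Par.Close

/-! Lipschitz dependence of the site value on the profile. -/

open MeasureTheory ProbabilityTheory Real Finset
open Vale.Agent.P168.MP (lin ok_lin)

namespace Vale.Agent.P157.Par

variable {f f1 f2 f3 : ℝ → ℝ} {B D : ℝ}

lemma gm_prof (hS : Sm f f1 f2 f3 B D) {R : ℕ} (hR : 1 ≤ R) {q : ℕ → ℝ} (hq : Prof R q 1) :
    Prof R (Gm f f1 R q) (D ^ 2) :=
  Gamma_prof hS hR hq fun _ hw => ok_lin hR hw

lemma Esite_lip (hS : Sm f f1 f2 f3 B D) (A : ℝ) : ∃ K : ℝ, 0 ≤ K ∧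
    ∀ (α : ℝ) (R : ℕ) (q q' : ℕ → ℝ), 0 ≤ α → α ≤ A → 1 ≤ R → Prof R q 1 → Prof R q' 1 →
      |Esite α f f1 R q - Esite α f f1 R q'| ≤ K * dist1 R q q' := by
  obtain ⟨Kf, hKf, hf⟩ := Phi_lip hS 1
  obtain ⟨Kc, hKc, hc⟩ := Phi_lip sm_logcosh (|A| * D ^ 2)
  refine ⟨|A| * Kc * (3 * Kf) + |A| / 2 * (3 * Kf + D ^ 2), by positivity, fun α R q q' h0 h1 hR hq hq' => ?_⟩
  have hA : α ≤ |A| := h1.trans (le_abs_self A)
  have hR' : (0:ℝ) < R := by exact_mod_cast hR
  have hd := dist1_nonneg R q q'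
  set G := Gm f f1 R q
  set G' := Gm f f1 R q'
  have hG := gm_prof hS hR hq
  have hG' := gm_prof hS hR hq'
  have hl : ∀ l ≤ R, |G l - G' l| ≤ Kf * (|q l - q' l| + dist1 R q q') := fun l hl => by
    refine ((hf R q q' hR hq hq').2 l hl).trans_eq ?_
    unfold dist1; ring
  have hdG : dist1 R G G' ≤ 3 * Kf * dist1 R q q' := by
    calc dist1 R G G' ≤ (∑ l ∈ range R, Kf * (|q l - q' l| + dist1 R q q')) / R +
          Kf * (|q R - q' R| + dist1 R q q') := add_le_add
            (div_le_div_of_nonneg_right (sum_le_sum fun l h => hl l (mem_range.1 h).le) hR'.le) (hl R le_rfl)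
      _ = Kf * (((∑ l ∈ range R, |q l - q' l|) / R + |q R - q' R|) + 2 * dist1 R q q') := by
          rw [← mul_sum, sum_add_distrib, sum_const, card_range, nsmul_eq_mul]; field_simp; ring
      _ = 3 * Kf * dist1 R q q' := by unfold dist1; ring
  have h2 := (hc R (fun l => α * G l) (fun l => α * G' l) hR
    ((hG.scale h0).weaken (mul_le_mul_of_nonneg_right hA (sq_nonneg D)))
    ((hG'.scale h0).weaken (mul_le_mul_of_nonneg_right hA (sq_nonneg D)))).1
  have e2 : (∑ l ∈ range R, |α * G l - α * G' l|) / (R:ℝ) + |α * G R - α * G' R| = α * dist1 R G G' := by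
    simp only [← mul_sub, abs_mul, abs_of_nonneg h0, ← mul_sum, dist1]; ring
  rw [cosh_eq_exp, e2] at h2
  have h3 : |∑ l ∈ range (R + 1), coef R l * (G l * q l) - ∑ l ∈ range (R + 1), coef R l * (G' l * q' l)| ≤
      dist1 R G G' + D ^ 2 * dist1 R q q' := by
    have hp : ∀ l ≤ R, |G l * q l - G' l * q' l| ≤ |G l - G' l| + D ^ 2 * |q l - q' l| := fun l hl => by
      rw [show G l * q l - G' l * q' l = (G l - G' l) * q l + G' l * (q l - q' l) by ring]
      refine (abs_add_le _ _).trans (add_le_add ?_ ?_) <;> rw [abs_mul]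
      · have := hq.upper hl
        exact mul_le_of_le_one_right (abs_nonneg _) (abs_le.2 ⟨by linarith, this.2⟩)
      · have := hG'.upper hl
        exact mul_le_mul_of_nonneg_right (abs_le.2 ⟨by linarith, this.2⟩) (abs_nonneg _)
    rw [← sum_sub_distrib, sum_range_succ, coef_top hR, one_mul, one_mul]
    refine (abs_add_le _ _).trans ?_
    have := hp R le_rfl
    have h4 : |∑ l ∈ range R, (coef R l * (G l * q l) - coef R l * (G' l * q' l))| ≤
        (∑ l ∈ range R, |G l - G' l|) / R + D ^ 2 * ((∑ l ∈ range R, |q l - q' l|) / R) := by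
      refine (abs_sum_le_sum_abs _ _).trans ?_
      rw [← mul_div_assoc, mul_sum, ← add_div, ← sum_add_distrib, sum_div]
      refine sum_le_sum fun l hl => ?_
      rw [← mul_sub, coef_lt (mem_range.1 hl), abs_mul, abs_neg, abs_of_nonneg (by positivity),
        one_div_mul_eq_div]
      exact div_le_div_of_nonneg_right (hp l (mem_range.1 hl).le) hR'.le
    unfold dist1
    linarith
  unfold Esite
  rw [show ∀ a b c d : ℝ, a - c - (b - d) = (a - b) - (c - d) from fun a b c d => by ring,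
    ← mul_sub]
  refine (abs_sub _ _).trans ?_
  rw [abs_mul (α / 2), abs_of_nonneg (by positivity : 0 ≤ α / 2)]
  have m1 : Kc * (α * dist1 R G G') ≤ |A| * Kc * (3 * Kf) * dist1 R q q' := by
    calc Kc * (α * dist1 R G G') ≤ Kc * (|A| * (3 * Kf * dist1 R q q')) :=
          mul_le_mul_of_nonneg_left (mul_le_mul hA hdG (dist1_nonneg _ _ _) (abs_nonneg A)) hKc
      _ = _ := by ring
  have m2 := (mul_le_mul_of_nonneg_left (h3.trans (add_le_add hdG le_rfl)) (by positivity : (0:ℝ) ≤ α / 2)).trans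
    (mul_le_mul_of_nonneg_right (div_le_div_of_nonneg_right hA zero_le_two) (by positivity))
  calc _ ≤ Kc * (α * dist1 R G G') + |A| / 2 * (3 * Kf * dist1 R q q' + D ^ 2 * dist1 R q q') :=
        add_le_add h2 m2
    _ ≤ _ := by rw [add_mul (|A| * Kc * (3 * Kf))]; linarith

end Vale.Agent.P157.Par
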