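import Vale.Agent.P157.Par.Site

/-! Moments of the fields under the base system, and the mean of the shrinking term. -/

open MeasureTheory ProbabilityTheory Real Finset
open Vale.Agent.P150 (gauss dot)
open Vale.Agent.P168.MP (lin ET att Valid valid_single ok_lin)
open Vale.Agent.P157.Lim (xv)

namespace Vale.Agent.P157.Par

variable {f f1 f2 f3 : ℝ → ℝ} {B D : ℝ}
variable {Ω : Type} [Fintype Ω] [Nonempty Ω] {R N M : ℕ}

/-- sum of the squares of the patterns -/
noncomputable def gsq (g : Fin M → Fin N → ℝ) : ℝ := ∑ a, ∑ i, g a i ^ 2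

lemma integrable_gsq : Integrable (gsq : (Fin M → Fin N → ℝ) → ℝ) (pats N M) := by
  unfold gsq
  refine integrable_finsetSum _ fun a _ => integrable_finsetSum _ fun i _ => ?_
  have h2 : Integrable (fun z : ℝ => z ^ 2) (gaussianReal 0 1) := (memLp_id_gaussianReal 2).integrable_sq
  have h1 : Integrable (fun y : Fin N → ℝ => y i ^ 2) (gauss (Fin N)) :=
    (measurePreserving_eval (fun _ : Fin N => gaussianReal 0 1) i).integrable_comp_of_integrable h2
  exact (measurePreserving_eval (fun _ : Fin M => gauss (Fin N)) a).integrable_comp_of_integrable h1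

lemma gsum_le (g : Fin M → Fin N → ℝ) : gsum g ≤ gsq g * √(N : ℝ) + M * √(N : ℝ) := by
  unfold gsum gsq
  have h : ∀ x : ℝ, |x| / √(N : ℝ) ≤ x ^ 2 / √(N : ℝ) + 1 / √(N : ℝ) := fun x => by
    rw [← add_div]
    exact div_le_div_of_nonneg_right (by nlinarith [sq_abs x, abs_nonneg x, sq_nonneg (|x| - 1)]) (Real.sqrt_nonneg _)
  have h' : ∀ x : ℝ, 0 ≤ x → x / √(N : ℝ) ≤ x * √(N : ℝ) := fun x hx => by
    rcases Nat.eq_zero_or_pos N with rfl | hN
    · simp
    · have : (1:ℝ) ≤ √(N : ℝ) := Real.one_le_sqrt.2 (by exact_mod_cast hN)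
      exact (div_le_self hx this).trans (le_mul_of_one_le_right hx this)
  rw [sum_mul]
  refine (sum_le_sum fun a _ => ?_).trans_eq (show ∑ a, ((∑ i, g a i ^ 2) * √(N:ℝ) + √(N:ℝ)) = _ by
    rw [sum_add_distrib]; simp)
  refine (sum_le_sum fun i _ => h _).trans ?_
  rw [sum_add_distrib, ← sum_div, sum_const, card_univ, Fintype.card_fin, nsmul_eq_mul, mul_one_div,
    Real.div_sqrt]
  exact add_le_add (h' _ (sum_nonneg fun i _ => sq_nonneg _)) le_rfl

lemma integral_gsum_le :
    Integrable (gsum : (Fin M → Fin N → ℝ) → ℝ) (pats N M) ∧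
      ∫ g, gsum g ∂pats N M ≤ 2 * (M * √(N : ℝ)) := by
  have hc : Continuous (gsum : (Fin M → Fin N → ℝ) → ℝ) := by unfold gsum; fun_prop
  have hi : Integrable (gsum : (Fin M → Fin N → ℝ) → ℝ) (pats N M) := by
    refine ((integrable_gsq.mul_const √(N:ℝ)).add (integrable_const ((M:ℝ) * √(N:ℝ)))).mono'
      hc.aestronglyMeasurable (Filter.Eventually.of_forall fun g => ?_)
    rw [Real.norm_eq_abs, abs_of_nonneg (sum_nonneg fun _ _ => sum_nonneg fun _ _ => by positivity)]
    exact gsum_le g
  refine ⟨hi, ?_⟩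
  have h2 : Integrable (fun z : ℝ => z ^ 2) (gaussianReal 0 1) := (memLp_id_gaussianReal 2).integrable_sq
  have h1 : Integrable (fun z : ℝ => |z|) (gaussianReal 0 1) := by
    simpa using integrable_pow_gaussian 1
  have hb : ∫ z, |z| ∂gaussianReal 0 1 ≤ 2 := by
    refine (integral_mono h1 (h2.add (integrable_const 1)) fun z => ?_).trans ?_
    · simp only [Pi.add_apply]; nlinarith [sq_abs z, abs_nonneg z, sq_nonneg (|z| - 1)]
    · have hv := variance_id_gaussianReal (μ := 0) (v := 1)
      rw [variance_eq_sub (memLp_id_gaussianReal 2)] at hv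
      simp only [id, integral_id_gaussianReal] at hv
      have e : ∫ z : ℝ, z ^ 2 ∂gaussianReal 0 1 = 1 := by simpa using hv
      rw [integral_add' h2 (integrable_const _), e]
      simp [one_add_one_eq_two]
  have hy : ∀ i : Fin N, Integrable (fun y : Fin N → ℝ => |y i|) (gauss (Fin N)) := fun i =>
    (measurePreserving_eval (fun _ : Fin N => gaussianReal 0 1) i).integrable_comp_of_integrable h1
  have hg : ∀ (a : Fin M) (i : Fin N), Integrable (fun g : Fin M → Fin N → ℝ => |g a i|) (pats N M) :=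
    fun a i => (measurePreserving_eval (fun _ : Fin M => gauss (Fin N)) a).integrable_comp_of_integrable (hy i)
  have e : ∀ (a : Fin M) (i : Fin N), ∫ g : Fin M → Fin N → ℝ, |g a i| ∂pats N M =
      ∫ z, |z| ∂gaussianReal 0 1 := fun a i => by
    rw [pats, integral_comp_eval (μ := fun _ : Fin M => gauss (Fin N)) (i := a)
      (f := fun y : Fin N → ℝ => |y i|) (continuous_abs.comp (continuous_apply i)).aestronglyMeasurable, gauss,
      integral_comp_eval (μ := fun _ : Fin N => gaussianReal 0 1) (i := i) (f := fun z : ℝ => |z|) (by fun_prop)]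
  unfold gsum
  rw [integral_finsetSum _ fun a _ => integrable_finsetSum _ fun i _ => (hg a i).div_const _]
  simp only [fun a => integral_finsetSum (μ := pats N M) univ fun i _ => (hg a i).div_const √(N:ℝ),
    integral_div, e]
  simp only [sum_const, card_univ, Fintype.card_fin, nsmul_eq_mul]
  rw [← mul_assoc, mul_comm ((M:ℝ) * N), div_mul_eq_mul_div, mul_div_assoc, mul_div_assoc, Real.div_sqrt]
  exact mul_le_mul_of_nonneg_right hb (by positivity)

lemma sq_uat_le (rd : List Ω → Fin N → Bool) (g : Fin M → Fin N → ℝ) (p : List Ω) (a : Fin M) :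
    uat rd g p a ^ 2 ≤ gsq g := by
  refine le_trans ?_ (single_le_sum (f := fun a => ∑ i, g a i ^ 2) (fun a _ => sum_nonneg fun i _ => sq_nonneg _)
    (mem_univ a))
  refine (sum_mul_sq_le_sq_mul_sq univ (fun i => xv N (rd p) i) (fun i => g a i)).trans ?_
  refine mul_le_of_le_one_left (sum_nonneg fun i _ => sq_nonneg _) ?_
  rcases Nat.eq_zero_or_pos N with rfl | hN
  · simp
  · exact le_of_eq (by simpa [dot, sq] using Vale.Agent.P157.Lim.dot_xv hN (rd p))

/-- second moment of a linear form -/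
lemma integral_dot_sq {ι : Type*} [Fintype ι] (x : ι → ℝ) :
    Integrable (fun y : ι → ℝ => dot x y ^ 2) (gauss ι) ∧ ∫ y, dot x y ^ 2 ∂gauss ι = dot x x := by
  have hX : ∀ i, MemLp (fun z : ℝ => x i * z) 2 (gaussianReal 0 1) := fun i =>
    (memLp_id_gaussianReal 2).const_mul _
  have hXa : ∀ i, MemLp (fun y : ι → ℝ => x i * y i) 2 (gauss ι) := fun i =>
    (hX i).comp_measurePreserving (measurePreserving_eval _ i)
  have hsum : MemLp (fun y : ι → ℝ => dot x y) 2 (gauss ι) := memLp_finsetSum univ fun i _ => hXa i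
  refine ⟨hsum.integrable_sq, ?_⟩
  have hv := variance_sum_pi (μ := fun _ : ι => gaussianReal 0 1) hX
  have hmean : ∫ y, dot x y ∂gauss ι = 0 := by
    unfold dot
    rw [integral_finsetSum _ fun i _ => (hXa i).integrable one_le_two]
    refine Finset.sum_eq_zero fun i _ => ?_
    rw [gauss, integral_comp_eval (i := i) (μ := fun _ : ι => gaussianReal 0 1) (hX i).aestronglyMeasurable]
    rw [integral_const_mul, integral_id_gaussianReal, mul_zero]
  rw [show (∑ i, fun y : ι → ℝ => x i * y i) = fun y => dot x y from funext fun y => Finset.sum_apply _ _ _,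
    variance_eq_sub (show MemLp _ 2 (Measure.pi fun _ : ι => gaussianReal 0 1) from hsum)] at hv
  simp only [Pi.pow_apply] at hv
  rw [show Measure.pi (fun _ : ι => gaussianReal 0 1) = gauss ι from rfl, hmean] at hv
  simp only [zero_pow two_ne_zero, sub_zero] at hv
  refine hv.trans (Finset.sum_congr rfl fun i _ => ?_)
  rw [variance_const_mul, variance_fun_id_gaussianReal]
  simp [sq]

lemma wg_ins (f : ℝ → ℝ) (w₀ : List Ω → ℝ) (rd : List Ω → Fin N → Bool) (a : Fin (M + 1))
    (y : Fin N → ℝ) (g : Fin M → Fin N → ℝ) :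
    wg f w₀ rd (ins a y g) = fun p => wg f w₀ rd g p * fac f (fun p => xv N (rd p)) y p := by
  funext p
  rw [wg, wg, ham_ins, fac, mul_assoc]

lemma uat_ins (rd : List Ω → Fin N → Bool) (a : Fin (M + 1)) (y : Fin N → ℝ) (g : Fin M → Fin N → ℝ)
    (p : List Ω) : uat rd (ins a y g) p a = dot (xv N (rd p)) y := by
  simp [uat, ins]

/-- continuous functions dominated by the squares are integrable -/
lemma integrable_of_gsq {H : (Fin M → Fin N → ℝ) → ℝ} (hc : Continuous H) {C C' : ℝ}
    (h : ∀ g, |H g| ≤ C * gsq g + C') : Integrable H (pats N M) :=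
  ((integrable_gsq.const_mul C).add (integrable_const C')).mono' hc.aestronglyMeasurable
    (Filter.Eventually.of_forall fun g => (Real.norm_eq_abs _).trans_le (h g))

/-- the squares of the fields have bounded mean under the base system -/
lemma integral_usq_le (hS : Sm f f1 f2 f3 B D) (hB : ∀ x, f x ≤ B) (hR : 1 ≤ R) [NeZero N]
    {w₀ : List Ω → ℝ} (hw : ∀ p, 0 < w₀ p) (rd : List Ω → Fin N → Bool) (a : Fin M) :
    Integrable (fun g => ET R (lin R) (wg f w₀ rd g) [(0, 0)] fun ps => uat rd g (ps.getD 0 []) a ^ 2)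
        (pats N M) ∧
      ∫ g, ET R (lin R) (wg f w₀ rd g) [(0, 0)] (fun ps => uat rd g (ps.getD 0 []) a ^ 2) ∂pats N M ≤
        exp (2 * B) := by
  obtain ⟨M, rfl⟩ : ∃ M', M = M' + 1 := ⟨M - 1, by have := a.pos; omega⟩
  have hp : ∀ g : Fin (M + 1) → Fin N → ℝ, ∀ p, 0 < wg f w₀ rd g p := fun g => wg_pos hw rd g
  have hi : Integrable (fun g => ET R (lin R) (wg f w₀ rd g) [(0, 0)]
      fun ps => uat rd g (ps.getD 0 []) a ^ 2) (pats N (M + 1)) := by
    refine integrable_of_gsq (C := 1) (C' := 0) (continuous_ET (fun p => continuous_wg hS w₀ rd p) hp R _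
      fun ps => (continuous_uat rd _ a).pow 2) fun g => ?_
    refine Vale.Agent.P168.MP.ET_bound (hp g) fun ps => ?_
    rw [abs_of_nonneg (sq_nonneg _), one_mul, add_zero]
    exact sq_uat_le rd g _ a
  refine ⟨hi, ?_⟩
  rw [integral_pats_succ a hi]
  refine (integral_mono_of_nonneg (Filter.Eventually.of_forall fun g => integral_nonneg fun y =>
    Vale.Agent.P168.MP.ET_nonneg (hp _) fun ps => sq_nonneg _) (integrable_const (exp (2 * B)))
    (Filter.Eventually.of_forall fun g => ?_)).trans_eq (by simp)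
  have hw' : ∀ p, 0 < wg f w₀ rd g p := wg_pos hw rd g
  obtain ⟨hI, hIe⟩ := integral_ET_one (μ := gauss (Fin N)) (R := R) (m := lin R) (w := wg f w₀ rd g)
    (fun y p => dot (xv N (rd p)) y ^ 2 * exp (2 * B))
    fun p => (integral_dot_sq (xv N (rd p))).1.mul_const _
  refine (integral_mono_of_nonneg (Filter.Eventually.of_forall fun y =>
    Vale.Agent.P168.MP.ET_nonneg (hp _) fun ps => sq_nonneg _) hI (Filter.Eventually.of_forall fun y => ?_)).trans ?_
  · simp only [wg_ins, uat_ins]
    refine (ET_one_tilt hR hw' (exp_pos (-B)) (fun p => ?_) fun p => sq_nonneg (dot (xv N (rd p)) y)).trans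
      (Vale.Agent.P168.MP.ET_mono hw' fun ps => mul_le_mul_of_nonneg_left ?_ (sq_nonneg _))
    · rw [fac]; exact exp_le_exp.2 (hS.lb _)
    · rw [fac, div_le_iff₀ (exp_pos _), ← exp_add]
      exact exp_le_exp.2 (by linarith [hB (dot (xv N (rd (ps.getD 0 []))) y)])
  · rw [hIe]
    refine (Vale.Agent.P168.MP.ET_mono hw' (G := fun _ => exp (2 * B)) fun ps => ?_).trans_eq
      (Vale.Agent.P168.MP.ET_const hw' _ _)
    rw [integral_mul_const, (integral_dot_sq _).2, Vale.Agent.P157.Lim.dot_xv (NeZero.pos N), one_mul]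

lemma att_lin_sum (hR : 1 ≤ R) (φ : ℕ → ℝ) (Φ : (ℕ × ℕ) → ℝ) (h : ∀ l, Φ (0, l) = φ l) :
    ((att R (lin R) [(0, 0)]).map fun c => c.2 * Φ c.1).sum = ∑ l ∈ range (R + 1), coef R l * φ l := by
  simp only [att, List.length_nil, List.map_append, List.map_map, List.sum_append, List.map_cons,
    List.map_nil, List.sum_cons, List.sum_nil, Function.comp_def, h, Nat.sub_zero, zero_add, add_zero]
  rw [sum_range' (fun l => (lin R l - lin R (l + 1)) * φ l) R 1, Finset.sum_Ico_eq_sum_range,
    sum_range_succ']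
  congr 1
  · rw [Nat.add_sub_cancel_left]
    exact sum_congr rfl fun l _ => by simp [coef, add_comm]
  · simp [coef]

/-- the mean of one shrinking term, by integration by parts in the pattern -/
lemma integral_ibp (hS : Sm f f1 f2 f3 B D) (hR : 1 ≤ R) [NeZero N] {w₀ : List Ω → ℝ}
    (hw : ∀ p, 0 < w₀ p) (rd : List Ω → Fin N → Bool) (a : Fin M) :
    ∫ g, ET R (lin R) (wg f w₀ rd g) [(0, 0)] (fun ps =>
        f2 (uat rd g (ps.getD 0 []) a) - uat rd g (ps.getD 0 []) a * f1 (uat rd g (ps.getD 0 []) a)) ∂pats N M =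
      -∫ g, (∑ l ∈ range (R + 1), coef R l * ET R (lin R) (wg f w₀ rd g) [(0, l), (0, 0)] fun ps =>
        ovK rd (ps.getD 0 []) (ps.getD 1 []) *
          (f1 (uat rd g (ps.getD 0 []) a) * f1 (uat rd g (ps.getD 1 []) a))) ∂pats N M := by
  obtain ⟨M, rfl⟩ : ∃ M', M = M' + 1 := ⟨M - 1, by have := a.pos; omega⟩
  have hD := hS.nonneg
  have hp : ∀ g : Fin (M + 1) → Fin N → ℝ, ∀ p, 0 < wg f w₀ rd g p := fun g => wg_pos hw rd g
  have hc := fun p => continuous_wg (M := M + 1) hS w₀ rd p
  have hu : ∀ (ps : List (List Ω)) (i : ℕ), Continuous fun g : Fin (M + 1) → Fin N → ℝ =>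
      uat rd g (ps.getD i []) a := fun ps i => continuous_uat rd _ a
  have hl : Integrable (fun g => ET R (lin R) (wg f w₀ rd g) [(0, 0)] fun ps =>
      f2 (uat rd g (ps.getD 0 []) a) - uat rd g (ps.getD 0 []) a * f1 (uat rd g (ps.getD 0 []) a))
      (pats N (M + 1)) := by
    refine integrable_of_gsq (C := D) (C' := 2 * D) (continuous_ET hc hp R _ fun ps =>
      (hS.cont2.comp (hu ps 0)).sub ((hu ps 0).mul (hS.cont1.comp (hu ps 0)))) fun g => ?_
    refine Vale.Agent.P168.MP.ET_bound (hp g) fun ps => (abs_sub _ _).trans ?_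
    have h1 := hS.b2 (uat rd g (ps.getD 0 []) a)
    have h2 : |uat rd g (ps.getD 0 []) a * f1 (uat rd g (ps.getD 0 []) a)| ≤ D * gsq g + D := by
      rw [abs_mul]
      have := sq_uat_le rd g (ps.getD 0 []) a
      have h0 : |uat rd g (ps.getD 0 []) a| ≤ gsq g + 1 := by
        nlinarith [sq_abs (uat rd g (ps.getD 0 []) a), abs_nonneg (uat rd g (ps.getD 0 []) a)]
      refine (mul_le_mul h0 (hS.b1 _) (abs_nonneg _) ((abs_nonneg _).trans h0)).trans_eq ?_
      ring
    linarith
  have hr : Integrable (fun g => ∑ l ∈ range (R + 1), coef R l * ET R (lin R) (wg f w₀ rd g) [(0, l), (0, 0)]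
      fun ps => ovK rd (ps.getD 0 []) (ps.getD 1 []) *
        (f1 (uat rd g (ps.getD 0 []) a) * f1 (uat rd g (ps.getD 1 []) a))) (pats N (M + 1)) :=
    integrable_finsetSum _ fun l _ => (integrable_of_gsq (C := 0) (C' := D * D) (continuous_ET hc hp R _ fun ps =>
      continuous_const.mul ((hS.cont1.comp (hu ps 0)).mul (hS.cont1.comp (hu ps 1)))) fun g => by
        refine Vale.Agent.P168.MP.ET_bound (hp g) fun ps => ?_
        simp only [Pi.mul_apply, Function.comp_apply]
        rw [abs_mul, abs_mul, zero_mul, zero_add]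
        exact (mul_le_of_le_one_left (mul_nonneg (abs_nonneg _) (abs_nonneg _)) (abs_ov_le _ _)).trans
          (mul_le_mul (hS.b1 _) (hS.b1 _) (abs_nonneg _) hD)).const_mul _
  rw [integral_pats_succ a hl, integral_pats_succ a hr, ← integral_neg]
  refine integral_congr_ae (Filter.Eventually.of_forall fun g => ?_)
  set w := wg f w₀ rd g
  have hw' : ∀ p, 0 < w p := wg_pos hw rd g
  set av : List Ω → Fin N → ℝ := fun p => xv N (rd p)
  have hcv : ∀ p p', cv av p p' = ovK rd p p' := fun p p' => ov_eq _ _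
  have hpy : ∀ y p, 0 < w p * fac f av y p := fun y p => mul_pos (hw' p) (exp_pos _)
  have hcy : ∀ p, Continuous fun y => w p * fac f av y p := fun p => by
    unfold fac; exact continuous_const.mul (continuous_exp.comp (hS.cont0.comp (continuous_dot_left _)))
  have h2 : Integrable (fun y => ET R (lin R) (fun p => w p * fac f av y p) [(0, 0)]
      fun ps => f2 (dot (av (ps.getD 0 [])) y)) (gauss (Fin N)) :=
    Integrable.of_bound (continuous_ET hcy hpy R _ fun ps =>
      hS.cont2.comp (continuous_dot_left _)).aestronglyMeasurable D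
      (Filter.Eventually.of_forall fun y => by
        rw [Real.norm_eq_abs]; exact Vale.Agent.P168.MP.ET_bound (hpy y) fun ps => hS.b2 _)
  have h3 : Integrable (fun y => ∑ l ∈ range (R + 1), coef R l * ET R (lin R) (fun p => w p * fac f av y p)
      [(0, l), (0, 0)] fun ps => cv av (ps.getD 0 []) (ps.getD 1 []) *
        (f1 (dot (av (ps.getD 0 [])) y) * f1 (dot (av (ps.getD 1 [])) y))) (gauss (Fin N)) :=
    integrable_finsetSum _ fun l _ => (Integrable.of_bound (continuous_ET hcy hpy R _ fun ps =>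
      continuous_const.mul ((hS.cont1.comp (continuous_dot_left _)).mul
        (hS.cont1.comp (continuous_dot_left _)))).aestronglyMeasurable (D * D)
      (Filter.Eventually.of_forall fun y => by
        rw [Real.norm_eq_abs]
        refine Vale.Agent.P168.MP.ET_bound (hpy y) fun ps => ?_
        simp only [Pi.mul_apply, Function.comp_apply]
        rw [abs_mul, abs_mul, hcv]
        exact (mul_le_of_le_one_left (mul_nonneg (abs_nonneg _) (abs_nonneg _)) (abs_ov_le _ _)).trans
          (mul_le_mul (hS.b1 _) (hS.b1 _) (abs_nonneg _) hD))).const_mul _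
  have h4 : Integrable (fun y => ET R (lin R) (fun p => w p * fac f av y p) [(0, 0)]
      fun ps => f1 (dot (av (ps.getD 0 [])) y) * dot (av (ps.getD 0 [])) y) (gauss (Fin N)) := by
    refine Vale.Agent.P150.integrable_of_bound (continuous_ET hcy hpy R _ fun ps =>
      (hS.cont1.comp (continuous_dot_left _)).mul (continuous_dot_left _)) (C := D) (M := 1) fun y => ?_
    refine Vale.Agent.P168.MP.ET_bound (hpy y) fun ps => ?_
    rw [abs_mul, one_mul]
    refine mul_le_mul (hS.b1 _) ?_ (abs_nonneg _) hD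
    refine (Vale.Agent.P150.abs_dot_le (A := 1) (fun i => ?_) y).trans ?_
    · simp only [av, xv, abs_div, abs_of_nonneg (Real.sqrt_nonneg _)]
      rw [show |Vale.Agent.P157.Lim.sgn (rd (ps.getD 0 []) i)| = 1 by
        unfold Vale.Agent.P157.Lim.sgn; split_ifs <;> simp]
      exact div_le_one_of_le₀ (Real.one_le_sqrt.2 (by exact_mod_cast NeZero.pos N)) (Real.sqrt_nonneg _)
    · linarith [add_one_le_exp (Vale.Agent.P150.l1 y)]
  have hib := ibp_value hS hR hw' av
  have e1 : ∀ y, ET R (lin R) (fun p => w p * fac f av y p) [(0, 0)]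
      (fun ps => cv av (ps.getD 0 []) (ps.getD 0 []) * f2 (dot (av (ps.getD 0 [])) y)) =
      ET R (lin R) (fun p => w p * fac f av y p) [(0, 0)] fun ps => f2 (dot (av (ps.getD 0 [])) y) :=
    fun y => by simp only [hcv, ovK, ov_self, one_mul]
  have e2 : ∀ y, ((att R (lin R) [(0, 0)]).map fun c => c.2 * ET R (lin R) (fun p => w p * fac f av y p)
      [c.1, (0, 0)] fun ps => cv av (ps.getD 0 []) (ps.getD 1 []) *
        (f1 (dot (av (ps.getD 0 [])) y) * f1 (dot (av (ps.getD 1 [])) y))).sum =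
      ∑ l ∈ range (R + 1), coef R l * ET R (lin R) (fun p => w p * fac f av y p) [(0, l), (0, 0)]
        fun ps => cv av (ps.getD 0 []) (ps.getD 1 []) *
          (f1 (dot (av (ps.getD 0 [])) y) * f1 (dot (av (ps.getD 1 [])) y)) :=
    fun y => att_lin_sum hR _ (fun x => ET R (lin R) (fun p => w p * fac f av y p) [x, (0, 0)]
      fun ps => cv av (ps.getD 0 []) (ps.getD 1 []) *
        (f1 (dot (av (ps.getD 0 [])) y) * f1 (dot (av (ps.getD 1 [])) y))) fun l => rfl
  simp only [e1, e2] at hib
  rw [integral_add h2 h3] at hib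
  have hL : ∀ y, ET R (lin R) (wg f w₀ rd (ins a y g)) [(0, 0)] (fun ps =>
      f2 (uat rd (ins a y g) (ps.getD 0 []) a) -
        uat rd (ins a y g) (ps.getD 0 []) a * f1 (uat rd (ins a y g) (ps.getD 0 []) a)) =
      ET R (lin R) (fun p => w p * fac f av y p) [(0, 0)] (fun ps => f2 (dot (av (ps.getD 0 [])) y)) -
      ET R (lin R) (fun p => w p * fac f av y p) [(0, 0)]
        (fun ps => f1 (dot (av (ps.getD 0 [])) y) * dot (av (ps.getD 0 [])) y) := fun y => by
    rw [← Vale.Agent.P168.MP.ET_sub]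
    simp only [wg_ins, uat_ins, w, av, mul_comm (f1 _)]
  have hRr : ∀ y, (∑ l ∈ range (R + 1), coef R l * ET R (lin R) (wg f w₀ rd (ins a y g)) [(0, l), (0, 0)]
      fun ps => ovK rd (ps.getD 0 []) (ps.getD 1 []) *
        (f1 (uat rd (ins a y g) (ps.getD 0 []) a) * f1 (uat rd (ins a y g) (ps.getD 1 []) a))) =
      ∑ l ∈ range (R + 1), coef R l * ET R (lin R) (fun p => w p * fac f av y p) [(0, l), (0, 0)]
        fun ps => cv av (ps.getD 0 []) (ps.getD 1 []) *
          (f1 (dot (av (ps.getD 0 [])) y) * f1 (dot (av (ps.getD 1 [])) y)) := fun y => by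
    simp only [wg_ins, uat_ins, hcv]
    rfl
  simp only [hL, hRr]
  rw [integral_sub h2 h4, hib]
  ring

end Vale.Agent.P157.Par
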