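import Vale.Agent.P157.Par.SiteInt

/-! The mean gain of one site is at least the mean site value, up to the deviations. -/

open MeasureTheory ProbabilityTheory Real Finset
open Vale.Agent.P150 (gauss dot)
open Vale.Agent.P168.MP (lin ET nest Valid valid_single ok_lin)

namespace Vale.Agent.P157.Par

variable {f f1 f2 f3 : ℝ → ℝ} {B D : ℝ}
variable {Ω : Type} [Fintype Ω] [Nonempty Ω] {R N M : ℕ}

/-- sum of the mean squares of the fields -/
noncomputable def usum (f : ℝ → ℝ) (w₀ : List Ω → ℝ) (rd : List Ω → Fin N → Bool) (R : ℕ)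
    (g : Fin M → Fin N → ℝ) : ℝ :=
  ∑ a, ET R (lin R) (wg f w₀ rd g) [(0, 0)] fun ps => uat rd g (ps.getD 0 []) a ^ 2

/-- the mean shrinking term -/
noncomputable def shr (f f1 f2 : ℝ → ℝ) (w₀ : List Ω → ℝ) (rd : List Ω → Fin N → Bool) (R : ℕ)
    (g : Fin M → Fin N → ℝ) : ℝ :=
  ∑ a, ET R (lin R) (wg f w₀ rd g) [(0, 0)] fun ps =>
    f2 (uat rd g (ps.getD 0 []) a) - uat rd g (ps.getD 0 []) a * f1 (uat rd g (ps.getD 0 []) a)

/-- the pointwise bounds of the shrinking term, per base system -/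
lemma psi_bounds (hS : Sm f f1 f2 f3 B D) [NeZero N] {w₀ : List Ω → ℝ} (hw : ∀ p, 0 < w₀ p)
    (rd : List Ω → Fin N → Bool) (g : Fin M → Fin N → ℝ) {c t : ℝ} (hc : 0 ≤ c)
    (hct : c ^ 2 + t ^ 2 = 1) :
    t ^ 2 / 2 * shr f f1 f2 w₀ rd R g - t ^ 2 * t ^ 2 * D * (3 * usum f w₀ rd R g + 3 * M) ≤
        ET R (lin R) (wg f w₀ rd g) [(0, 0)] (fun ps => ∑ a, (f (c * uat rd g (ps.getD 0 []) a) -
            f (uat rd g (ps.getD 0 []) a) + t ^ 2 / 2 * f2 (c * uat rd g (ps.getD 0 []) a))) ∧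
      ET R (lin R) (wg f w₀ rd g) [(0, 0)] (fun ps => (∑ a, (f (c * uat rd g (ps.getD 0 []) a) -
            f (uat rd g (ps.getD 0 []) a) + t ^ 2 / 2 * f2 (c * uat rd g (ps.getD 0 []) a))) ^ 2) ≤
        2 * (t ^ 2 * t ^ 2 * D ^ 2) * M * (usum f w₀ rd R g + M) := by
  set w := wg f w₀ rd g
  have hwp : ∀ p, 0 < w p := wg_pos hw rd g
  set Ψ : List Ω → ℝ := fun p => ∑ a, (f (c * uat rd g p a) - f (uat rd g p a) + t ^ 2 / 2 * f2 (c * uat rd g p a))
  have hb := fun p a => hS.shrink_term hc hct (uat rd g p a)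
  have hU : usum f w₀ rd R g = ET R (lin R) w [(0, 0)] fun ps => ∑ a, uat rd g (ps.getD 0 []) a ^ 2 :=
    (Vale.Agent.P168.MP.ET_sum _ _ _).symm
  have hP : shr f f1 f2 w₀ rd R g = ET R (lin R) w [(0, 0)] fun ps => ∑ a,
      (f2 (uat rd g (ps.getD 0 []) a) - uat rd g (ps.getD 0 []) a * f1 (uat rd g (ps.getD 0 []) a)) :=
    (Vale.Agent.P168.MP.ET_sum _ _ _).symm
  constructor
  · rw [hU, hP]
    refine le_trans (le_of_eq ?_) (Vale.Agent.P168.MP.ET_mono hwp (F := fun ps =>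
      t ^ 2 / 2 * ∑ a, (f2 (uat rd g (ps.getD 0 []) a) -
        uat rd g (ps.getD 0 []) a * f1 (uat rd g (ps.getD 0 []) a)) -
      (t ^ 2 * t ^ 2 * D * 3 * (∑ a, uat rd g (ps.getD 0 []) a ^ 2) + t ^ 2 * t ^ 2 * D * 3 * M))
      fun ps => ?_)
    · rw [Vale.Agent.P168.MP.ET_sub, Vale.Agent.P168.MP.ET_add, Vale.Agent.P168.MP.ET_const_mul,
        Vale.Agent.P168.MP.ET_const_mul, Vale.Agent.P168.MP.ET_const hwp]
      ring
    · have := sum_le_sum (s := univ) fun a _ => (abs_le.1 (hb (ps.getD 0 []) a).2).1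
      simp only [sum_sub_distrib, ← mul_sum, sum_neg_distrib, sum_add_distrib, sum_const, card_univ,
        Fintype.card_fin, nsmul_eq_mul] at this ⊢
      linarith
  · rw [hU]
    refine (Vale.Agent.P168.MP.ET_mono hwp (G := fun ps => 2 * (t ^ 2 * t ^ 2 * D ^ 2) * M *
      (∑ a, uat rd g (ps.getD 0 []) a ^ 2) + 2 * (t ^ 2 * t ^ 2 * D ^ 2) * M * M) fun ps => ?_).trans_eq ?_
    · have hcs := sq_sum_le_card_mul_sum_sq (s := (univ : Finset (Fin M)))
        (f := fun a => f (c * uat rd g (ps.getD 0 []) a) - f (uat rd g (ps.getD 0 []) a) +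
          t ^ 2 / 2 * f2 (c * uat rd g (ps.getD 0 []) a))
      rw [card_univ, Fintype.card_fin] at hcs
      refine hcs.trans ((mul_le_mul_of_nonneg_left (sum_le_sum (g := fun a =>
        t ^ 2 * t ^ 2 * D ^ 2 * (2 * uat rd g (ps.getD 0 []) a ^ 2 + 2)) fun a _ => ?_) (Nat.cast_nonneg M)).trans_eq ?_)
      · have h := pow_le_pow_left₀ (abs_nonneg _) (hb (ps.getD 0 []) a).1 2
        rw [sq_abs] at h
        refine h.trans ?_
        rw [mul_pow, mul_pow, ← sq (t ^ 2)]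
        refine mul_le_mul_of_nonneg_left ?_ (by positivity)
        nlinarith [sq_abs (uat rd g (ps.getD 0 []) a), sq_nonneg (|uat rd g (ps.getD 0 []) a| - 1)]
      · simp only [← mul_sum, sum_add_distrib, sum_const, card_univ, Fintype.card_fin, nsmul_eq_mul]
        ring
    · rw [Vale.Agent.P168.MP.ET_add, Vale.Agent.P168.MP.ET_const_mul, Vale.Agent.P168.MP.ET_const hwp]
      ring

lemma usum_props (hS : Sm f f1 f2 f3 B D) (hB : ∀ x, f x ≤ B) (hR : 1 ≤ R) [NeZero N]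
    {w₀ : List Ω → ℝ} (hw : ∀ p, 0 < w₀ p) (rd : List Ω → Fin N → Bool) :
    Integrable (usum f w₀ rd R : (Fin M → Fin N → ℝ) → ℝ) (pats N M) ∧
      ∫ g : Fin M → Fin N → ℝ, usum f w₀ rd R g ∂pats N M ≤ M * exp (2 * B) := by
  unfold usum
  refine ⟨integrable_finsetSum _ fun a _ => (integral_usq_le hS hB hR hw rd a).1, ?_⟩
  rw [integral_finsetSum _ fun a _ => (integral_usq_le hS hB hR hw rd a).1]
  exact (sum_le_sum fun a _ => (integral_usq_le hS hB hR hw rd a).2).trans_eq (by simp)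

lemma shr_props (hS : Sm f f1 f2 f3 B D) (hR : 1 ≤ R) [NeZero N]
    {w₀ : List Ω → ℝ} (hw : ∀ p, 0 < w₀ p) (rd : List Ω → Fin N → Bool) :
    Integrable (shr f f1 f2 w₀ rd R : (Fin M → Fin N → ℝ) → ℝ) (pats N M) ∧
      Integrable (fun g : Fin M → Fin N → ℝ => ∑ a, ∑ l ∈ range (R + 1), coef R l *
        ET R (lin R) (wg f w₀ rd g) [(0, l), (0, 0)] (fun ps => ovK rd (ps.getD 0 []) (ps.getD 1 []) *
          (f1 (uat rd g (ps.getD 0 []) a) * f1 (uat rd g (ps.getD 1 []) a)))) (pats N M) ∧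
      ∫ g : Fin M → Fin N → ℝ, shr f f1 f2 w₀ rd R g ∂pats N M =
        -∫ g : Fin M → Fin N → ℝ, (∑ a, ∑ l ∈ range (R + 1), coef R l *
          ET R (lin R) (wg f w₀ rd g) [(0, l), (0, 0)] (fun ps => ovK rd (ps.getD 0 []) (ps.getD 1 []) *
            (f1 (uat rd g (ps.getD 0 []) a) * f1 (uat rd g (ps.getD 1 []) a)))) ∂pats N M := by
  have hp : ∀ g : Fin M → Fin N → ℝ, ∀ p, 0 < wg f w₀ rd g p := fun g => wg_pos hw rd g
  have hc := fun p => continuous_wg (M := M) hS w₀ rd p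
  have hD := hS.nonneg
  have hl : ∀ a : Fin M, Integrable (fun g => ET R (lin R) (wg f w₀ rd g) [(0, 0)] fun ps =>
      f2 (uat rd g (ps.getD 0 []) a) - uat rd g (ps.getD 0 []) a * f1 (uat rd g (ps.getD 0 []) a))
      (pats N M) := fun a => by
    refine integrable_of_gsq (C := D) (C' := 2 * D) (continuous_ET hc hp R _ fun ps =>
      (hS.cont2.comp (continuous_uat rd _ a)).sub ((continuous_uat rd _ a).mul
        (hS.cont1.comp (continuous_uat rd _ a)))) fun g => ?_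
    refine Vale.Agent.P168.MP.ET_bound (hp g) fun ps => (abs_sub _ _).trans ?_
    have h1 := hS.b2 (uat rd g (ps.getD 0 []) a)
    have h0 : |uat rd g (ps.getD 0 []) a| ≤ gsq g + 1 := by
      nlinarith [sq_abs (uat rd g (ps.getD 0 []) a), abs_nonneg (uat rd g (ps.getD 0 []) a),
        sq_uat_le rd g (ps.getD 0 []) a]
    have h2 := mul_le_mul h0 (hS.b1 (uat rd g (ps.getD 0 []) a)) (abs_nonneg _) ((abs_nonneg _).trans h0)
    rw [← abs_mul] at h2
    linarith
  have hr : ∀ a : Fin M, Integrable (fun g => ∑ l ∈ range (R + 1), coef R l *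
      ET R (lin R) (wg f w₀ rd g) [(0, l), (0, 0)] fun ps => ovK rd (ps.getD 0 []) (ps.getD 1 []) *
        (f1 (uat rd g (ps.getD 0 []) a) * f1 (uat rd g (ps.getD 1 []) a))) (pats N M) := fun a =>
    integrable_finsetSum _ fun l _ => (integrable_of_gsq (C := 0) (C' := D * D) (continuous_ET hc hp R _ fun ps =>
      continuous_const.mul ((hS.cont1.comp (continuous_uat rd _ a)).mul
        (hS.cont1.comp (continuous_uat rd _ a)))) fun g => by
        refine Vale.Agent.P168.MP.ET_bound (hp g) fun ps => ?_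
        simp only [Pi.mul_apply, Function.comp_apply]
        rw [abs_mul, abs_mul, zero_mul, zero_add]
        exact (mul_le_of_le_one_left (mul_nonneg (abs_nonneg _) (abs_nonneg _)) (abs_ov_le _ _)).trans
          (mul_le_mul (hS.b1 _) (hS.b1 _) (abs_nonneg _) hD)).const_mul _
  unfold shr
  refine ⟨integrable_finsetSum _ fun a _ => hl a, integrable_finsetSum _ fun a _ => hr a, ?_⟩
  rw [integral_finsetSum _ fun a _ => hl a, integral_finsetSum _ fun a _ => hr a, ← sum_neg_distrib]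
  exact sum_congr rfl fun a _ => integral_ibp hS hR hw rd a

lemma continuous_siteG (hS : Sm f f1 f2 f3 B D) (hB : ∀ x, f x ≤ B) (hR : 1 ≤ R)
    {w₀ : List Ω → ℝ} (hw : ∀ p, 0 < w₀ p) (rd : List Ω → Fin N → Bool) (c t : ℝ) :
    Continuous fun x : (Fin M → Fin N → ℝ) × (Fin M → ℝ) =>
      log (nest (lin R) (wg f w₀ rd x.1) (siteY f c t rd x.1 x.2) R []) := by
  have hp : ∀ (x : (Fin M → Fin N → ℝ) × (Fin M → ℝ)) p, 0 < siteY f c t rd x.1 x.2 p := fun x p =>
    (exp_pos _).trans_le (siteY_bounds hS hB c t rd x.1 x.2 p).1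
  have hw' : ∀ (x : (Fin M → Fin N → ℝ) × (Fin M → ℝ)) p, 0 < wg f w₀ rd x.1 p := fun x p =>
    wg_pos hw rd x.1 p
  exact (continuous_nest (m := lin R) (fun p => (continuous_wg hS w₀ rd p).comp continuous_fst) hw'
    (fun p => continuous_siteY hS c t rd p) hp R []).log fun x =>
      (Vale.Agent.P168.MP.nest_pos (hw' x) (hp x) R []).ne'

/-- the arithmetic of the final bound -/
lemma total_arith {A D e2B K1 K2 θ θ' t dl ADK ADv Ph S P U Gs G E : ℝ}
    (hI : Ph + P - (3 * D * U) - K1 * (θ * (2 * D ^ 2 * E) + (ADK + dl + Gs + t) / θ) ≤ G)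
    (hP : -(A / 2 * ADK + dl * D ^ 2 + S) ≤ P) (hU : U ≤ t * (A * (e2B + 1)))
    (hE : E ≤ A * A * (e2B + 1)) (hG : Gs ≤ t * (2 * A)) (hQ : ADK ≤ 2 * θ' + K2 / θ' * ADv)
    (hA : 0 ≤ A) (hD : 0 ≤ D) (he : 0 ≤ e2B) (hK1 : 0 ≤ K1) (hK2 : 0 ≤ K2) (hθ : 0 < θ) (hθ1 : θ ≤ 1)
    (hθ' : 0 < θ') (ht : 0 ≤ t) (hdl : 0 ≤ dl) (hADv : 0 ≤ ADv) :
    Ph - S - (3 * D * A * (e2B + 1) + D ^ 2 + (A / 2 + K1) * (2 + K2) +
        K1 * (2 * D ^ 2 * (A * A * (e2B + 1)) + 2 * A + 1)) *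
      (θ + (θ' + ADv / θ' + dl + t) / θ) ≤ G := by
  set X := θ' + ADv / θ' + dl + t
  have hX : 0 ≤ X := by positivity
  have hXθ : X ≤ X / θ := le_div_self hX hθ hθ1
  have hv : 0 ≤ ADv / θ' := by positivity
  have q : ADK ≤ (2 + K2) * X := by
    refine hQ.trans ?_
    rw [div_mul_eq_mul_div, mul_div_assoc]
    nlinarith [mul_nonneg hK2 hθ'.le, mul_nonneg hK2 hdl, mul_nonneg hK2 ht]
  have c1 : 3 * D * U ≤ 3 * D * A * (e2B + 1) * (X / θ) := by
    calc 3 * D * U ≤ 3 * D * (t * (A * (e2B + 1))) := mul_le_mul_of_nonneg_left hU (by positivity)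
      _ = 3 * D * A * (e2B + 1) * t := by ring
      _ ≤ _ := mul_le_mul_of_nonneg_left (le_trans (by simp only [X]; linarith) hXθ) (by positivity)
  have c2 : A / 2 * ADK + dl * D ^ 2 ≤ (A / 2 * (2 + K2) + D ^ 2) * (X / θ) := by
    have a1 := mul_le_mul_of_nonneg_left (q.trans (mul_le_mul_of_nonneg_left hXθ (by linarith)))
      (by linarith : 0 ≤ A / 2)
    have a2 := mul_le_mul_of_nonneg_right (le_trans (show dl ≤ X by simp only [X]; linarith) hXθ) (sq_nonneg D)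
    linarith
  have c3 : K1 * (θ * (2 * D ^ 2 * E) + (ADK + dl + Gs + t) / θ) ≤
      K1 * (2 * D ^ 2 * (A * A * (e2B + 1))) * θ + K1 * ((2 + K2) + 2 * A + 1) * (X / θ) := by
    rw [mul_add]
    refine add_le_add ?_ ?_
    · calc K1 * (θ * (2 * D ^ 2 * E)) ≤ K1 * (θ * (2 * D ^ 2 * (A * A * (e2B + 1)))) := by gcongr
        _ = _ := by ring
    · rw [mul_assoc]
      refine mul_le_mul_of_nonneg_left ?_ hK1
      rw [← mul_div_assoc]
      refine div_le_div_of_nonneg_right ?_ hθ.le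
      have h1 : dl + t ≤ X := by simp only [X]; linarith
      have h2 : t * (2 * A) ≤ 2 * A * X := by
        rw [mul_comm]; exact mul_le_mul_of_nonneg_left (by simp only [X]; linarith) (by linarith)
      linarith
  have n1 : 0 ≤ (3 * D * A * (e2B + 1) + D ^ 2 + (A / 2 + K1) * (2 + K2) + K1 * (2 * A + 1)) * θ := by
    positivity
  have n2 : 0 ≤ K1 * (2 * D ^ 2 * (A * A * (e2B + 1))) * (X / θ) := by positivity
  linarith

/-- **one site, averaged over the base system** -/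
theorem site_total (hS : Sm f f1 f2 f3 B D) (hB : ∀ x, f x ≤ B) (A : ℝ) : ∃ K : ℝ, 0 ≤ K ∧
    ∀ {Ω : Type} [Fintype Ω] [Nonempty Ω] {R N M : ℕ} [NeZero N], 1 ≤ R → 2 ≤ M →
      ∀ {w₀ : List Ω → ℝ}, (∀ p, 0 < w₀ p) → ∀ (rd : List Ω → Fin N → Bool) {c t α θ θ' : ℝ},
      0 ≤ c → 0 < t → c ^ 2 + t ^ 2 = 1 → (M : ℝ) * t ^ 2 ≤ A → t ^ 2 * N ≤ 1 → 0 ≤ α → α ≤ A →
      0 < θ → θ ≤ 1 → 0 < θ' →
      ∫ g : Fin M → Fin N → ℝ, Esite α f f1 R (qb f w₀ rd R g) ∂pats N M -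
          K * (θ + (θ' + (ADev f w₀ rd R M + 1 / M) / θ' + |(M : ℝ) * t ^ 2 - α| + t) / θ) ≤
        ∫ g : Fin M → Fin N → ℝ, ∫ z, log (nest (lin R) (wg f w₀ rd g) (siteY f c t rd g z) R [])
          ∂gauss (Fin M) ∂pats N M := by
  obtain ⟨K1, hK1, hfix⟩ := site_fixed hS hB A
  obtain ⟨K2, hK2, hqc⟩ := qconc_sum hS hB
  obtain ⟨KE, hKE, hlip⟩ := Esite_lip hS A
  refine ⟨3 * D * |A| * (exp (2 * B) + 1) + D ^ 2 + (|A| / 2 + K1) * (2 + K2) +
    K1 * (2 * D ^ 2 * (|A| * |A| * (exp (2 * B) + 1)) + 2 * |A| + 1), by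
      have := hS.nonneg; positivity, ?_⟩
  intro Ω _ _ R N M _ hR hM w₀ hw rd c t α θ θ' hc ht hct hMt htN hα hαA hθ hθ1 hθ'
  have hD := hS.nonneg
  have hMt' : (M : ℝ) * t ^ 2 ≤ |A| := hMt.trans (le_abs_self A)
  have ht1 : t ≤ 1 := by nlinarith [sq_nonneg c]
  set μ := pats N M
  set dl := |(M : ℝ) * t ^ 2 - α|
  set q : (Fin M → Fin N → ℝ) → ℕ → ℝ := qb f w₀ rd R
  -- integrable pieces
  have hEs : Integrable (fun g => Esite α f f1 R (q g)) μ := by
    obtain ⟨h1, h2⟩ := cont_functional hR hKE (F := fun q => Esite α f f1 R q)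
      (fun q q' h h' => hlip α R q q' hα hαA hR h h') (fun g => (qb_prof (R := R) (f := f) hw rd g).1)
      (continuous_qb hS hw rd)
    exact Integrable.of_bound h1.aestronglyMeasurable _ (Filter.Eventually.of_forall fun g =>
      (Real.norm_eq_abs _).trans_le (h2 g))
  obtain ⟨hAi, -⟩ := integrable_adev_of hR (μ := μ) (w := fun g => wg f w₀ rd g) (C := fun g => qK f1 rd g)
    (q := fun g => Gm f f1 R (q g)) fun l hl => integrable_qKdev hS hR hw rd hl
  obtain ⟨hUi, hUe⟩ := usum_props (M := M) hS hB hR hw rd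
  obtain ⟨hPi, hTi, hPe⟩ := shr_props (M := M) hS hR hw rd
  obtain ⟨hgi, hge⟩ := integral_gsum_le (M := M) (N := N)
  set G : (Fin M → Fin N → ℝ) → ℝ := fun g =>
    ∫ z, log (nest (lin R) (wg f w₀ rd g) (siteY f c t rd g z) R []) ∂gauss (Fin M)
  have hGi : Integrable G μ := by
    have h : Integrable (fun x : (Fin M → Fin N → ℝ) × (Fin M → ℝ) =>
        log (nest (lin R) (wg f w₀ rd x.1) (siteY f c t rd x.1 x.2) R [])) (μ.prod (gauss (Fin M))) :=
      Integrable.of_bound (continuous_siteG hS hB hR hw rd c t).aestronglyMeasurable (2 * B * M)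
        (Filter.Eventually.of_forall fun x => by
          rw [Real.norm_eq_abs]; exact abs_log_nest_siteY hS hB hR (wg_pos hw rd x.1) c t rd x.1 x.2)
    exact h.integral_prod_left
  -- per base system
  set SG : (Fin M → Fin N → ℝ) → ℝ := fun g =>
    α / 2 * ∑ l ∈ range (R + 1), coef R l * (Gm f f1 R (q g) l * q g l)
  set ADK : (Fin M → Fin N → ℝ) → ℝ := fun g => adev R (wg f w₀ rd g) (qK f1 rd g) (Gm f f1 R (q g))
  set U : (Fin M → Fin N → ℝ) → ℝ := fun g => usum f w₀ rd R g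
  set P : (Fin M → Fin N → ℝ) → ℝ := fun g => shr f f1 f2 w₀ rd R g
  set T2 : (Fin M → Fin N → ℝ) → ℝ := fun g => ∑ a, ∑ l ∈ range (R + 1), coef R l *
    ET R (lin R) (wg f w₀ rd g) [(0, l), (0, 0)] (fun ps => ovK rd (ps.getD 0 []) (ps.getD 1 []) *
      (f1 (uat rd g (ps.getD 0 []) a) * f1 (uat rd g (ps.getD 1 []) a)))
  have hpt : ∀ g, t ^ 2 / 2 * T2 g - |A| / 2 * ADK g - dl * D ^ 2 - SG g +
      (Esite α f f1 R (q g) + SG g) + t ^ 2 / 2 * P g - 3 * D * (t ^ 2 * t ^ 2 * (U g + M)) -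
      K1 * (θ * (2 * D ^ 2 * (t ^ 2 * t ^ 2 * M * (U g + M))) +
        (ADK g + dl + t ^ 2 * t ^ 2 * gsum g + t) / θ) ≤ G g := fun g => by
    obtain ⟨b1, b2⟩ := psi_bounds (R := R) hS hw rd g hc hct
    have h := hfix hR rd (wg_pos (f := f) hw rd g) g hc ht hct hMt hα hαA hθ hθ1 (qb_prof (f := f) hw rd g).1
    have hcc := corr_close hS hR hw rd g hα hMt'
    have b2' := mul_le_mul_of_nonneg_left (mul_le_mul_of_nonneg_left b2 hθ.le) hK1
    have e : Esite α f f1 R (q g) + SG g = Phi cosh R (lin R) (fun l => α * Gm f f1 R (q g) l) := by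
      simp only [SG, Esite]; ring
    rw [e]
    simp only [SG, ADK, U, P, T2, G, q, mul_add, dl] at *
    linarith
  have hSGi : Integrable SG μ := by
    obtain ⟨Kh, hKh, hl2⟩ := Phi_lip sm_logcosh (|A| * D ^ 2)
    obtain ⟨Kg, hKg, hl3⟩ := Phi_lip hS 1
    have hcG : ∀ l ≤ R, Continuous fun g => Gm f f1 R (q g) l := fun l hl =>
      (cont_functional (X := Fin M → Fin N → ℝ) hR (F := fun q => Gm f f1 R q l) (K := (R + 2 : ℝ) * Kg)
        (by positivity) (fun q q' hq hq' => by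
          refine ((hl3 R q q' hR hq hq').2 l hl).trans ?_
          have hd := dist1_nonneg R q q'
          have hR' : (0:ℝ) < R := by exact_mod_cast hR
          have h1 : |q l - q' l| ≤ (R + 1 : ℝ) * dist1 R q q' := by
            rcases Nat.lt_or_eq_of_le hl with h | h
            · have := single_le_sum (f := fun j => |q j - q' j|) (fun j _ => abs_nonneg _) (mem_range.2 h)
              have h2 : (∑ j ∈ range R, |q j - q' j|) ≤ (R:ℝ) * dist1 R q q' := by
                rw [← div_le_iff₀' hR']; exact le_add_of_nonneg_right (abs_nonneg _)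
              linarith
            · have h3 : |q l - q' l| ≤ dist1 R q q' := by rw [h]; exact le_add_of_nonneg_left (by positivity)
              nlinarith [mul_nonneg (Nat.cast_nonneg (α := ℝ) R) hd]
          have e : (∑ j ∈ range R, |q j - q' j|) / (R:ℝ) + |q R - q' R| = dist1 R q q' := rfl
          rw [add_assoc |q l - q' l|, e, mul_comm (R + 2 : ℝ) Kg, mul_assoc]
          exact mul_le_mul_of_nonneg_left (by linarith) hKg)
        (fun g => (qb_prof (f := f) hw rd g).1) (continuous_qb hS hw rd)).1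
    refine Integrable.of_bound (Continuous.aestronglyMeasurable ?_) (α / 2 * ∑ l ∈ range (R + 1), |coef R l| * D ^ 2)
      (Filter.Eventually.of_forall fun g => ?_)
    · exact continuous_const.mul (continuous_finsetSum _ fun l hl => continuous_const.mul
        ((hcG l (by have := mem_range.1 hl; omega)).mul (continuous_qb hS hw rd l)))
    · rw [Real.norm_eq_abs, abs_mul, abs_of_nonneg (by linarith : 0 ≤ α / 2)]
      refine mul_le_mul_of_nonneg_left ((abs_sum_le_sum_abs _ _).trans (sum_le_sum fun l hl => ?_)) (by linarith)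
      have hl' : l ≤ R := by have := mem_range.1 hl; omega
      have h1 := (gm_prof hS hR (qb_prof (f := f) hw rd g).1).upper hl'
      have h2 := (qb_prof (R := R) (f := f) hw rd g).1.upper hl'
      rw [abs_mul, abs_mul, abs_of_nonneg h1.1, abs_of_nonneg h2.1]
      exact mul_le_mul_of_nonneg_left ((mul_le_of_le_one_right h1.1 h2.2).trans h1.2) (abs_nonneg _)
  -- integrate
  have i1 : Integrable (fun g => U g + M) μ := hUi.add (integrable_const _)
  have i2 : Integrable (fun g => t ^ 2 / 2 * T2 g - |A| / 2 * ADK g - dl * D ^ 2 - SG g +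
      (Esite α f f1 R (q g) + SG g) + t ^ 2 / 2 * P g - 3 * D * (t ^ 2 * t ^ 2 * (U g + M)) -
      K1 * (θ * (2 * D ^ 2 * (t ^ 2 * t ^ 2 * M * (U g + M))) +
        (ADK g + dl + t ^ 2 * t ^ 2 * gsum g + t) / θ)) μ := by
    fun_prop
  have hI := integral_mono i2 hGi hpt
  rw [integral_sub (by fun_prop) (by fun_prop), integral_sub (by fun_prop) (by fun_prop),
    integral_add (by fun_prop) (by fun_prop), integral_add (by fun_prop) (by fun_prop),
    integral_sub (by fun_prop) (by fun_prop), integral_sub (by fun_prop) (by fun_prop),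
    integral_sub (by fun_prop) (by fun_prop)] at hI
  have hc0 : ∀ x : ℝ, ∫ _g : Fin M → Fin N → ℝ, x ∂μ = x := fun x => by simp [μ]
  have hUM : ∫ g, U g + (M : ℝ) ∂μ = ∫ g, U g ∂μ + M := by rw [integral_add hUi (integrable_const _), hc0]
  have k1 : Integrable (fun g => ADK g + dl) μ := hAi.add (integrable_const dl)
  have k2 : Integrable (fun g => t ^ 2 * t ^ 2 * gsum g) μ := hgi.const_mul _
  have k3 : Integrable (fun g => ADK g + dl + t ^ 2 * t ^ 2 * gsum g) μ := k1.add k2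
  have k4 : Integrable (fun g => (ADK g + dl + t ^ 2 * t ^ 2 * gsum g + t) / θ) μ :=
    (k3.add (integrable_const t)).div_const θ
  have k5 : Integrable (fun g => θ * (2 * D ^ 2 * (t ^ 2 * t ^ 2 * M * (U g + M)))) μ :=
    ((i1.const_mul _).const_mul _).const_mul _
  have hlast : ∫ g, θ * (2 * D ^ 2 * (t ^ 2 * t ^ 2 * M * (U g + M))) +
      (ADK g + dl + t ^ 2 * t ^ 2 * gsum g + t) / θ ∂μ =
      θ * (2 * D ^ 2 * (t ^ 2 * t ^ 2 * M * (∫ g, U g ∂μ + M))) +
        (∫ g, ADK g ∂μ + dl + t ^ 2 * t ^ 2 * ∫ g, gsum g ∂μ + t) / θ := by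
    rw [integral_add k5 k4, integral_div, integral_add k3 (integrable_const t), integral_add k1 k2,
      integral_add hAi (integrable_const dl)]
    simp only [integral_const_mul, hUM, hc0]
  simp only [integral_const_mul, hc0, hUM, hlast, integral_add hEs hSGi] at hI
  have hQ : ∫ g, ADK g ∂μ ≤ 2 * θ' + K2 / θ' * (ADev f w₀ rd R M + 1 / M) := hqc hR hM hw rd hθ'
  have hADv : 0 ≤ ADev f w₀ rd R M + 1 / M := add_nonneg
    (integral_nonneg fun g => adev_nn (wg_pos hw rd g)) (by positivity)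
  have hM1 : (1:ℝ) ≤ M := by exact_mod_cast (show 1 ≤ M by omega)
  have e2 := exp_pos (2 * B)
  have hE : t ^ 2 * t ^ 2 * M * (∫ g, U g ∂μ + M) ≤ |A| * |A| * (exp (2 * B) + 1) :=
    calc t ^ 2 * t ^ 2 * M * (∫ g, U g ∂μ + M) ≤ t ^ 2 * t ^ 2 * M * (M * (exp (2 * B) + 1)) :=
          mul_le_mul_of_nonneg_left (by linarith [hUe]) (by positivity)
      _ = ((M:ℝ) * t ^ 2) * ((M:ℝ) * t ^ 2) * (exp (2 * B) + 1) := by ring
      _ ≤ _ := by gcongr
  have hU : t ^ 2 * t ^ 2 * (∫ g, U g ∂μ + M) ≤ t * (|A| * (exp (2 * B) + 1)) :=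
    calc t ^ 2 * t ^ 2 * (∫ g, U g ∂μ + M) ≤ t ^ 2 * t ^ 2 * (M * (exp (2 * B) + 1)) :=
          mul_le_mul_of_nonneg_left (by linarith [hUe]) (by positivity)
      _ = t * t * (((M:ℝ) * t ^ 2) * (exp (2 * B) + 1)) := by ring
      _ ≤ t * 1 * (|A| * (exp (2 * B) + 1)) := by gcongr
      _ = _ := by ring
  have hGs : t ^ 2 * t ^ 2 * ∫ g, gsum g ∂μ ≤ t * (2 * |A|) := by
    have hs : t * √(N : ℝ) ≤ 1 := by
      rw [← Real.sqrt_sq ht.le, ← Real.sqrt_mul (sq_nonneg t), Real.sqrt_le_one]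
      exact htN
    calc t ^ 2 * t ^ 2 * ∫ g, gsum g ∂μ ≤ t ^ 2 * t ^ 2 * (2 * (M * √(N : ℝ))) :=
          mul_le_mul_of_nonneg_left hge (by positivity)
      _ = t * (t * √(N : ℝ)) * (2 * ((M:ℝ) * t ^ 2)) := by ring
      _ ≤ t * 1 * (2 * |A|) := by gcongr
      _ = _ := by ring
  refine total_arith (E := t ^ 2 * t ^ 2 * M * (∫ g, U g ∂μ + M)) (S := 0)
    (P := -(|A| / 2 * ∫ g, ADK g ∂μ) - dl * D ^ 2) (U := t ^ 2 * t ^ 2 * (∫ g, U g ∂μ + M))
    (Ph := ∫ g, Esite α f f1 R (q g) ∂μ) (Gs := t ^ 2 * t ^ 2 * ∫ g, gsum g ∂μ)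
    (ADK := ∫ g, ADK g ∂μ) ?_ (by linarith) hU hE hGs hQ (abs_nonneg A) hD e2.le hK1 hK2 hθ hθ1
    hθ' ht.le (abs_nonneg _) hADv |>.trans_eq' ?_
  · simp only [T2, P, μ] at hI hPe ⊢
    rw [hPe] at hI
    linarith
  · simp only [sub_zero, dl, q, μ]

end Vale.Agent.P157.Par
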