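import Vale.Agent.P157.Par.Main

/-! For every finite spectral measure the pressure tends to the limit of the Parisi infima of the
truncated measures. -/

open MeasureTheory ProbabilityTheory Real Filter
open scoped Topology

namespace Vale.Agent.P157.Par

variable {ν : Measure ℝ} [IsFiniteMeasure ν] {c : ℝ}

/-- the formula for the truncations converges to the limit pressure -/
theorem pd_limit_trunc (hc : ν.real Set.univ < c) {α : ℝ} (hα : 0 < α) :
    ∃ l : ℝ,
      Tendsto (fun k : ℕ => sInf (Parisi.parisiValues
        (fun y => exp (PD.pot (ν.restrict {t : ℝ | |t| ≤ k}) c y)) α)) atTop (𝓝 l) ∧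
      Tendsto (fun N : ℕ => pressure (isingUniform N) (PD.pot ν c) ⌊α * N⌋₊) atTop (𝓝 l) := by
  obtain ⟨l, hl⟩ := PD.limit_exists (μ := isingUniform) (Or.inl rfl) hc hα
  refine ⟨l, ?_, hl⟩
  have hd : 0 < c - ν.real Set.univ := by linarith
  set out : ℕ → Set ℝ := fun k => {t : ℝ | (k : ℝ) < |t|}
  have htail : Tendsto (fun k => ν.real (out k)) atTop (𝓝 0) := by
    have hh := tendsto_measure_iInter_atTop (μ := ν) (s := out)
      (fun k => (measurableSet_lt measurable_const (by fun_prop)).nullMeasurableSet)
      (fun i j hij t (ht : (j:ℝ) < |t|) => lt_of_le_of_lt (Nat.cast_le.2 hij : (i:ℝ) ≤ j) ht) ⟨0, measure_ne_top _ _⟩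
    rw [show (⋂ k, out k) = ∅ from Set.eq_empty_of_forall_notMem fun t ht => by
      obtain ⟨k, hk⟩ := exists_nat_gt |t|
      exact lt_asymm hk (Set.mem_iInter.1 ht k), measure_empty] at hh
    exact (ENNReal.tendsto_toReal ENNReal.zero_ne_top).comp hh
  -- at each truncation the two limits are close
  have hbound : ∀ k : ℕ, |l - sInf (Parisi.parisiValues
      (fun y => exp (PD.pot (ν.restrict {t : ℝ | |t| ≤ k}) c y)) α)| ≤
        α / (c - ν.real Set.univ) * ν.real (out k) := by
    intro k
    set ν' := ν.restrict {t : ℝ | |t| ≤ (k:ℝ)}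
    have hs : MeasurableSet {t : ℝ | |t| ≤ (k:ℝ)} := measurableSet_le (by fun_prop) measurable_const
    have hc' : ν'.real Set.univ ≤ ν.real Set.univ := by
      rw [measureReal_restrict_apply MeasurableSet.univ]; exact measureReal_mono (by simp)
    have hc'' : ν'.real Set.univ < c := hc'.trans_lt hc
    have h3 : Integrable (fun t : ℝ => |t| ^ 3) ν' :=
      Integrable.of_bound (by fun_prop) ((k:ℝ) ^ 3) ((ae_restrict_mem hs).mono fun t ht => by
        rw [Real.norm_eq_abs, abs_pow, abs_abs]; exact pow_le_pow_left₀ (abs_nonneg t) ht 3)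
    have hclose : ∀ x, |PD.pot ν c x - PD.pot ν' c x| ≤ ν.real (out k) / (c - ν.real Set.univ) := by
      intro x
      refine (PD.abs_pot_sub hc hc').trans (div_le_div_of_nonneg_right ?_ hd.le)
      have i : Integrable (fun t => Real.cos (t * x)) ν :=
        Integrable.of_bound (by fun_prop) 1 (Eventually.of_forall fun t => by simpa using Real.abs_cos_le_one _)
      have e : PD.ft ν x - PD.ft ν' x = ∫ t in out k, Real.cos (t * x) ∂ν := by
        have := integral_add_compl hs i
        rw [show {t : ℝ | |t| ≤ (k:ℝ)}ᶜ = out k by ext t; simp [out]] at this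
        simp only [PD.ft, ν']
        linarith
      rw [e]
      simpa using norm_setIntegral_le_of_norm_le_const (C := 1) (f := fun t => Real.cos (t * x))
        (measure_lt_top ν (out k)) (fun t _ => by simpa using Real.abs_cos_le_one _)
    refine le_of_tendsto (hl.sub (pd_limit hc'' h3 hα)).abs ?_
    filter_upwards [eventually_gt_atTop 0] with N hN
    have := (carried_ising N).prob
    refine (PD.pressure_close (PD.continuous_pot hc).measurable (PD.continuous_pot hc'').measurable
      (B := max (max |Real.log (c - ν.real Set.univ)| |Real.log (c + ν.real Set.univ)|)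
        (max |Real.log (c - ν'.real Set.univ)| |Real.log (c + ν'.real Set.univ)|))
      (fun s => (PD.abs_pot_le hc s).trans (le_max_left _ _))
      (fun s => (PD.abs_pot_le hc'' s).trans (le_max_right _ _)) hclose _).trans ?_
    have hN0 : (0:ℝ) < N := by exact_mod_cast hN
    rw [div_le_iff₀ hN0]
    refine (mul_le_mul_of_nonneg_right (Nat.floor_le (by positivity))
      (div_nonneg measureReal_nonneg hd.le)).trans_eq ?_
    ring
  refine tendsto_iff_norm_sub_tendsto_zero.2 (squeeze_zero (fun _ => norm_nonneg _) (fun k => ?_)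
    (by simpa using htail.const_mul (α / (c - ν.real Set.univ))))
  rw [Real.norm_eq_abs, abs_sub_comm]
  exact hbound k

end Vale.Agent.P157.Par
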